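import Crest.Agent.R320.Defs

namespace Crest.Agent.R320

namespace CoarseCaseAux

theorem cell_of {h a c : ℕ} (hh : 0 < h) (h1 : a / h = c) : c * h ≤ a ∧ a < (c + 1) * h := by
  subst h1
  exact ⟨Nat.div_mul_le_self a h, (Nat.div_lt_iff_lt_mul hh).1 (Nat.lt_succ_self _)⟩

/-- The cell of an age close to `4 h M`. -/
theorem cell_near {h a M : ℕ} (hh : 0 < h) (h1 : 4 * h * M ≤ a + 2 * h)
    (h2 : a + 2 * h < 4 * h * M + 4 * h) : 4 * M ≤ a / h + 2 ∧ a / h + 2 < 4 * M + 4 := by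
  have e : (a + 2 * h) / h = a / h + 2 := Nat.add_mul_div_right a 2 hh
  rw [← e]
  constructor
  · rw [Nat.le_div_iff_mul_le hh]; linarith
  · rw [Nat.div_lt_iff_lt_mul hh]; linarith

theorem win_exists {ell x0 z : ℕ} (hl : 0 < ell) (hz : x0 ≤ z) :
    ∃ j, x0 + j * ell ≤ z ∧ z < x0 + j * ell + ell := by
  refine ⟨(z - x0) / ell, ?_, ?_⟩
  · have := Nat.div_mul_le_self (z - x0) ell
    omega
  · have := (Nat.div_lt_iff_lt_mul hl).1 (Nat.lt_succ_self ((z - x0) / ell))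
    rw [Nat.succ_mul] at this
    omega

end CoarseCaseAux

open CoarseCaseAux in
/-- During a lazy stretch of one trajectory, a large family of coarse blockers cannot survive. -/
theorem coarse_case {V : Type} [AddCommGroup V] (S : ISys V) (Θ : ℕ → ℕ → V × ℕ) (sg : ℕ → ℕ)
    (h p p2 Sg lh w t cc : ℕ) (Nh : ℕ → ℕ)
    (hh : 0 < h) (hell : S.ell = 4 * lh * h) (hlh : lh = 5 * Sg + 3) (hpl : p ∣ S.ell)
    (hN : ∀ a, a < w → 2 * Sg + 1 ≤ Nh a ∧ Nh a ≤ 3 * Sg + 1)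
    (hB3 : ∀ a b c a' b' c', a < w → b < w → c < w → a' < w → b' < w → c' < w →
      Nh a + Nh b + Nh c = Nh a' + Nh b' + Nh c' → a = a' ∨ a = b' ∨ a = c')
    (huse : ∀ a, S.usable a ↔ a / h < 4 * lh ∧
      ∀ M, (M = 0 ∨ M = lh ∨ ∃ b, b < w ∧ M = Nh b) → a / h ≠ 4 * M ∧ a / h + 1 ≠ 4 * M)
    (hsg : ∀ a, sg a = (a / h + 2) / 4)
    (hgam : ∀ a, S.gam a = (Θ (sg a) (a % p)).1)
    (hsh : ∀ a, S.sh a = sg a + p2 * (Θ (sg a) (a % p)).2)
    (hcoarse : CoarseGood Θ p p2 Sg lh t cc)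
    (E : ℕ → Prop) (hunb : ∀ c, ∃ e, c < e ∧ E e) (φ : ℕ → ℕ → V → V)
    (X0 m2 tend : ℕ) (htend : X0 + m2 * S.ell ≤ tend)
    (hlazy : ∀ j e, j < m2 → ¬ S.Us E (X0 + j * S.ell) e)
    (ε : ℕ → ℕ) (hε : ∀ k, k ≤ t → E (ε k)) (hε0 : X0 + 2 * S.ell ≤ ε 0)
    (hεs : ∀ k, k < t → ε k + S.ell ≤ ε (k + 1)) (hεt : ε t + 3 * S.ell ≤ X0 + m2 * S.ell)
    {ι : Type} (F : Finset ι) (hF : 2 * (cc + t + 1) ≤ F.card)
    (ν : ℕ) (hν : ν < w) (bi bj : ι → ℕ)
    (hb : ∀ y ∈ F, bi y < w ∧ bj y < w ∧ bi y ≠ bj y ∧ bi y ≠ 0) (hinj : Set.InjOn bi F)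
    (B : ι → ℕ → ℕ) (pr : ι → ℕ → Option ℕ)
    (hrun : ∀ y ∈ F, S.IRun E (B y) (pr y))
    (hdrift : ∀ y ∈ F, ∀ j, j ≤ m2 →
      B y j + 4 * h * (Nh (bj y) + Nh 0) ≤ X0 + j * S.ell + 4 * h * (Nh (bi y) + Nh ν) + h ∧
      X0 + j * S.ell + 4 * h * (Nh (bi y) + Nh ν) ≤ B y j + 4 * h * (Nh (bj y) + Nh 0) + h)
    (hch : ∀ y ∈ F, S.Chain φ (B y) (pr y) tend) : False := by
  classical
  have hw : 0 < w := lt_of_le_of_lt (Nat.zero_le _) hν
  have hell' : S.ell = 20 * (h * Sg) + 12 * h := by rw [hell, hlh]; ring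
  have hl0 : 0 < S.ell := by omega
  have hlh' : 4 * h * lh = S.ell := by rw [hell]; ring
  have hNinj : ∀ a a', a < w → a' < w → Nh a = Nh a' → a = a' := by
    intro a a' ha ha' he
    have := hB3 a a a a' a' a' ha ha ha ha' ha' ha' (by omega)
    omega
  obtain ⟨X, hX⟩ : ∃ X : ℕ → ℕ, ∀ j, X j = X0 + j * S.ell := ⟨_, fun _ => rfl⟩
  have hXs : ∀ j, X (j + 1) = X j + S.ell := fun j => by rw [hX, hX]; ring
  have hXm : ∀ j j', j ≤ j' → X j ≤ X j' := fun j j' hj => by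
    rw [hX, hX]; exact Nat.add_le_add_left (Nat.mul_le_mul_right _ hj) _
  simp only [← hX] at hlazy hdrift htend hεt
  obtain ⟨P, hP⟩ : ∃ P : ι → ℕ, ∀ y, P y = Nh (bj y) + Nh 0 := ⟨_, fun _ => rfl⟩
  obtain ⟨Q, hQ⟩ : ∃ Q : ι → ℕ, ∀ y, Q y = Nh (bi y) + Nh ν := ⟨_, fun _ => rfl⟩
  simp only [← hP, ← hQ] at hdrift
  have hPQ : ∀ y ∈ F, P y ≤ Q y + 2 * Sg ∧ Q y ≤ P y + 2 * Sg ∧ P y ≠ Q y := by
    intro y hy
    obtain ⟨h1, h2, h3, h4⟩ := hb y hy
    have := hN _ h1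
    have := hN _ h2
    have := hN _ hw
    have := hN _ hν
    refine ⟨by rw [hP, hQ]; omega, by rw [hP, hQ]; omega, fun he => ?_⟩
    rw [hP, hQ] at he
    have := hB3 (bi y) ν 0 (bj y) 0 0 h1 hν hw h2 hw hw (by omega)
    omega
  -- events during the lazy stretch are close to special positions
  have hG : ∀ j e, j < m2 → E e → X j ≤ e → e < X j + S.ell →
      ∃ M, (M = 0 ∨ M = lh ∨ ∃ b, b < w ∧ M = Nh b) ∧ X j + 4 * h * M ≤ e + h ∧
        e < X j + 4 * h * M + h := by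
    intro j e hj he h1 h2
    rcases h1.eq_or_lt with h1 | h1
    · exact ⟨0, Or.inl rfl, by omega, by omega⟩
    have h3 : ¬ S.usable (e - X j) := fun hu => hlazy j e hj ⟨h1, he, hu⟩
    obtain ⟨a, rfl⟩ : ∃ a, e = X j + a := ⟨e - X j, by omega⟩
    rw [Nat.add_sub_cancel_left, huse] at h3
    have h4 : a / h < 4 * lh := by
      rw [Nat.div_lt_iff_lt_mul hh, ← hell]; omega
    push Not at h3
    obtain ⟨M, hM, h5⟩ := h3 h4
    refine ⟨M, hM, ?_⟩
    obtain ⟨h6, h7⟩ := cell_of hh (rfl : a / h = a / h)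
    by_cases h8 : a / h = 4 * M
    · rw [h8] at h6 h7
      constructor <;> linarith
    · have h9 := h5 h8
      have e1 : (a / h + 1) * h = 4 * h * M := by rw [h9]; ring
      constructor <;> linarith
  -- a subfamily of one sign
  obtain ⟨σ, F1, hF1, hF1c, hσ01, hσ⟩ : ∃ (σ : ℕ) (F1 : Finset ι), F1 ⊆ F ∧ cc + t + 1 ≤ F1.card ∧
      (σ = 0 ∨ σ = 1) ∧ ∀ y ∈ F1, (σ = 0 ∧ Q y < P y) ∨ (σ = 1 ∧ P y < Q y) := by
    have hc := Finset.card_filter_add_card_filter_not (s := F) (fun y => Q y < P y)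
    by_cases h1 : cc + t + 1 ≤ (F.filter (fun y => Q y < P y)).card
    · exact ⟨0, _, Finset.filter_subset _ _, h1, Or.inl rfl,
        fun y hy => Or.inl ⟨rfl, (Finset.mem_filter.1 hy).2⟩⟩
    · refine ⟨1, F.filter (fun y => ¬ Q y < P y), Finset.filter_subset _ _, by omega, Or.inr rfl,
        fun y hy => Or.inr ⟨rfl, ?_⟩⟩
      obtain ⟨h2, h3⟩ := Finset.mem_filter.1 hy
      have := (hPQ y h2).2.2
      omega
  obtain ⟨win, hwin⟩ : ∃ win : ℕ → ℕ → Prop, ∀ j e, win j e ↔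
      X j + 4 * σ * h ≤ e + 2 * h ∧ e + 2 * h < X j + 4 * σ * h + S.ell := ⟨_, fun _ _ => Iff.rfl⟩
  have hNb : ∀ a, a < w → 8 * (h * Sg) + 4 * h ≤ 4 * h * Nh a ∧
      4 * h * Nh a ≤ 12 * (h * Sg) + 4 * h := by
    intro a ha
    have h1 := Nat.mul_le_mul_left h (hN a ha).1
    have h2 := Nat.mul_le_mul_left h (hN a ha).2
    constructor <;> linarith
  have W1 : ∀ j e, E e → win j e → 1 ≤ j → j + 2 ≤ m2 →
      ∃ M, (M = σ * lh ∨ ∃ a, a < w ∧ M = Nh a) ∧ X j + 4 * h * M ≤ e + h ∧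
        e < X j + 4 * h * M + h := by
    intro j e he hwn hj1 hj2
    rw [hwin] at hwn
    obtain ⟨h1, h2⟩ := hwn
    rcases hσ01 with rfl | rfl
    · by_cases h3 : X j ≤ e
      · obtain ⟨M, hM, h4, h5⟩ := hG j e (by omega) he h3 (by omega)
        refine ⟨M, ?_, h4, h5⟩
        rcases hM with rfl | rfl | hM
        · simp
        · omega
        · exact Or.inr hM
      · obtain ⟨j, rfl⟩ : ∃ j', j = j' + 1 := ⟨j - 1, by omega⟩
        have := hXs j
        obtain ⟨M, hM, h4, h5⟩ := hG j e (by omega) he (by omega) (by omega)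
        refine ⟨0, by simp, ?_, by omega⟩
        rcases hM with rfl | rfl | ⟨a, ha, rfl⟩
        · omega
        · omega
        · have := hNb a ha
          omega
    · by_cases h3 : e < X j + S.ell
      · obtain ⟨M, hM, h4, h5⟩ := hG j e (by omega) he (by omega) h3
        refine ⟨M, ?_, h4, h5⟩
        rcases hM with rfl | rfl | hM
        · omega
        · simp
        · exact Or.inr hM
      · have := hXs j
        obtain ⟨M, hM, h4, h5⟩ := hG (j + 1) e (by omega) he (by omega) (by omega)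
        refine ⟨lh, by simp, by omega, ?_⟩
        rcases hM with rfl | rfl | ⟨a, ha, rfl⟩
        · omega
        · omega
        · have := hNb a ha
          omega
  have hMb : ∀ y ∈ F1, ∀ M, (M = σ * lh ∨ ∃ a, a < w ∧ M = Nh a) →
      M ≤ lh ∧ Q y < M + P y ∧ M + P y < Q y + lh := by
    intro y hy M hM
    have h1 := hPQ y (hF1 hy)
    rcases hσ y hy with ⟨rfl, h2⟩ | ⟨rfl, h2⟩ <;> rcases hM with rfl | ⟨a, ha, rfl⟩
    · omega
    · have := hN a ha
      omega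
    · omega
    · have := hN a ha
      omega
  have W2 : ∀ y ∈ F1, ∀ j e M, j ≤ m2 → (M = σ * lh ∨ ∃ a, a < w ∧ M = Nh a) →
      X j + 4 * h * M ≤ e + h → e < X j + 4 * h * M + h → M ≠ Nh (bi y) →
      B y j < e ∧ sg (e - B y j) = M + (P y + 2 * Sg - Q y) - 2 * Sg ∧ S.usable (e - B y j) := by
    intro y hy j e M hj hM h1 h2 hne
    obtain ⟨h3, h4⟩ := hdrift y (hF1 hy) j hj
    obtain ⟨-, h5, h6⟩ := hMb y hy M hM
    have h7 := hPQ y (hF1 hy)
    obtain ⟨M', hM'⟩ : ∃ M', M' + Q y = M + P y := ⟨M + P y - Q y, by omega⟩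
    have e1 : 4 * h * M' + 4 * h * Q y = 4 * h * M + 4 * h * P y := by
      rw [← Nat.mul_add, hM', Nat.mul_add]
    have h8 : 4 * h * 1 ≤ 4 * h * M' := Nat.mul_le_mul_left _ (by omega)
    have h9 : B y j < e := by omega
    obtain ⟨h10, h11⟩ := cell_near (a := e - B y j) (M := M') hh (by omega) (by omega)
    refine ⟨h9, by rw [hsg]; omega, ?_⟩
    rw [huse]
    refine ⟨by omega, fun M'' hM'' => ?_⟩
    suffices hs : M'' ≠ M' by omega
    rintro rfl
    rcases hM'' with h12 | h12 | ⟨b, hb', h12⟩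
    · omega
    · omega
    · have hNb' := hN b hb'
      rcases hM with hM | ⟨a, ha, hM⟩
      · rcases hσ y hy with ⟨rfl, h13⟩ | ⟨rfl, h13⟩ <;> omega
      · obtain ⟨g1, g2, g3, g4⟩ := hb y (hF1 hy)
        rw [hP, hQ] at hM'
        have := hB3 (bi y) ν b a (bj y) 0 g1 hν hb' ha g2 hw (by omega)
        rcases this with g | g | g
        · exact hne (by rw [hM, g])
        · exact g3 g
        · exact g4 g
  have hPQh : ∀ y ∈ F1, (σ = 0 ∧ 4 * h * Q y + 4 * h ≤ 4 * h * P y ∧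
        4 * h * P y ≤ 4 * h * Q y + 8 * (h * Sg)) ∨
      (σ = 1 ∧ 4 * h * P y + 4 * h ≤ 4 * h * Q y ∧ 4 * h * Q y ≤ 4 * h * P y + 8 * (h * Sg)) := by
    intro y hy
    obtain ⟨h1, h2, -⟩ := hPQ y (hF1 hy)
    have h1' := Nat.mul_le_mul_left h h1
    have h2' := Nat.mul_le_mul_left h h2
    rcases hσ y hy with ⟨h3, h4⟩ | ⟨h3, h4⟩
    · have := Nat.mul_le_mul_left h (Nat.succ_le_of_lt h4)
      rw [Nat.succ_eq_add_one] at this
      exact Or.inl ⟨h3, by linarith, by linarith⟩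
    · have := Nat.mul_le_mul_left h (Nat.succ_le_of_lt h4)
      rw [Nat.succ_eq_add_one] at this
      exact Or.inr ⟨h3, by linarith, by linarith⟩
  have W3 : ∀ y ∈ F1, ∀ j e, 1 ≤ j → j + 2 ≤ m2 → S.Us E (B y j) e → win j e := by
    rintro y hy j e hj1 hj2 ⟨h1, he, hu⟩
    have h2 : e < B y j + S.ell := by
      have := ((huse _).1 hu).1
      rw [Nat.div_lt_iff_lt_mul hh, ← hell] at this
      omega
    obtain ⟨h3, h4⟩ := hdrift y (hF1 hy) j (by omega)
    rw [hwin]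
    rcases hPQh y hy with ⟨rfl, h5, h6⟩ | ⟨rfl, h5, h6⟩
    · refine ⟨?_, by omega⟩
      by_contra hc
      obtain ⟨j, rfl⟩ : ∃ j', j = j' + 1 := ⟨j - 1, by omega⟩
      have := hXs j
      obtain ⟨M, hM, h7, h8⟩ := hG j e (by omega) he (by omega) (by omega)
      rcases hM with rfl | rfl | ⟨a, ha, rfl⟩
      · omega
      · omega
      · have := hNb a ha
        omega
    · refine ⟨by omega, ?_⟩
      by_contra hc
      have := hXs j
      obtain ⟨M, hM, h7, h8⟩ := hG (j + 1) e (by omega) he (by omega) (by omega)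
      rcases hM with rfl | rfl | ⟨a, ha, rfl⟩
      · omega
      · omega
      · have := hNb a ha
        omega
  -- windows
  have hσh : 4 * σ * h ≤ 4 * h := by rcases hσ01 with rfl | rfl <;> omega
  have hwex : ∀ e, X0 + 4 * σ * h ≤ e + 2 * h → ∃ j, win j e := by
    intro e he
    obtain ⟨j, h1, h2⟩ := win_exists hl0 he
    exact ⟨j, (hwin j e).2 (by rw [hX]; omega)⟩
  have hwlt : ∀ j j' e e', win j e → win j' e' → j < j' → e < e' := by
    intro j j' e e' h1 h2 hj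
    rw [hwin] at h1 h2
    have := hXm (j + 1) j' hj
    have := hXs j
    omega
  have hwlt' : ∀ j j' e e', win j e → win j' e' → e + S.ell ≤ e' → j < j' := by
    intro j j' e e' h1 h2 he
    rw [hwin] at h1 h2
    by_contra hc
    have := hXm j' j (by omega)
    omega
  obtain ⟨NW, hNW⟩ : ∃ NW : ℕ → Prop, ∀ j, NW j ↔ 1 ≤ j ∧ ∃ e, E e ∧ win j e :=
    ⟨_, fun _ => Iff.rfl⟩
  have hinf : {j | NW j}.Infinite := by
    refine Set.infinite_of_forall_exists_gt fun c => ?_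
    obtain ⟨e, h1, h2⟩ := hunb (X (c + 1) + 4 * h)
    have h0 := hXm 0 (c + 1) (by omega)
    rw [hX 0] at h0
    obtain ⟨j, hj⟩ := hwex e (by omega)
    have hcj : c < j := by
      by_contra hc
      have := hXm j c (by omega)
      have := hXs c
      rw [hwin] at hj
      omega
    exact ⟨j, (hNW j).2 ⟨by omega, e, h2, hj⟩, hcj⟩
  obtain ⟨μ, hμ⟩ : ∃ μ : ℕ → ℕ, ∀ k, μ k = Nat.nth NW k := ⟨_, fun _ => rfl⟩
  have hμN : ∀ k, NW (μ k) := fun k => by rw [hμ]; exact Nat.nth_mem_of_infinite hinf k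
  have hμlt : ∀ k k', k < k' → μ k < μ k' := fun k k' hk => by
    rw [hμ, hμ]; exact Nat.nth_strictMono hinf hk
  have hμgap : ∀ k j, μ k < j → j < μ (k + 1) → ¬ NW j := by
    intro k j h1 h2 h3
    rw [hμ] at h1 h2
    exact absurd (Nat.le_nth_of_lt_nth_succ h2 h3) (by omega)
  have hεlb : ∀ k, k ≤ t → X0 + 2 * S.ell ≤ ε k := by
    intro k
    induction k with
    | zero => exact fun _ => hε0
    | succ k ih =>
      intro hk
      have := ih (by omega)
      have := hεs k hk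
      omega
  have hεw : ∀ k, k ≤ t → ∀ j, win j (ε k) → NW j ∧ μ k ≤ j := by
    intro k
    have hN' : ∀ k, k ≤ t → ∀ j, win j (ε k) → NW j := by
      intro k hk j hj
      refine (hNW j).2 ⟨?_, ε k, hε k hk, hj⟩
      by_contra hc
      obtain rfl : j = 0 := by omega
      rw [hwin, hX] at hj
      have := hεlb k hk
      omega
    induction k with
    | zero =>
      intro hk j hj
      refine ⟨hN' 0 hk j hj, ?_⟩
      rw [hμ, Nat.nth_zero]
      exact Nat.sInf_le (hN' 0 hk j hj)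
    | succ k ih =>
      intro hk j hj
      refine ⟨hN' _ hk j hj, ?_⟩
      have := hεlb k (by omega)
      obtain ⟨j', hj'⟩ := hwex (ε k) (by omega)
      have h1 := (ih (by omega) j' hj').2
      have h2 := hwlt' j' j _ _ hj' hj (hεs k hk)
      by_contra hc
      exact hμgap k j (by omega) (by omega) (hN' _ hk j hj)
  have hμm : ∀ k, k ≤ t → μ k + 2 ≤ m2 := by
    have h1 : μ t + 2 ≤ m2 := by
      have := hεlb t le_rfl
      obtain ⟨j, hj⟩ := hwex (ε t) (by omega)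
      have h2 := (hεw t le_rfl j hj).2
      by_contra hc
      have h3 := hXm m2 (j + 1) (by omega)
      have := hXs j
      rw [hwin] at hj
      omega
    intro k hk
    rcases hk.eq_or_lt with rfl | hk
    · exact h1
    · have := hμlt k t hk
      omega
  have hex : ∀ k, ∃ e, (E e ∧ win (μ k) e) ∧ ∀ e', E e' → win (μ k) e' → e ≤ e' := by
    intro k
    have h1 := ((hNW _).1 (hμN k)).2
    exact ⟨Nat.find h1, Nat.find_spec h1, fun e' h2 h3 => Nat.find_min' h1 ⟨h2, h3⟩⟩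
  choose ev hev hevmin using hex
  have hbase : ∀ k, ∃ M, k ≤ t → (M = σ * lh ∨ ∃ a, a < w ∧ M = Nh a) ∧
      X (μ k) + 4 * h * M ≤ ev k + h ∧ ev k < X (μ k) + 4 * h * M + h := by
    intro k
    by_cases hk : k ≤ t
    · obtain ⟨M, hM⟩ := W1 (μ k) (ev k) (hev k).1 (hev k).2 ((hNW _).1 (hμN k)).1 (hμm k hk)
      exact ⟨M, fun _ => hM⟩
    · exact ⟨0, fun h' => absurd h' hk⟩
  choose base hbase using hbase
  obtain ⟨F2, hF2⟩ : ∃ F2 : Finset ι, F2 = F1.filter (fun y => ∀ k, k ≤ t → base k ≠ Nh (bi y)) :=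
    ⟨_, rfl⟩
  have hF2m : ∀ y ∈ F2, y ∈ F1 ∧ ∀ k, k ≤ t → base k ≠ Nh (bi y) := fun y hy => by
    rw [hF2] at hy; exact Finset.mem_filter.1 hy
  have hF2c : cc ≤ F2.card := by
    have hc := Finset.card_filter_add_card_filter_not (s := F1)
      (fun y => ∀ k, k ≤ t → base k ≠ Nh (bi y))
    have h1 : (F1.filter (fun y => ¬ ∀ k, k ≤ t → base k ≠ Nh (bi y))).card ≤
        ((Finset.range (t + 1)).image base).card := by
      refine Finset.card_le_card_of_injOn (fun y => Nh (bi y)) ?_ ?_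
      · intro y hy
        have h2 := (Finset.mem_filter.1 (Finset.mem_coe.1 hy)).2
        push Not at h2
        obtain ⟨k, hk, he⟩ := h2
        exact Finset.mem_coe.2 (Finset.mem_image.2 ⟨k, Finset.mem_range.2 (by omega), he⟩)
      · intro y hy y' hy' he
        have h2 := hF1 (Finset.mem_filter.1 (Finset.mem_coe.1 hy)).1
        have h3 := hF1 (Finset.mem_filter.1 (Finset.mem_coe.1 hy')).1
        exact hinj h2 h3 (hNinj _ _ (hb y h2).1 (hb y' h3).1 he)
    have h2 := Finset.card_image_le (s := Finset.range (t + 1)) (f := base)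
    rw [Finset.card_range] at h2
    rw [hF2]
    omega
  have hW2 : ∀ y ∈ F2, ∀ k, k ≤ t → B y (μ k) < ev k ∧
      sg (ev k - B y (μ k)) = base k + (P y + 2 * Sg - Q y) - 2 * Sg ∧
      S.usable (ev k - B y (μ k)) := by
    intro y hy k hk
    obtain ⟨h1, h2, h3⟩ := hbase k hk
    have := hμm k hk
    exact W2 y (hF2m y hy).1 (μ k) (ev k) (base k) (by omega) h1 h2 h3 ((hF2m y hy).2 k hk)
  have hsome : ∀ y ∈ F2, ∀ k, k ≤ t → pr y (μ k) = some (ev k) := by
    intro y hy k hk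
    have hy1 := (hF2m y hy).1
    obtain ⟨h1, -, h3⟩ := hW2 y hy k hk
    have hus : S.Us E (B y (μ k)) (ev k) := ⟨h1, (hev k).1, h3⟩
    cases hp : pr y (μ k) with
    | none => exact absurd hus (((hrun y (hF1 hy1)).none _ hp).1 _)
    | some e' =>
      obtain ⟨h4, h5, -⟩ := (hrun y (hF1 hy1)).some _ _ hp
      have h6 := hevmin k e' h4.2.1 (W3 y hy1 _ _ ((hNW _).1 (hμN k)).1 (hμm k hk) h4)
      rcases h6.eq_or_lt with h7 | h7
      · rw [h7]
      · exact absurd hus (h5 _ h7)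
  have hnone : ∀ y ∈ F2, ∀ k, k < t → ∀ j, μ k < j → j < μ (k + 1) → pr y j = none := by
    intro y hy k hk j h1 h2
    have hy1 := (hF2m y hy).1
    cases hp : pr y j with
    | none => rfl
    | some e' =>
      obtain ⟨h4, -, -⟩ := (hrun y (hF1 hy1)).some _ _ hp
      have := hμm (k + 1) hk
      exact absurd ((hNW j).2 ⟨by omega, e', h4.2.1, W3 y hy1 _ _ (by omega) (by omega) h4⟩)
        (hμgap k j h1 h2)
  have hl0' : S.ell ≡ 0 [MOD p] := (Nat.modEq_zero_iff_dvd).2 hpl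
  have hBmod : ∀ y ∈ F2, ∀ k, k < t → ∀ j, μ k + 1 ≤ j → j ≤ μ (k + 1) →
      B y j + S.sh (ev k - B y (μ k)) ≡ B y (μ k) [MOD p] := by
    intro y hy k hk j h1
    have hy1 := (hF2m y hy).1
    induction j, h1 using Nat.le_induction with
    | base =>
      intro _
      rw [((hrun y (hF1 hy1)).some _ _ (hsome y hy k hk.le)).2.2]
      exact (Nat.ModEq.refl _).add hl0'
    | succ j h1 ih =>
      intro h2
      rw [((hrun y (hF1 hy1)).none _ (hnone y hy k hk j (by omega) (by omega))).2,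
        Nat.add_right_comm]
      exact (ih (by omega)).add hl0'
  have hage : ∀ y ∈ F2, ∀ k, k < t → ev k - B y (μ k) + S.sh (ev k - B y (μ k)) +
      (ev (k + 1) - ev k) ≡ ev (k + 1) - B y (μ (k + 1)) [MOD p] := by
    intro y hy k hk
    have h1 := (hW2 y hy k hk.le).1
    have h2 := (hW2 y hy (k + 1) hk).1
    have h3 := hwlt _ _ _ _ (hev k).2 (hev (k + 1)).2 (hμlt k (k + 1) (by omega))
    have h4 := hBmod y hy k hk (μ (k + 1)) (hμlt k (k + 1) (by omega)) le_rfl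
    apply Nat.ModEq.add_right_cancel' (B y (μ (k + 1)))
    have e1 : ev k - B y (μ k) + S.sh (ev k - B y (μ k)) + (ev (k + 1) - ev k) + B y (μ (k + 1)) =
        (ev (k + 1) - B y (μ k)) + (B y (μ (k + 1)) + S.sh (ev k - B y (μ k))) := by omega
    have e2 : ev (k + 1) - B y (μ (k + 1)) + B y (μ (k + 1)) =
        (ev (k + 1) - B y (μ k)) + B y (μ k) := by omega
    rw [e1, e2]
    exact (Nat.ModEq.refl _).add h4
  have hsurv : ∀ y ∈ F2, ∃ u, CoarseSurv Θ p p2 Sg base (fun k => ev (k + 1) - ev k)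
      (fun k => φ (ev k) (ev (k + 1))) (P y + 2 * Sg - Q y) t 0 (ev 0 - B y (μ 0)) u := by
    intro y hy
    have hy1 := (hF2m y hy).1
    obtain ⟨u, hu1, hu2⟩ := hch y (hF1 hy1)
    refine ⟨u (μ 0), ?_⟩
    suffices hs : ∀ r k a, k + r = t → a ≡ ev k - B y (μ k) [MOD p] →
        CoarseSurv Θ p p2 Sg base (fun k => ev (k + 1) - ev k)
          (fun k => φ (ev k) (ev (k + 1))) (P y + 2 * Sg - Q y) r k a (u (μ k)) from
      hs t 0 _ (by omega) (Nat.ModEq.refl _)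
    intro r
    induction r with
    | zero => intro k a _ _; exact coarseSurv_zero ..
    | succ r ih =>
      intro k a hk ha
      have hkt : k < t := by omega
      have ha' : a % p = (ev k - B y (μ k)) % p := ha
      rw [coarseSurv_succ, ← (hW2 y hy k hkt.le).2.1, ha', ← hgam, ← hsh]
      constructor
      · refine hu1 _ _ (hsome y hy k hkt.le) ?_
        have h1 := hμm k hkt.le
        have h2 := (hdrift y (hF1 hy1) (μ k + 1) (by omega)).1
        have h3 := hXm (μ k + 1 + 1) m2 h1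
        have h4 := hXs (μ k + 1)
        rcases hPQh y hy1 with ⟨-, h5, h6⟩ | ⟨-, h5, h6⟩ <;> omega
      · rw [← hu2 _ _ _ _ (hμlt k (k + 1) (by omega)) (hsome y hy k hkt.le)
          (hsome y hy (k + 1) hkt) (hnone y hy k hkt)]
        exact ih (k + 1) _ (by omega)
          (((ha.add_right _).add_right _).trans (hage y hy k hkt))
  obtain ⟨ξ, hξ⟩ : ∃ ξ : Fin cc ↪ ι, ∀ b, ξ b ∈ F2 := by
    obtain ⟨F3, h1, h2⟩ := Finset.exists_subset_card_eq hF2c
    exact ⟨((Finset.equivFinOfCardEq h2).symm.toEmbedding).trans (Function.Embedding.subtype _),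
      fun b => h1 ((Finset.equivFinOfCardEq h2).symm b).2⟩
  have hcross : ∀ y ∈ F2, ∀ y' ∈ F2, ∀ a a', a < w → a' < w → bi y ≠ a →
      Nh a + (P y + 2 * Sg - Q y) = Nh a' + (P y' + 2 * Sg - Q y') → y = y' := by
    intro y hy y' hy' a a' ha ha' hne he
    have hyF := hF1 (hF2m y hy).1
    have hyF' := hF1 (hF2m y' hy').1
    have h1 := hPQ y hyF
    have h2 := hPQ y' hyF'
    obtain ⟨g1, g2, g3, g4⟩ := hb y hyF
    obtain ⟨g1', g2', -, -⟩ := hb y' hyF'
    rw [hP, hQ] at h1 h2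
    rw [hP, hQ, hP, hQ] at he
    rcases hB3 (bi y) a' (bj y') a (bj y) (bi y') g1 ha' g2' ha g2 g1' (by omega) with g | g | g
    · exact absurd g hne
    · exact absurd g g3
    · exact hinj hyF hyF' g
  have hdinj : ∀ y ∈ F2, ∀ y' ∈ F2, P y + 2 * Sg - Q y = P y' + 2 * Sg - Q y' → y = y' :=
    fun y hy y' hy' he => hcross y hy y' hy' 0 0 hw hw (hb y (hF1 (hF2m y hy).1)).2.2.2
      (by rw [he])
  refine hcoarse base (fun k => ev (k + 1) - ev k) (fun k => φ (ev k) (ev (k + 1)))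
    (fun b => P (ξ b) + 2 * Sg - Q (ξ b)) (fun b => ev 0 - B (ξ b) (μ 0)) ?_ ?_ ?_ ?_ ?_
    (fun b => hsurv _ (hξ b))
  · intro k hk
    rcases (hbase k hk).1 with h1 | ⟨a, ha, h1⟩
    · rcases hσ01 with rfl | rfl <;> omega
    · have := hN a ha
      omega
  · intro b
    have := hPQ _ (hF1 (hF2m _ (hξ b)).1)
    show P (ξ b) + 2 * Sg - Q (ξ b) ≤ _
    omega
  · intro b b' he
    exact ξ.injective (hdinj _ (hξ b) _ (hξ b') he)
  · intro b k hk
    have := hPQ _ (hF1 (hF2m _ (hξ b)).1)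
    have := hMb _ (hF2m _ (hξ b)).1 _ (hbase k hk).1
    show 2 * Sg ≤ base k + (P (ξ b) + 2 * Sg - Q (ξ b)) ∧
      base k + (P (ξ b) + 2 * Sg - Q (ξ b)) ≤ _
    omega
  · intro b b' k k' hne hk hk' he
    have he' : base k + (P (ξ b) + 2 * Sg - Q (ξ b)) = base k' + (P (ξ b') + 2 * Sg - Q (ξ b')) :=
      he
    have h1 := hPQ _ (hF1 (hF2m _ (hξ b)).1)
    have h2 := hPQ _ (hF1 (hF2m _ (hξ b')).1)
    have h3 := hσ _ (hF2m _ (hξ b)).1
    have h4 := hσ _ (hF2m _ (hξ b')).1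
    rcases (hbase k hk).1 with g | ⟨a, ha, g⟩ <;> rcases (hbase k' hk').1 with g' | ⟨a', ha', g'⟩
    · exact hne (ξ.injective (hdinj _ (hξ b) _ (hξ b') (by omega)))
    · have := hN a' ha'
      rcases hσ01 with rfl | rfl <;> omega
    · have := hN a ha
      rcases hσ01 with rfl | rfl <;> omega
    · refine hne (ξ.injective (hcross _ (hξ b) _ (hξ b') a a' ha ha' ?_ (by omega)))
      rintro rfl
      exact (hF2m _ (hξ b)).2 k hk g

end Crest.Agent.R320
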