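import Mathlib
import Crest.Prelude.Def_GRegExp

/-!
Row 320 (S0495): every regular language has generalized star height at most three.
Shared definitions.  Languages are predicates `List A → Prop`.
-/

namespace Crest.Agent.R320
open Crest.RegLang

universe u

section basic
variable {A : Type u}

/-- `P` is the language of an expression of star height at most `h`. -/
def InH (h : ℕ) (P : List A → Prop) : Prop :=
  ∃ e : GRegExp A, e.height ≤ h ∧ ∀ w, w ∈ e.lang ↔ P w

/-- Regularity in the Myhill–Nerode form: finitely many left quotients. -/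
def Reg (P : List A → Prop) : Prop :=
  (Set.range (fun u : List A => fun v : List A => P (u ++ v))).Finite

/-- Kleene star of a predicate. -/
inductive Star (P : List A → Prop) : List A → Prop
  | nil : Star P []
  | cons (u v : List A) : P u → Star P v → Star P (u ++ v)

/-- `x ^ n`. -/
def rep (x : List A) (n : ℕ) : List A := (List.replicate n x).flatten

/-- The factor `w[c, c+t)` of an infinite word. -/
def seg (w : ℕ → A) (c t : ℕ) : List A := (List.range t).map (fun i => w (c + i))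

@[simp] theorem rep_zero (x : List A) : rep x 0 = [] := rfl

theorem rep_succ (x : List A) (n : ℕ) : rep x (n + 1) = x ++ rep x n := by
  simp [rep, List.replicate_succ]

theorem rep_add (x : List A) (m n : ℕ) : rep x (m + n) = rep x m ++ rep x n := by
  unfold rep; rw [List.replicate_add, List.flatten_append]

theorem rep_one (x : List A) : rep x 1 = x := by simp [rep]

theorem rep_succ' (x : List A) (n : ℕ) : rep x (n + 1) = rep x n ++ x := by
  rw [rep_add, rep_one]

@[simp] theorem length_rep (x : List A) (n : ℕ) : (rep x n).length = n * x.length := by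
  induction n with
  | zero => simp
  | succ n ih => rw [rep_succ, List.length_append, ih]; ring

@[simp] theorem rep_nil (n : ℕ) : rep ([] : List A) n = [] := by
  apply List.eq_nil_of_length_eq_zero; simp

theorem rep_mul (x : List A) (m n : ℕ) : rep x (m * n) = rep (rep x n) m := by
  induction m with
  | zero => simp
  | succ m ih => rw [Nat.succ_mul, rep_add, ih, rep_succ']

@[simp] theorem seg_zero (w : ℕ → A) (c : ℕ) : seg w c 0 = [] := rfl

@[simp] theorem length_seg (w : ℕ → A) (c t : ℕ) : (seg w c t).length = t := by simp [seg]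

theorem seg_succ (w : ℕ → A) (c t : ℕ) : seg w c (t + 1) = seg w c t ++ [w (c + t)] := by
  simp [seg, List.range_succ]

theorem seg_add (w : ℕ → A) (c s t : ℕ) :
    seg w c (s + t) = seg w c s ++ seg w (c + s) t := by
  induction t with
  | zero => simp
  | succ t ih => rw [← Nat.add_assoc, seg_succ, ih, seg_succ, List.append_assoc, Nat.add_assoc]

theorem seg_succ' (w : ℕ → A) (c t : ℕ) : seg w c (t + 1) = w c :: seg w (c + 1) t := by
  rw [Nat.add_comm t 1, seg_add]; simp [seg]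

theorem getElem_seg (w : ℕ → A) (c t i : ℕ) (hi : i < (seg w c t).length) :
    (seg w c t)[i] = w (c + i) := by simp [seg]

theorem seg_congr {w w' : ℕ → A} {c c' t : ℕ} (h : ∀ i, i < t → w (c + i) = w' (c' + i)) :
    seg w c t = seg w' c' t := by
  unfold seg
  apply List.map_congr_left
  intro i hi
  exact h i (List.mem_range.1 hi)

theorem seg_shift (w : ℕ → A) (a c t : ℕ) :
    seg (fun i => w (a + i)) c t = seg w (a + c) t :=
  seg_congr (fun i _ => by rw [Nat.add_assoc])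

theorem take_seg (w : ℕ → A) (c t s : ℕ) (h : s ≤ t) : (seg w c t).take s = seg w c s := by
  obtain ⟨d, rfl⟩ := Nat.exists_eq_add_of_le h
  rw [seg_add, List.take_left' (by simp)]

theorem drop_seg (w : ℕ → A) (c t s : ℕ) (h : s ≤ t) :
    (seg w c t).drop s = seg w (c + s) (t - s) := by
  obtain ⟨d, rfl⟩ := Nat.exists_eq_add_of_le h
  rw [seg_add, List.drop_left' (by simp)]; simp

theorem seg_prefix (w : ℕ → A) (c : ℕ) {s t : ℕ} (h : s ≤ t) : seg w c s <+: seg w c t := by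
  obtain ⟨d, rfl⟩ := Nat.exists_eq_add_of_le h
  rw [seg_add]; exact List.prefix_append _ _

theorem prefix_seg_iff {w : ℕ → A} {c t : ℕ} {u : List A} :
    u <+: seg w c t ↔ ∃ s, s ≤ t ∧ u = seg w c s := by
  constructor
  · intro h
    have hl : u.length ≤ t := by simpa using h.length_le
    refine ⟨u.length, hl, ?_⟩
    rw [List.prefix_iff_eq_take.1 h, take_seg _ _ _ _ hl]; simp
  · rintro ⟨s, hs, rfl⟩; exact seg_prefix w c hs

theorem append_eq_seg {w : ℕ → A} {c t : ℕ} {u v : List A} (h : u ++ v = seg w c t) :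
    u.length ≤ t ∧ u = seg w c u.length ∧ v = seg w (c + u.length) (t - u.length) := by
  have hl : u.length ≤ t := by
    have := congrArg List.length h
    simp at this; omega
  refine ⟨hl, ?_, ?_⟩
  · rw [← take_seg w c t _ hl, ← h, List.take_left' rfl]
  · rw [← drop_seg w c t _ hl, ← h, List.drop_left' rfl]

theorem periodic_mul {w : ℕ → A} {q : ℕ} (hw : ∀ i, w (i + q) = w i) (n i : ℕ) :
    w (i + n * q) = w i := by
  induction n with
  | zero => simp
  | succ n ih => rw [Nat.succ_mul, ← Nat.add_assoc, hw, ih]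

theorem seg_periodic {w : ℕ → A} {q : ℕ} (hw : ∀ i, w (i + q) = w i) (n c t : ℕ) :
    seg w (c + n * q) t = seg w c t :=
  seg_congr (fun i _ => by rw [Nat.add_right_comm, periodic_mul hw])

theorem seg_mul_eq_rep {w : ℕ → A} {q : ℕ} (hw : ∀ i, w (i + q) = w i) (c n : ℕ) :
    seg w c (n * q) = rep (seg w c q) n := by
  induction n with
  | zero => simp
  | succ n ih => rw [Nat.succ_mul, seg_add, ih, seg_periodic hw, rep_succ']

/-- `x ^ ω` for a nonempty word `x`. -/
def omg (x : List A) (hx : x ≠ []) : ℕ → A :=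
  fun i => x[i % x.length]'(Nat.mod_lt _ (List.length_pos_iff.2 hx))

theorem omg_periodic (x : List A) (hx : x ≠ []) (i : ℕ) :
    omg x hx (i + x.length) = omg x hx i := by simp [omg]

theorem seg_omg (x : List A) (hx : x ≠ []) : seg (omg x hx) 0 x.length = x := by
  apply List.ext_getElem (by simp)
  intro i h1 h2
  rw [getElem_seg]; simp [omg, Nat.mod_eq_of_lt h2]

theorem seg_omg_mul (x : List A) (hx : x ≠ []) (n : ℕ) :
    seg (omg x hx) 0 (n * x.length) = rep x n := by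
  rw [seg_mul_eq_rep (omg_periodic x hx), seg_omg]

end basic

/-! ### The top automaton ("carrier") -/

/-- A position automaton with affine label maps over the linear system `rho`. -/
structure CData (A : Type u) (V : Type) [AddCommGroup V] : Type (u + 1) where
  rho : A → V →+ V
  Pos : Type u
  step : Pos → A → Pos
  tr : Pos → A → V
  birth : Pos
  ell : ℕ
  Q0 : ℕ
  Site : Type
  spos : Site → Pos
  scnt : Site → ℕ
  ev : List A → ℕ
  Tev : ℕ

namespace CData
variable {A : Type u} {V : Type} [AddCommGroup V] (C : CData A V)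

def prun (p : C.Pos) (w : List A) : C.Pos := w.foldl C.step p

def tstep (s : C.Pos × V) (a : A) : C.Pos × V := (C.step s.1 a, C.rho a s.2 + C.tr s.1 a)

def trun (s : C.Pos × V) (w : List A) : C.Pos × V := w.foldl C.tstep s

def s0 : C.Pos × V := (C.birth, 0)

/-- Some nonempty prefix of `u` leads from `s` to `s0`. -/
def Hits (s : C.Pos × V) (u : List A) : Prop :=
  ∃ u', u' <+: u ∧ u' ≠ [] ∧ C.trun s u' = C.s0

def dead (h : C.Site) (v : List A) : Prop :=
  ∃ u, u <+: v ∧ C.ev u ≤ C.Tev ∧ ∀ lam : V, C.Hits (C.spos h, lam) u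

def complete (v : List A) : Prop := C.Tev < C.ev v

def Rich (w : ℕ → A) : Prop := ∀ c, ∃ t, C.complete (seg w c t)

/-- Runs from `s` to `s'` that do not pass through `s0` strictly inside. -/
def Kset (s s' : C.Pos × V) (w : List A) : Prop :=
  C.trun s w = s' ∧ ∀ u, u <+: w → u ≠ [] → u ≠ w → C.trun s u ≠ C.s0

@[simp] theorem prun_nil (p : C.Pos) : C.prun p [] = p := rfl
@[simp] theorem trun_nil (s : C.Pos × V) : C.trun s [] = s := rfl
theorem prun_append (p : C.Pos) (u v : List A) :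
    C.prun p (u ++ v) = C.prun (C.prun p u) v := List.foldl_append
theorem trun_append (s : C.Pos × V) (u v : List A) :
    C.trun s (u ++ v) = C.trun (C.trun s u) v := List.foldl_append
theorem prun_cons (p : C.Pos) (a : A) (v : List A) :
    C.prun p (a :: v) = C.prun (C.step p a) v := rfl
theorem trun_cons (s : C.Pos × V) (a : A) (v : List A) :
    C.trun s (a :: v) = C.trun (C.tstep s a) v := rfl
theorem prun_seg_succ (p : C.Pos) (w : ℕ → A) (c t : ℕ) :
    C.prun p (seg w c (t + 1)) = C.step (C.prun p (seg w c t)) (w (c + t)) := by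
  rw [seg_succ, prun_append]; rfl
theorem trun_seg_succ (s : C.Pos × V) (w : ℕ → A) (c t : ℕ) :
    C.trun s (seg w c (t + 1)) = C.tstep (C.trun s (seg w c t)) (w (c + t)) := by
  rw [seg_succ, trun_append]; rfl
theorem trun_fst (s : C.Pos × V) (u : List A) : (C.trun s u).1 = C.prun s.1 u := by
  induction u generalizing s with
  | nil => rfl
  | cons a u ih => rw [trun_cons, ih, prun_cons]; rfl

/-- The carrier properties, for `L` counter values. -/
structure Good (L : ℕ) : Prop where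
  finPos : Finite C.Pos
  finSite : Finite C.Site
  Q0_pos : 0 < C.Q0
  p1 : ∀ (p : C.Pos) (w : ℕ → A) (c : ℕ),
    ∃ d, 0 < d ∧ d ≤ C.ell ∧ C.prun p (seg w c d) = C.birth
  ev_nil : C.ev [] = 0
  ev_left : ∀ u v, C.ev u ≤ C.ev (u ++ v)
  ev_right : ∀ u v, C.ev v ≤ C.ev (u ++ v)
  ev_reg : Reg (fun w => C.ev w ≤ C.Tev)
  bt : ∀ w : ℕ → A, C.Rich w → ∀ β i, i < L → ∃ (h : C.Site) (d : ℕ), C.scnt h = i ∧
    C.prun C.birth (seg w β d) = C.spos h ∧
    (∀ d', 0 < d' → d' ≤ d → C.prun C.birth (seg w β d') ≠ C.birth) ∧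
    ∀ h', h' ≠ h → ∃ t, C.dead h' (seg w (β + d) t)
  p4 : ∀ (w : ℕ → A) (q : ℕ), 0 < q → (∀ i, w (i + q) = w i) →
    (∀ i, w (i + C.Q0) = w i) ∨ C.Rich w
  p5 : ∀ Λ : ℕ, ∃ W : ℕ, ∀ (w : ℕ → A) (c : ℕ), C.ev (seg w c W) ≤ C.Tev → ∃ c', c ≤ c' ∧
    (∀ i, c' ≤ i → i + C.ell ≤ c' + Λ → w (i + C.ell) = w i) ∧
    ∀ β, c' ≤ β → β + C.ell ≤ c' + Λ → C.prun C.birth (seg w β C.ell) = C.birth ∧
      ∀ d, 0 < d → d < C.ell → C.prun C.birth (seg w β d) ≠ C.birth

end CData

/-! ### The level-two automaton over a carrier -/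

structure Lev2 {A : Type u} {V : Type} [AddCommGroup V] (C : CData A V) : Type (u + 1) where
  St : Type u
  step : St → A → St
  pos : St → C.Pos
  Hyp : Type
  hid : Hyp
  init : C.Site → Hyp → St
  Hit : St → Prop

namespace Lev2
variable {A : Type u} {V : Type} [AddCommGroup V] {C : CData A V} (X : Lev2 C)

def run (σ : X.St) (w : List A) : X.St := w.foldl X.step σ

def IsTraj (w : ℕ → A) (σ : ℕ → X.St) : Prop := ∀ τ, σ (τ + 1) = X.step (σ τ) (w τ)

def NoHit (σ : X.St) (u : List A) : Prop := ∀ u', u' <+: u → u' ≠ [] → ¬ X.Hit (X.run σ u')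

@[simp] theorem run_nil (σ : X.St) : X.run σ [] = σ := rfl
theorem run_append (σ : X.St) (u v : List A) : X.run σ (u ++ v) = X.run (X.run σ u) v :=
  List.foldl_append
theorem run_cons (σ : X.St) (a : A) (v : List A) : X.run σ (a :: v) = X.run (X.step σ a) v := rfl
theorem run_seg_succ (σ : X.St) (w : ℕ → A) (c t : ℕ) :
    X.run σ (seg w c (t + 1)) = X.step (X.run σ (seg w c t)) (w (c + t)) := by
  rw [seg_succ, run_append]; rfl
theorem isTraj_run (σ : X.St) (w : ℕ → A) : X.IsTraj w (fun τ => X.run σ (seg w 0 τ)) := by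
  intro τ; simp only [run_seg_succ, Nat.zero_add]
theorem IsTraj.run_seg {X : Lev2 C} {w : ℕ → A} {σ : ℕ → X.St} (h : X.IsTraj w σ) (c t : ℕ) :
    X.run (σ c) (seg w c t) = σ (c + t) := by
  induction t with
  | zero => rfl
  | succ t ih => rw [run_seg_succ, ih, ← Nat.add_assoc, h]

structure Good : Prop where
  finSt : Finite X.St
  finHyp : Finite X.Hyp
  pos_step : ∀ σ a, X.pos (X.step σ a) = C.step (X.pos σ) a
  pos_init : ∀ h m, X.pos (X.init h m) = C.spos h
  /-- exposure after a hit -/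
  x1 : ∀ (w : ℕ → A) (σ : ℕ → X.St), C.Rich w → X.IsTraj w σ → ∀ τ, 0 < τ → X.Hit (σ τ) →
    ∃ c h, τ ≤ c ∧ σ c = X.init h X.hid ∧ ∀ h', h' ≠ h → ∃ t, C.dead h' (seg w c t)
  /-- hit-free trajectories see events densely -/
  x2 : ∃ W : ℕ, ∀ (w : ℕ → A) (σ : ℕ → X.St), X.IsTraj w σ → (∀ τ, 0 < τ → ¬ X.Hit (σ τ)) →
    ∀ c, C.complete (seg w c W)
  /-- usable exposures are syndetic -/
  x3 : ∃ G : ℕ, ∀ (w : ℕ → A) (σ : ℕ → X.St), C.Rich w → X.IsTraj w σ → ∀ τ, ∃ c h m,
    τ ≤ c ∧ c ≤ τ + G ∧ σ c = X.init h m ∧ (∀ h', h' ≠ h → ∃ t, C.dead h' (seg w c t)) ∧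
    ∀ m', X.NoHit (X.init h m') (seg w c G) → X.run (X.init h m') (seg w c G) = σ (c + G)
  /-- extraction of the linear part -/
  x4 : ∀ (w : ℕ → A) (q k : ℕ), 0 < q → 0 < k → (∀ i, w (i + q) = w i) →
    C.prun C.birth (seg w 0 (k * q)) = C.birth →
    (∀ (σ : ℕ → X.St) (m : ℕ), 0 < m → X.IsTraj w σ → X.pos (σ 0) = C.birth →
      σ (m * q) = σ 0 → (∃ τ, 0 < τ ∧ X.Hit (σ τ)) → σ q = σ 0) →
    C.prun C.birth (seg w 0 q) = C.birth ∧ ∃ m : ℕ, ∀ lam : V,
      (fun l => (C.trun (C.birth, l) (seg w 0 q)).2)^[m + 1] lam =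
      (fun l => (C.trun (C.birth, l) (seg w 0 q)).2)^[m] lam

end Lev2

/-! ### Events -/

structure EvData (A : Type u) : Type u where
  k : ℕ
  Q0 : ℕ
  isEv : List A → Prop
  ev : List A → ℕ

namespace EvData
variable {A : Type u} (D : EvData A)

/-- There is an event at time `e` (it is determined by the `k` letters before time `e`). -/
def Ev (w : ℕ → A) (e : ℕ) : Prop := D.k ≤ e ∧ D.isEv (seg w (e - D.k) D.k)

structure Good (n : ℕ) : Prop where
  k_pos : 0 < D.k
  Q0_pos : 0 < D.Q0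
  spacing : ∀ (w : ℕ → A) (e e' : ℕ), D.Ev w e → D.Ev w e' → e < e' → e + n < e'
  ev_nil : D.ev [] = 0
  ev_left : ∀ u v, D.ev u ≤ D.ev (u ++ v)
  ev_right : ∀ u v, D.ev v ≤ D.ev (u ++ v)
  ev_reg : ∀ T : ℕ, Reg (fun u => D.ev u ≤ T)
  ev_le : ∀ (w : ℕ → A) (c t : ℕ),
    D.ev (seg w c t) ≤ Set.ncard {e | c < e ∧ e ≤ c + t ∧ D.Ev w e}
  p4 : ∀ (w : ℕ → A) (q T : ℕ), 0 < q → (∀ i, w (i + q) = w i) →
    (∀ i, w (i + D.Q0) = w i) ∨ ∀ c, ∃ t, T < D.ev (seg w c t)
  p5 : ∀ T Λ : ℕ, ∃ W : ℕ, ∀ (w : ℕ → A) (c : ℕ), D.ev (seg w c W) ≤ T → ∃ c', c ≤ c' ∧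
    (∀ e, c' ≤ e → e ≤ c' + Λ → ¬ D.Ev w e) ∧
    ∀ i, c' ≤ i → i ≤ c' + Λ → w (i + D.Q0) = w i

end EvData

/-! ### The ideal system: ages, sites, one processed event per cycle -/

structure ISys (V : Type) : Type 1 where
  ell : ℕ
  usable : ℕ → Prop
  gam : ℕ → V
  sh : ℕ → ℕ
  Site : Type
  sage : Site → ℕ
  sflag : Site → Bool
  scnt : Site → ℕ
  Tev : ℕ

namespace ISys
variable {V : Type} [AddCommGroup V] (S : ISys V)

/-- `e` is an event usable for a trajectory born at time `b`. -/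
def Us (E : ℕ → Prop) (b e : ℕ) : Prop := b < e ∧ E e ∧ S.usable (e - b)

/-- `B m` are the births, `pr m` the event processed in cycle `m`. -/
structure IRun (E : ℕ → Prop) (B : ℕ → ℕ) (pr : ℕ → Option ℕ) : Prop where
  some : ∀ m e, pr m = Option.some e → S.Us E (B m) e ∧ (∀ e', e' < e → ¬ S.Us E (B m) e') ∧
    B (m + 1) + S.sh (e - B m) = B m + S.ell
  none : ∀ m, pr m = Option.none → (∀ e, ¬ S.Us E (B m) e) ∧ B (m + 1) = B m + S.ell

/-- A label survives until time `tend`; `u m` is the label arriving at the processing of cycle `m`. -/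
def Chain (φ : ℕ → ℕ → V → V) (B : ℕ → ℕ) (pr : ℕ → Option ℕ) (tend : ℕ) : Prop :=
  ∃ u : ℕ → V,
    (∀ m e, pr m = some e → B (m + 1) ≤ tend → u m + S.gam (e - B m) ≠ 0) ∧
    ∀ m m' e e', m < m' → pr m = some e → pr m' = some e' →
      (∀ j, m < j → j < m' → pr j = none) → u m' = φ e e' (u m + S.gam (e - B m))

structure Good (L n k Q0 : ℕ) : Prop where
  finSite : Finite S.Site
  ell_pos : 0 < S.ell
  ell_dvd : Q0 ∣ S.ell
  use : ∀ a, S.usable a → k ≤ a ∧ a + S.sh a < S.ell ∧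
    ∀ h, S.sage h + k ≤ a ∨ a + S.sh a < S.sage h
  sage_pos : ∀ h, 0 < S.sage h
  sage_lt : ∀ h, S.sage h < S.ell
  bt : ∀ (E : ℕ → Prop) (φ : ℕ → ℕ → V → V) (β ar i : ℕ),
    (∀ e e', E e → E e' → e < e' → e + n < e') → (∀ c, ∃ e, c < e ∧ E e) →
    2 * S.ell ≤ β → (S.usable ar ∨ S.ell ≤ ar) → i < L →
    ∃ h : S.Site, S.scnt h = i ∧ (S.sflag h = true ↔ ar < S.sage h) ∧
      ∀ tm, tm + (if ar < S.sage h then S.sh ar else 0) = β + S.sage h →
      ∀ h', h' ≠ h → ∀ (B : ℕ → ℕ) (pr : ℕ → Option ℕ), B 0 + S.sage h' = tm →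
        S.IRun (fun e => (if S.sflag h' = true then B 0 + S.ell else tm) < e ∧ E e) B pr →
        ∃ tend, tm ≤ tend ∧ Set.ncard {e | tm < e ∧ e ≤ tend ∧ E e} ≤ S.Tev ∧
          ¬ S.Chain φ B pr tend

end ISys

/-! ### The random table -/

section kill
variable {V : Type} [AddCommGroup V]

/-- Survival of one fine blocker for the given number of rounds, from event code `g`, offset `o`,
arriving label `u`. -/
def FineSurv (Θ : ℕ → ℕ → V × ℕ) (usable : ℕ → Prop) (sg : ℕ → ℕ) (p p2 Gn : ℕ)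
    (cyc sa : ℕ → ℕ) (mp : ℕ → ℕ → V → V) : ℕ → ℕ → ℕ → V → Prop
  | 0, _, _, _ => True
  | k + 1, g, o, u =>
    u + (Θ (sg (sa g + o)) ((sa g + o) % p)).1 ≠ 0 ∧
    ∃ g' o', o' = o + (sg (sa g + o) + p2 * (Θ (sg (sa g + o)) ((sa g + o) % p)).2) ∧
      g' < Gn ∧ cyc g < cyc g' ∧ usable (sa g' + o') ∧
      (∀ g'', g'' < g' → cyc g < cyc g'' → ¬ usable (sa g'' + o')) ∧
      FineSurv Θ usable sg p p2 Gn cyc sa mp k g' o'
        (mp g g' (u + (Θ (sg (sa g + o)) ((sa g + o) % p)).1))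

theorem fineSurv_zero (Θ : ℕ → ℕ → V × ℕ) (usable : ℕ → Prop) (sg : ℕ → ℕ) (p p2 Gn : ℕ)
    (cyc sa : ℕ → ℕ) (mp : ℕ → ℕ → V → V) (g o : ℕ) (u : V) :
    FineSurv Θ usable sg p p2 Gn cyc sa mp 0 g o u := trivial

theorem fineSurv_succ (Θ : ℕ → ℕ → V × ℕ) (usable : ℕ → Prop) (sg : ℕ → ℕ) (p p2 Gn : ℕ)
    (cyc sa : ℕ → ℕ) (mp : ℕ → ℕ → V → V) (k g o : ℕ) (u : V) :
    FineSurv Θ usable sg p p2 Gn cyc sa mp (k + 1) g o u ↔
    (u + (Θ (sg (sa g + o)) ((sa g + o) % p)).1 ≠ 0 ∧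
    ∃ g' o', o' = o + (sg (sa g + o) + p2 * (Θ (sg (sa g + o)) ((sa g + o) % p)).2) ∧
      g' < Gn ∧ cyc g < cyc g' ∧ usable (sa g' + o') ∧
      (∀ g'', g'' < g' → cyc g < cyc g'' → ¬ usable (sa g'' + o')) ∧
      FineSurv Θ usable sg p p2 Gn cyc sa mp k g' o'
        (mp g g' (u + (Θ (sg (sa g + o)) ((sa g + o) % p)).1))) := Iff.rfl

/-- Survival of one coarse blocker with displacement `d` for the given number of rounds, from
round `k`, age `a`, arriving label `u`. -/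
def CoarseSurv (Θ : ℕ → ℕ → V × ℕ) (p p2 S : ℕ) (base Δ : ℕ → ℕ) (mp : ℕ → V → V) (d : ℕ) :
    ℕ → ℕ → ℕ → V → Prop
  | 0, _, _, _ => True
  | r + 1, k, a, u =>
    u + (Θ (base k + d - 2 * S) (a % p)).1 ≠ 0 ∧
    CoarseSurv Θ p p2 S base Δ mp d r (k + 1)
      (a + ((base k + d - 2 * S) + p2 * (Θ (base k + d - 2 * S) (a % p)).2) + Δ k)
      (mp k (u + (Θ (base k + d - 2 * S) (a % p)).1))

theorem coarseSurv_zero (Θ : ℕ → ℕ → V × ℕ) (p p2 S : ℕ) (base Δ : ℕ → ℕ) (mp : ℕ → V → V)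
    (d k a : ℕ) (u : V) : CoarseSurv Θ p p2 S base Δ mp d 0 k a u := trivial

theorem coarseSurv_succ (Θ : ℕ → ℕ → V × ℕ) (p p2 S : ℕ) (base Δ : ℕ → ℕ) (mp : ℕ → V → V)
    (d r k a : ℕ) (u : V) : CoarseSurv Θ p p2 S base Δ mp d (r + 1) k a u ↔
    (u + (Θ (base k + d - 2 * S) (a % p)).1 ≠ 0 ∧
    CoarseSurv Θ p p2 S base Δ mp d r (k + 1)
      (a + ((base k + d - 2 * S) + p2 * (Θ (base k + d - 2 * S) (a % p)).2) + Δ k)
      (mp k (u + (Θ (base k + d - 2 * S) (a % p)).1))) := Iff.rfl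

/-- No family of `cf` fine blockers survives `t` rounds. -/
def FineGood (Θ : ℕ → ℕ → V × ℕ) (usable : ℕ → Prop) (sg : ℕ → ℕ) (p p2 Gn : ℕ)
    (cyc : ℕ → ℕ) (SU : Finset ℕ) (R t cf : ℕ) : Prop :=
  ∀ (sa : ℕ → ℕ) (mp : ℕ → ℕ → V → V) (g0 : ℕ) (ξ : Fin cf → ℕ),
    (∀ g, sa g ∈ SU) → g0 < Gn → Function.Injective ξ → (∀ b, ξ b ≤ 2 * R) →
    ¬ ∀ b, ∃ u, FineSurv Θ usable sg p p2 Gn cyc sa mp t g0 (ξ b) u

/-- No family of `cc` coarse blockers survives `t` rounds. -/
def CoarseGood (Θ : ℕ → ℕ → V × ℕ) (p p2 S lh t cc : ℕ) : Prop :=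
  ∀ (base Δ : ℕ → ℕ) (mp : ℕ → V → V) (d a0 : Fin cc → ℕ),
    (∀ k, k ≤ t → base k ≤ lh) → (∀ b, d b ≤ 4 * S) → Function.Injective d →
    (∀ b k, k ≤ t → 2 * S ≤ base k + d b ∧ base k + d b ≤ 2 * S + lh) →
    (∀ b b' k k', b ≠ b' → k ≤ t → k' ≤ t → base k + d b ≠ base k' + d b') →
    ¬ ∀ b, ∃ u, CoarseSurv Θ p p2 S base Δ mp (d b) t 0 (a0 b) u

theorem anchor_FineSurv : type_of% @FineSurv.eq_def := @FineSurv.eq_def
theorem anchor_FineSurv1 : type_of% @FineSurv.eq_1 := @FineSurv.eq_1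
theorem anchor_FineSurv2 : type_of% @FineSurv.eq_2 := @FineSurv.eq_2
theorem anchor_CoarseSurv : type_of% @CoarseSurv.eq_def := @CoarseSurv.eq_def
theorem anchor_CoarseSurv1 : type_of% @CoarseSurv.eq_1 := @CoarseSurv.eq_1
theorem anchor_CoarseSurv2 : type_of% @CoarseSurv.eq_2 := @CoarseSurv.eq_2

end kill

/-! Equation lemmas are realised here once. -/
theorem anchor1_InH : type_of% @InH.eq_1 := @InH.eq_1
theorem anchor2_InH : type_of% @InH.eq_def := @InH.eq_def
theorem anchor1_Reg : type_of% @Reg.eq_1 := @Reg.eq_1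
theorem anchor2_Reg : type_of% @Reg.eq_def := @Reg.eq_def
theorem anchor1_rep : type_of% @rep.eq_1 := @rep.eq_1
theorem anchor2_rep : type_of% @rep.eq_def := @rep.eq_def
theorem anchor1_seg : type_of% @seg.eq_1 := @seg.eq_1
theorem anchor2_seg : type_of% @seg.eq_def := @seg.eq_def
theorem anchor1_omg : type_of% @omg.eq_1 := @omg.eq_1
theorem anchor2_omg : type_of% @omg.eq_def := @omg.eq_def
theorem anchor1_CData_prun : type_of% @CData.prun.eq_1 := @CData.prun.eq_1
theorem anchor2_CData_prun : type_of% @CData.prun.eq_def := @CData.prun.eq_def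
theorem anchor1_CData_tstep : type_of% @CData.tstep.eq_1 := @CData.tstep.eq_1
theorem anchor2_CData_tstep : type_of% @CData.tstep.eq_def := @CData.tstep.eq_def
theorem anchor1_CData_trun : type_of% @CData.trun.eq_1 := @CData.trun.eq_1
theorem anchor2_CData_trun : type_of% @CData.trun.eq_def := @CData.trun.eq_def
theorem anchor1_CData_s0 : type_of% @CData.s0.eq_1 := @CData.s0.eq_1
theorem anchor2_CData_s0 : type_of% @CData.s0.eq_def := @CData.s0.eq_def
theorem anchor1_CData_Hits : type_of% @CData.Hits.eq_1 := @CData.Hits.eq_1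
theorem anchor2_CData_Hits : type_of% @CData.Hits.eq_def := @CData.Hits.eq_def
theorem anchor1_CData_dead : type_of% @CData.dead.eq_1 := @CData.dead.eq_1
theorem anchor2_CData_dead : type_of% @CData.dead.eq_def := @CData.dead.eq_def
theorem anchor1_CData_complete : type_of% @CData.complete.eq_1 := @CData.complete.eq_1
theorem anchor2_CData_complete : type_of% @CData.complete.eq_def := @CData.complete.eq_def
theorem anchor1_CData_Rich : type_of% @CData.Rich.eq_1 := @CData.Rich.eq_1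
theorem anchor2_CData_Rich : type_of% @CData.Rich.eq_def := @CData.Rich.eq_def
theorem anchor1_CData_Kset : type_of% @CData.Kset.eq_1 := @CData.Kset.eq_1
theorem anchor2_CData_Kset : type_of% @CData.Kset.eq_def := @CData.Kset.eq_def
theorem anchor1_Lev2_run : type_of% @Lev2.run.eq_1 := @Lev2.run.eq_1
theorem anchor2_Lev2_run : type_of% @Lev2.run.eq_def := @Lev2.run.eq_def
theorem anchor1_Lev2_IsTraj : type_of% @Lev2.IsTraj.eq_1 := @Lev2.IsTraj.eq_1
theorem anchor2_Lev2_IsTraj : type_of% @Lev2.IsTraj.eq_def := @Lev2.IsTraj.eq_def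
theorem anchor1_Lev2_NoHit : type_of% @Lev2.NoHit.eq_1 := @Lev2.NoHit.eq_1
theorem anchor2_Lev2_NoHit : type_of% @Lev2.NoHit.eq_def := @Lev2.NoHit.eq_def
theorem anchor1_EvData_Ev : type_of% @EvData.Ev.eq_1 := @EvData.Ev.eq_1
theorem anchor2_EvData_Ev : type_of% @EvData.Ev.eq_def := @EvData.Ev.eq_def
theorem anchor1_ISys_Us : type_of% @ISys.Us.eq_1 := @ISys.Us.eq_1
theorem anchor2_ISys_Us : type_of% @ISys.Us.eq_def := @ISys.Us.eq_def
theorem anchor1_ISys_Chain : type_of% @ISys.Chain.eq_1 := @ISys.Chain.eq_1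
theorem anchor2_ISys_Chain : type_of% @ISys.Chain.eq_def := @ISys.Chain.eq_def
theorem anchor1_FineGood : type_of% @FineGood.eq_1 := @FineGood.eq_1
theorem anchor2_FineGood : type_of% @FineGood.eq_def := @FineGood.eq_def
theorem anchor1_CoarseGood : type_of% @CoarseGood.eq_1 := @CoarseGood.eq_1
theorem anchor2_CoarseGood : type_of% @CoarseGood.eq_def := @CoarseGood.eq_def

end Crest.Agent.R320
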