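import Crest.Agent.R320.DetectAux2

namespace Crest.Agent.R320
universe u
variable {A : Type u}

theorem inH_Kset [Finite A] {V : Type} [AddCommGroup V] [Finite V] (C : CData A V) {L : ℕ}
    (hC : C.Good L) (X : Lev2 C) (hX : X.Good) (s s' : C.Pos × V) : InH 2 (C.Kset s s') :=
  DetectAux.main hC hX s s'

end Crest.Agent.R320
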