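import Crest.Agent.R320.SFC

/-! Auxiliary material for the detection of periods (row 320). -/

set_option autoImplicit false

namespace Crest.Agent.R320.DetectAux
open Crest.Agent.R320
universe u
variable {A : Type u}

/-- Invariance under adding one period to a long periodic factor. -/
def Rot (S : List A → Prop) (w : ℕ → A) (q : ℕ) : Prop :=
  ∀ c n, 2 ≤ n → (S (seg w c (n * q)) ↔ S (seg w c ((n + 1) * q)))

theorem rot_omg (S : List A → Prop) (x : List A) (hx : x ≠ [])
    (h : ∀ u v, S (u ++ x ++ v) ↔ S (u ++ x ++ x ++ v)) : Rot S (omg x hx) x.length := by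
  intro c n hn
  have hq : 0 < x.length := List.length_pos_iff.2 hx
  have hp := omg_periodic x hx
  set q := x.length with hqd
  set w := omg x hx
  obtain ⟨d, j, hd, hj⟩ : ∃ d j, d ≤ q ∧ c + d = 0 + j * q := by
    refine ⟨q - c % q, c / q + 1, Nat.sub_le _ _, ?_⟩
    have h1 := Nat.div_add_mod' c q
    have h2 := Nat.mod_lt c hq
    rw [Nat.add_mul]; omega
  obtain ⟨r, hr⟩ : ∃ r, n * q = d + q + r := ⟨n * q - (d + q), by
    have : 2 * q ≤ n * q := Nat.mul_le_mul_right _ hn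
    omega⟩
  have hx0 : seg w (c + d) q = x := by rw [hj, seg_periodic hp]; exact seg_omg x hx
  have hx1 : seg w (c + (d + q)) q = x := by
    rw [← hx0, ← Nat.add_assoc]
    simpa using seg_periodic hp 1 (c + d) q
  have hx2 : seg w (c + (d + q + q)) r = seg w (c + (d + q)) r := by
    rw [← Nat.add_assoc]
    simpa using seg_periodic hp 1 (c + (d + q)) r
  have e1 : seg w c (n * q) = seg w c d ++ x ++ seg w (c + (d + q)) r := by
    rw [hr, seg_add, seg_add, hx0]
  have e2 : seg w c ((n + 1) * q) = seg w c d ++ x ++ x ++ seg w (c + (d + q)) r := by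
    have : (n + 1) * q = d + q + q + r := by rw [Nat.add_mul]; omega
    rw [this, seg_add, seg_add, seg_add, hx0, hx1, hx2]
  rw [e1, e2]
  exact h _ _

theorem Rot.two {S : List A → Prop} {w : ℕ → A} {q : ℕ} (h : Rot S w q) (c n : ℕ) (hn : 2 ≤ n) :
    S (seg w c (n * q)) ↔ S (seg w c (2 * q)) := by
  induction n, hn using Nat.le_induction with
  | base => rfl
  | succ n hn ih => rw [← h c n hn, ih]

theorem Rot.shift {S : List A → Prop} {w : ℕ → A} {q : ℕ} (h : Rot S w q) (a : ℕ) :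
    Rot S (fun i => w (a + i)) q := fun c n hn => by
  rw [seg_shift, seg_shift]; exact h _ n hn

section Traj

variable {S : Type*} {δ : S → A → S} {w : ℕ → A} {σ : ℕ → S} {q : ℕ}

theorem traj_prop (hσ : ∀ τ, σ (τ + 1) = δ (σ τ) (w τ)) (hw : ∀ i, w (i + q) = w i) {a n : ℕ}
    (h : σ (a + n * q) = σ a) (t : ℕ) : σ (a + t + n * q) = σ (a + t) := by
  induction t with
  | zero => exact h
  | succ t ih =>
    rw [show a + (t + 1) + n * q = (a + t + n * q) + 1 by omega, hσ, ih, periodic_mul hw,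
      ← Nat.add_assoc, hσ]

theorem traj_periodic (hσ : ∀ τ, σ (τ + 1) = δ (σ τ) (w τ)) (hw : ∀ i, w (i + q) = w i) {m : ℕ}
    (h : σ (m * q) = σ 0) (j t : ℕ) : σ (t + j * m * q) = σ t := by
  have h1 : ∀ t, σ (t + m * q) = σ t := fun t => by
    simpa using traj_prop hσ hw (a := 0) (n := m) (by simpa using h) t
  rw [Nat.mul_assoc]
  exact periodic_mul h1 j t

theorem shift_eq (hσ : ∀ τ, σ (τ + 1) = δ (σ τ) (w τ)) (hw : ∀ i, w (i + q) = w i) (hq : 0 < q)
    {m : ℕ} (hm : 0 < m) (h : σ (m * q) = σ 0) {a : ℕ} (ha : σ (a + q) = σ a) : σ q = σ 0 := by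
  have h1 := traj_prop hσ hw (a := a) (n := 1) (by simpa using ha)
  obtain ⟨t, ht⟩ : ∃ t, a + t = a * m * q := ⟨a * m * q - a, by
    have : a * 1 * 1 ≤ a * m * q := by gcongr <;> omega
    omega⟩
  have h2 := h1 t
  rw [ht, Nat.one_mul, Nat.add_comm, traj_periodic hσ hw h] at h2
  rw [h2]
  simpa using traj_periodic hσ hw h a 0

theorem foldl_rep (δ : S → A → S) (s : S) (x : List A) (n : ℕ) :
    (rep x n).foldl δ s = (fun t => x.foldl δ t)^[n] s := by
  induction n generalizing s with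
  | zero => rfl
  | succ n ih => rw [rep_succ, List.foldl_append, ih, Function.iterate_succ_apply]

end Traj

theorem split_big (x : List A) (hx : x ≠ []) (y z : List A) (m τ T n : ℕ) (hn : m + τ + T ≤ n) :
    ∃ v, y ++ rep x n ++ z = (y ++ rep x m ++ seg (omg x hx) 0 τ) ++ v ∧
      seg (omg x hx) τ T <+: v := by
  have hq : 0 < x.length := List.length_pos_iff.2 hx
  obtain ⟨p, rfl⟩ : ∃ p, n = m + p := ⟨n - m, by omega⟩
  obtain ⟨r, hr⟩ : ∃ r, p * x.length = τ + r ∧ T ≤ r := ⟨p * x.length - τ, by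
    have : p * 1 ≤ p * x.length := Nat.mul_le_mul_left _ hq
    omega⟩
  refine ⟨seg (omg x hx) τ r ++ z, ?_, (seg_prefix _ _ hr.2).trans (List.prefix_append _ _)⟩
  rw [rep_add, ← seg_omg_mul x hx p, hr.1, seg_add]
  simp

variable {V : Type} [AddCommGroup V] {C : CData A V} {L : ℕ}

theorem dead_mono {h : C.Site} {v v' : List A} (hd : C.dead h v) (hv : v <+: v') : C.dead h v' := by
  obtain ⟨u, h1, h2⟩ := hd
  exact ⟨u, h1.trans hv, h2⟩

theorem complete_mono (hC : C.Good L) {v v' : List A} (hd : C.complete v) (hv : v <+: v') :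
    C.complete v' := by
  obtain ⟨r, rfl⟩ := hv
  exact lt_of_lt_of_le hd (hC.ev_left _ _)

theorem complete_right (hC : C.Good L) (u : List A) {v : List A} (hd : C.complete v) :
    C.complete (u ++ v) := lt_of_lt_of_le hd (hC.ev_right _ _)

theorem complete_ne_nil (hC : C.Good L) {v : List A} (hd : C.complete v) : v ≠ [] := by
  rintro rfl
  have := hC.ev_nil
  unfold CData.complete at hd
  omega

theorem dead_of_complete (hC : C.Good L) {h : C.Site} {v v' : List A} (hv : v' <+: v)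
    (hc : C.complete v') (hd : C.dead h v) : C.dead h v' := by
  obtain ⟨u, h1, h2, h3⟩ := hd
  rcases List.prefix_or_prefix_of_prefix h1 hv with h4 | h4
  · exact ⟨u, h4, h2, h3⟩
  · have := complete_mono hC hc h4
    unfold CData.complete at this
    omega

theorem dead_transfer (hC : C.Good L) {h : C.Site} {v₀ v v' : List A} (hc : C.complete v₀)
    (hv : v₀ <+: v) (hv' : v₀ <+: v') (hd : C.dead h v) : C.dead h v' :=
  dead_mono (dead_of_complete hC hv hc hd) hv'

theorem dead_seg (hC : C.Good L) {h : C.Site} {w : ℕ → A} {c t T : ℕ}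
    (hc : C.complete (seg w c T)) (hd : C.dead h (seg w c t)) : C.dead h (seg w c T) :=
  dead_of_complete hC (seg_prefix w c (le_max_right t T)) hc
    (dead_mono hd (seg_prefix w c (le_max_left t T)))

theorem reg_complete (hC : C.Good L) : Reg C.complete :=
  hC.ev_reg.not.congr fun _ => not_le

theorem reg_dead [Finite V] (hC : C.Good L) (h : C.Site) : Reg (C.dead h) := by
  have := hC.finPos
  refine Reg.pref (hC.ev_reg.and (Reg.forall_fin fun lam => ?_))
  exact Reg.pref (Reg.nil.not.and (Reg.foldl C.tstep (C.spos h, lam) (fun s => s = C.s0)))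

/-- Reduction of the star-free closure criterion to rich periodic words. -/
theorem sfc_rich [Finite A] (hC : C.Good L) {h : ℕ} (hh : 1 ≤ h) (R : List A → Prop)
    (hR : Reg R) (hH : InH h R) (K : List A → Prop) (hK : Reg K)
    (hx : ∀ (x : List A) (hx : x ≠ []), C.Rich (omg x hx) → Rot R (omg x hx) x.length →
      ∀ y z, ∃ n0, ∀ n, n0 ≤ n → (K (y ++ rep x n ++ z) ↔ K (y ++ rep x (n + 1) ++ z))) :
    InH h K := by
  obtain ⟨e, he, hE⟩ := hK.exists_exponent
  refine sfc (ι := Unit) hh (fun _ => R) (fun _ => hR) (fun _ => hH) (C.Q0 * e)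
    (Nat.mul_pos hC.Q0_pos he) K hK fun x hdvd hrot y z => ?_
  by_cases hx0 : x = []
  · subst hx0
    exact ⟨0, fun n _ => by simp⟩
  rcases hC.p4 (omg x hx0) x.length (List.length_pos_iff.2 hx0) (omg_periodic x hx0) with hp | hp
  · obtain ⟨j, hj⟩ := hdvd
    have : x = rep (seg (omg x hx0) 0 C.Q0) (e * j) := by
      rw [← seg_mul_eq_rep hp, show e * j * C.Q0 = x.length by rw [hj]; ring, seg_omg]
    refine ⟨1, fun n hn => ?_⟩
    have h1 := hE (seg (omg x hx0) 0 C.Q0) (e * j) (Dvd.intro _ rfl) y z n hn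
    rwa [← this] at h1
  · exact hx x hx0 hp (rot_omg R x hx0 (hrot ())) y z

variable (X : Lev2 C)

/-- The trajectory never sits on a site that dies later. -/
def LOC (w : ℕ → A) (σ : ℕ → X.St) : Prop :=
  ∀ τ h t, X.pos (σ τ) = C.spos h → ¬ C.dead h (seg w τ t)

/-! ### The first code -/

def E1 (Λ : ℕ) (v : List A) : Prop :=
  v.length ≤ Λ ∧ ∃ h, (∀ h', h' ≠ h → C.dead h' v) ∧ ∃ h2 m2, ∀ m',
    X.NoHit (X.init h m') v → X.run (X.init h m') v = X.init h2 m2

theorem finite_E1 [Finite A] (Λ : ℕ) : {v | E1 X Λ v}.Finite :=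
  (List.finite_length_le A Λ).subset fun _ h => h.1

def Usable (G : ℕ) (w : ℕ → A) (σ : ℕ → X.St) (c : ℕ) : Prop :=
  ∃ h m, σ c = X.init h m ∧ (∀ h', h' ≠ h → ∃ t, C.dead h' (seg w c t)) ∧
    ∀ m', X.NoHit (X.init h m') (seg w c G) → X.run (X.init h m') (seg w c G) = σ (c + G)

variable {X}

theorem noHit_traj {w : ℕ → A} {σ : ℕ → X.St} (hσ : X.IsTraj w σ)
    (hn : ∀ τ, 0 < τ → ¬ X.Hit (σ τ)) (c t : ℕ) : X.NoHit (σ c) (seg w c t) := by
  intro u hu hne
  obtain ⟨s, -, rfl⟩ := prefix_seg_iff.1 hu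
  rw [hσ.run_seg]
  refine hn _ ?_
  rcases s with _ | s
  · exact absurd rfl hne
  · omega

theorem E1_block (hC : C.Good L) {W G : ℕ} {w : ℕ → A} {σ : ℕ → X.St} (hσ : X.IsTraj w σ)
    (hW : ∀ c, C.complete (seg w c W)) {c t Λ : ℕ} (h1 : Usable X G w σ c)
    (h2 : Usable X G w σ (c + t)) (hWt : W ≤ t) (hGt : G ≤ t) (hΛ : t ≤ Λ) :
    E1 X Λ (seg w c t) := by
  obtain ⟨h, m, a1, a2, a3⟩ := h1
  obtain ⟨h2, m2, b1, -, -⟩ := h2
  refine ⟨by simpa using hΛ, h, fun h' hh => ?_, h2, m2, fun m' hm' => ?_⟩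
  · obtain ⟨s, hs⟩ := a2 h' hh
    exact dead_mono (dead_seg hC (hW c) hs) (seg_prefix w c hWt)
  · obtain ⟨r, rfl⟩ := Nat.exists_eq_add_of_le hGt
    rw [seg_add, X.run_append, a3 m' fun u hu => hm' u (hu.trans (seg_prefix w c hGt)),
      hσ.run_seg, ← b1, Nat.add_assoc]

theorem E1_complete (hC : C.Good L) {W G : ℕ} {w : ℕ → A} {σ : ℕ → X.St} (hσ : X.IsTraj w σ)
    (hW : ∀ c, C.complete (seg w c W))
    (hG : ∀ τ, ∃ c, τ ≤ c ∧ c ≤ τ + G ∧ Usable X G w σ c) (t : ℕ) :
    ∀ c, Usable X G w σ c → Usable X G w σ (c + t) → max W G ≤ t →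
      Star (E1 X (2 * max W G + G)) (seg w c t) := by
  have hW0 : 0 < W := by
    have := complete_ne_nil hC (hW 0)
    rcases W with _ | W
    · exact absurd rfl this
    · omega
  induction t using Nat.strong_induction_on with
  | _ t ih =>
    intro c h1 h2 ht
    by_cases hs : t ≤ 2 * max W G + G
    · have := Star.cons _ _ (E1_block hC hσ hW h1 h2 (by omega) (by omega) hs) Star.nil
      simpa using this
    · obtain ⟨c', a1, a2, a3⟩ := hG (c + max W G)
      obtain ⟨s, rfl⟩ : ∃ s, c' = c + s := ⟨c' - c, by omega⟩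
      obtain ⟨r, rfl⟩ : ∃ r, t = s + r := ⟨t - s, by omega⟩
      rw [seg_add]
      refine Star.cons _ _ (E1_block hC hσ hW h1 a3 (by omega) (by omega) (by omega)) ?_
      exact ih r (by omega) _ a3 (by rwa [Nat.add_assoc]) (by omega)

theorem E1_sound (hX : X.Good) {Λ : ℕ} {w : ℕ → A} {σ : ℕ → X.St} (hσ : X.IsTraj w σ)
    (hl : LOC X w σ) (hn : ∀ τ, 0 < τ → ¬ X.Hit (σ τ)) {v : List A} (hv : Star (E1 X Λ) v) :
    ∀ c t h m, v = seg w c t → σ c = X.init h m → ∃ h' m', σ (c + t) = X.init h' m' := by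
  induction hv with
  | nil =>
    intro c t h m e hc
    have : t = 0 := by simpa using (congrArg List.length e).symm
    subst this
    exact ⟨h, m, hc⟩
  | cons u v hu _ ih =>
    intro c t h m e hc
    obtain ⟨e1, e2, e3⟩ := append_eq_seg e
    obtain ⟨-, h0, a1, h2, m2, a2⟩ := hu
    have : h = h0 := by
      by_contra hne
      exact hl c h u.length (by rw [hc, hX.pos_init]) (e2 ▸ a1 h hne)
    subst this
    have b1 := a2 m (by rw [← hc, e2]; exact noHit_traj hσ hn _ _)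
    rw [← hc, e2, hσ.run_seg] at b1
    obtain ⟨h', m', b2⟩ := ih _ _ _ _ e3 b1
    exact ⟨h', m', by rw [← b2]; congr 1; omega⟩

theorem D1 (hC : C.Good L) (hX : X.Good) {W G : ℕ} {w : ℕ → A} {σ : ℕ → X.St} {q m : ℕ}
    (hq : 0 < q) (hm : 0 < m) (hw : ∀ i, w (i + q) = w i) (hσ : X.IsTraj w σ)
    (hper : σ (m * q) = σ 0) (hW : ∀ c, C.complete (seg w c W))
    (hG : ∀ τ, ∃ c, τ ≤ c ∧ c ≤ τ + G ∧ Usable X G w σ c)
    (hl : LOC X w σ) (hn : ∀ τ, 0 < τ → ¬ X.Hit (σ τ))
    (hrot : Rot (Star (E1 X (2 * max W G + G))) w q) : σ q = σ 0 := by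
  obtain ⟨c, -, -, hc⟩ := hG 0
  have hc' : Usable X G w σ (c + (max W G + 2) * m * q) := by
    obtain ⟨h, mm, a1, a2, a3⟩ := hc
    refine ⟨h, mm, by rw [traj_periodic hσ hw hper, a1], ?_, ?_⟩
    · simpa only [seg_periodic hw] using a2
    · rw [Nat.add_right_comm, traj_periodic hσ hw hper]
      simpa only [seg_periodic hw] using a3
  have h1 := E1_complete hC hσ hW hG _ c hc hc' (by
    have : (max W G + 2) * 1 * 1 ≤ (max W G + 2) * m * q := by gcongr <;> omega
    omega)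
  have h2 := (hrot.two c _ (by
    have : (max W G + 2) * 1 ≤ (max W G + 2) * m := by gcongr; omega
    omega)).1 h1
  have h3 := (hrot.two c 3 (by omega)).2 h2
  obtain ⟨h, mm, a1, a2, a3⟩ := hc
  have key : ∀ n, Star (E1 X (2 * max W G + G)) (seg w c (n * q)) →
      σ (c + n * q + G) = σ (c + G) := by
    intro n hn'
    obtain ⟨h', m', b⟩ := E1_sound hX hσ hl hn hn' c _ h mm rfl a1
    have : h' = h := by
      by_contra hne
      obtain ⟨t, ht⟩ := a2 h' hne
      exact hl (c + n * q) h' t (by rw [b, hX.pos_init]) (by rwa [seg_periodic hw])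
    subst this
    rw [← a3 m' (by rw [← b, ← seg_periodic hw n]; exact noHit_traj hσ hn _ _), ← b,
      ← seg_periodic hw n, hσ.run_seg]
  refine shift_eq hσ hw hq hm hper (a := c + 2 * q + G) ?_
  rw [key 2 h2, ← key 3 h3]
  congr 1; omega

end Crest.Agent.R320.DetectAux
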