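import Crest.Agent.R320.DetectAux

/-! The second code and the detection of periods of the carrier (row 320). -/

set_option autoImplicit false

namespace Crest.Agent.R320.DetectAux
open Crest.Agent.R320
universe u
variable {A : Type u} {V : Type} [AddCommGroup V] {C : CData A V} {L : ℕ}

def ID (C : CData A V) (h : C.Site) (v : List A) : Prop :=
  C.complete v ∧ ∀ h', h' ≠ h → C.dead h' v

theorem ID.mono (hC : C.Good L) {h : C.Site} {v v' : List A} (hd : ID C h v) (hv : v <+: v') :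
    ID C h v' :=
  ⟨complete_mono hC hd.1 hv, fun h' hh => dead_mono (hd.2 h' hh) hv⟩

theorem ID.transfer (hC : C.Good L) {h : C.Site} {v₀ v v' : List A} (hc : C.complete v₀)
    (hv : v₀ <+: v) (hv' : v₀ <+: v') (hd : ID C h v) : ID C h v' :=
  ⟨complete_mono hC hc hv', fun h' hh => dead_transfer hC hc hv hv' (hd.2 h' hh)⟩

theorem exists_ID (hC : C.Good L) {w : ℕ → A} (hr : C.Rich w) {c : ℕ} {h : C.Site}
    (hd : ∀ h', h' ≠ h → ∃ t, C.dead h' (seg w c t)) : ∃ T, ID C h (seg w c T) := by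
  obtain ⟨T, hT⟩ := hr c
  exact ⟨T, hT, fun h' hh => by
    obtain ⟨t, ht⟩ := hd h' hh
    exact dead_seg hC hT ht⟩

theorem reg_ID [Finite V] (hC : C.Good L) (h : C.Site) : Reg (ID C h) := by
  have := hC.finSite
  exact (reg_complete hC).and (Reg.forall_fin fun h' => (Reg.const _).imp (reg_dead hC h'))

variable (X : Lev2 C)

def Bad (h : C.Site) (u v : List A) : Prop :=
  ∃ h', (X.pos (X.run (X.init h X.hid) u) = C.spos h' ∧ C.complete v ∧ C.dead h' v) ∨
    ((C.complete u ∧ X.run (X.init h X.hid) u = X.init h' X.hid) ∧ ID C h' v)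

def HasBad (h : C.Site) (w : List A) : Prop := ∃ u v, Bad X h u v ∧ w = u ++ v

def E2h (h : C.Site) (v : List A) : Prop :=
  ID C h v ∧ (∃ h', X.run (X.init h X.hid) v = X.init h' X.hid) ∧ ¬ HasBad X h v

def E2 (v : List A) : Prop := ∃ h, E2h X h v

variable {X}

theorem reg_HasBad [Finite V] (hC : C.Good L) (hX : X.Good) (h : C.Site) : Reg (HasBad X h) := by
  have := hC.finSite
  have := hX.finSt
  have h1 : ∀ h' : C.Site, Reg fun w => ∃ u v,
      X.pos (X.run (X.init h X.hid) u) = C.spos h' ∧ (C.complete v ∧ C.dead h' v) ∧ w = u ++ v :=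
    fun h' => Reg.cat (Reg.foldl X.step (X.init h X.hid) (fun s => X.pos s = C.spos h'))
      ((reg_complete hC).and (reg_dead hC h'))
  have h2 : ∀ h' : C.Site, Reg fun w => ∃ u v,
      (C.complete u ∧ X.run (X.init h X.hid) u = X.init h' X.hid) ∧ ID C h' v ∧ w = u ++ v :=
    fun h' => Reg.cat ((reg_complete hC).and
      (Reg.foldl X.step (X.init h X.hid) (fun s => s = X.init h' X.hid))) (reg_ID hC h')
  refine (Reg.exists_fin fun h' => (h1 h').or (h2 h')).congr fun w => ?_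
  constructor
  · rintro ⟨h', ⟨u, v, a, b, c⟩ | ⟨u, v, a, b, c⟩⟩
    · exact ⟨u, v, ⟨h', Or.inl ⟨a, b⟩⟩, c⟩
    · exact ⟨u, v, ⟨h', Or.inr ⟨a, b⟩⟩, c⟩
  · rintro ⟨u, v, ⟨h', ⟨a, b⟩ | ⟨a, b⟩⟩, c⟩
    · exact ⟨h', Or.inl ⟨u, v, a, b, c⟩⟩
    · exact ⟨h', Or.inr ⟨u, v, a, b, c⟩⟩

theorem reg_E2 [Finite V] (hC : C.Good L) (hX : X.Good) : Reg (E2 X) := by
  have := hC.finSite
  have := hX.finSt
  exact Reg.exists_fin fun h => (reg_ID hC h).and
    ((Reg.foldl X.step (X.init h X.hid) (fun s => ∃ h', s = X.init h' X.hid)).and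
      (reg_HasBad hC hX h).not)

theorem Bad.right (hC : C.Good L) {h : C.Site} {u v₀ v v' : List A} (hc : C.complete v₀)
    (hv : v₀ <+: v) (hv' : v₀ <+: v') (hb : Bad X h u v) : Bad X h u v' := by
  obtain ⟨h', ⟨a, -, b⟩ | ⟨a, b⟩⟩ := hb
  · exact ⟨h', Or.inl ⟨a, complete_mono hC hc hv', dead_transfer hC hc hv hv' b⟩⟩
  · exact ⟨h', Or.inr ⟨a, b.transfer hC hc hv hv'⟩⟩

theorem Bad.left {h : C.Site} {u u' v : List A} (hc : C.complete u')
    (hr : X.run (X.init h X.hid) u' = X.run (X.init h X.hid) u) (hb : Bad X h u v) :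
    Bad X h u' v := by
  obtain ⟨h', ⟨a, b⟩ | ⟨a, b⟩⟩ := hb
  · exact ⟨h', Or.inl ⟨hr ▸ a, b⟩⟩
  · exact ⟨h', Or.inr ⟨⟨hc, hr ▸ a.2⟩, b⟩⟩

theorem HasBad.transfer (hC : C.Good L) {h : C.Site} {p p' r r' r₀ : List A}
    (hc : C.complete r₀) (hr : r₀ <+: r) (hr' : r₀ <+: r') (hp' : C.complete p')
    (hrun : X.run (X.init h X.hid) p' = X.run (X.init h X.hid) p)
    (hb : HasBad X h (p ++ r)) : HasBad X h (p ++ r') ∨ HasBad X h (p' ++ r) := by
  obtain ⟨u, v, hb, e⟩ := hb
  rcases List.append_eq_append_iff.1 e with ⟨a, rfl, rfl⟩ | ⟨a, rfl, rfl⟩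
  · right
    refine ⟨p' ++ a, v, hb.left (complete_mono hC hp' (List.prefix_append _ _)) ?_, by simp⟩
    rw [X.run_append, X.run_append, hrun]
  · left
    exact ⟨u, a ++ r', hb.right hC (complete_right hC a hc) ((List.prefix_append_right_inj a).2 hr)
      ((List.prefix_append_right_inj a).2 hr'), by simp⟩

theorem rep_prefix (x z : List A) {m n : ℕ} (h : m ≤ n) : rep x m <+: rep x n ++ z := by
  obtain ⟨d, rfl⟩ := Nat.exists_eq_add_of_le h
  rw [rep_add, List.append_assoc]
  exact List.prefix_append _ _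

theorem E2h_stable (hC : C.Good L) (hX : X.Good) {W G : ℕ}
    (hW : ∀ (w : ℕ → A) (σ : ℕ → X.St), X.IsTraj w σ → (∀ τ, 0 < τ → ¬ X.Hit (σ τ)) →
      ∀ c, C.complete (seg w c W))
    (hG : ∀ (w : ℕ → A) (σ : ℕ → X.St), C.Rich w → X.IsTraj w σ →
      ∀ τ, ∃ c, τ ≤ c ∧ c ≤ τ + G ∧ Usable X G w σ c)
    (x : List A) (hx : x ≠ []) (hr : C.Rich (omg x hx))
    (hrot : Rot (Star (E1 X (2 * max W G + G))) (omg x hx) x.length) (y z : List A)
    (h : C.Site) :
    ∃ n0, ∀ n, n0 ≤ n → (E2h X h (y ++ rep x n ++ z) ↔ E2h X h (y ++ rep x (n + 1) ++ z)) := by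
  have := hX.finSt
  have hq : 0 < x.length := List.length_pos_iff.2 hx
  obtain ⟨t₀, ht₀⟩ := hr 0
  obtain ⟨m, hm, hdvd, hid⟩ := exists_idem_iter (fun s => X.run s x) (t₀ + 1) (by omega)
  have hxm : C.complete (rep x m) := by
    rw [← seg_omg_mul x hx]
    refine complete_mono hC ht₀ (seg_prefix _ _ ?_)
    have h1 := Nat.le_of_dvd hm hdvd
    have h2 : m * 1 ≤ m * x.length := Nat.mul_le_mul_left _ hq
    omega
  have hrep : ∀ s n, X.run s (rep x n) = (fun s => X.run s x)^[n] s :=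
    fun s n => foldl_rep X.step s x n
  set s₁ := X.run (X.init h X.hid) (y ++ rep x m) with hs₁
  let σ : ℕ → X.St := fun τ => X.run s₁ (seg (omg x hx) 0 τ)
  have hσ : X.IsTraj (omg x hx) σ := X.isTraj_run _ _
  have hper : σ (m * x.length) = σ 0 := by
    simp only [σ, seg_omg_mul, seg_zero, Lev2.run_nil, hs₁, X.run_append, hrep, hid]
  have hσu : ∀ τ, X.run (X.init h X.hid) (y ++ rep x m ++ seg (omg x hx) 0 τ) = σ τ :=
    fun τ => X.run_append _ _ _
  have hbad : ∀ τ T, Bad X h (y ++ rep x m ++ seg (omg x hx) 0 τ) (seg (omg x hx) τ T) →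
      C.complete (seg (omg x hx) τ T) →
      ∃ n0, ∀ n, n0 ≤ n → (E2h X h (y ++ rep x n ++ z) ↔ E2h X h (y ++ rep x (n + 1) ++ z)) := by
    intro τ T hb hc
    have : ∀ n, m + τ + T ≤ n → ¬ E2h X h (y ++ rep x n ++ z) := fun n hn hE => by
      obtain ⟨v, e, hv⟩ := split_big x hx y z m τ T n hn
      exact hE.2.2 ⟨_, v, hb.right hC hc (List.prefix_refl _) hv, e⟩
    exact ⟨m + τ + T, fun n hn => iff_of_false (this n hn) (this _ (by omega))⟩
  by_cases hl : LOC X (omg x hx) σ
  swap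
  · unfold LOC at hl
    push Not at hl
    obtain ⟨τ, h', t, a, b⟩ := hl
    obtain ⟨T, hT⟩ := hr τ
    exact hbad τ T ⟨h', Or.inl ⟨by rw [hσu, a], hT, dead_seg hC hT b⟩⟩ hT
  by_cases hn : ∀ τ, 0 < τ → ¬ X.Hit (σ τ)
  swap
  · push Not at hn
    obtain ⟨τ, a, b⟩ := hn
    obtain ⟨c, h', -, a2, a3⟩ := hX.x1 _ σ hr hσ τ a b
    obtain ⟨T, hT⟩ := exists_ID hC hr a3
    refine hbad c T ⟨h', Or.inr ⟨⟨?_, by rw [hσu, a2]⟩, hT⟩⟩ hT.1
    exact complete_mono hC (complete_right hC y hxm) (List.prefix_append _ _)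
  have hfix : X.run s₁ x = s₁ := by
    have := D1 hC hX hq hm (omg_periodic x hx) hσ hper (hW _ σ hσ hn) (hG _ σ hr hσ) hl hn hrot
    simpa only [σ, seg_omg, seg_zero, Lev2.run_nil] using this
  have hrun : ∀ n, m ≤ n → X.run (X.init h X.hid) (y ++ rep x n) = s₁ := by
    intro n hn
    induction n, hn using Nat.le_induction with
    | base => rfl
    | succ n _ ih => rw [rep_succ', ← List.append_assoc, X.run_append, ih, hfix]
  have hcy : ∀ n, m ≤ n → C.complete (y ++ rep x n) := fun n hn =>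
    complete_right hC y (complete_mono hC hxm (by simpa using rep_prefix x [] hn))
  have hpre : ∀ n, m ≤ n → y ++ rep x m <+: y ++ rep x n ++ z := fun n hn => by
    rw [List.append_assoc]
    exact (List.prefix_append_right_inj y).2 (rep_prefix x z hn)
  have hsplit : ∀ a b n, n = a + b → y ++ rep x n ++ z = (y ++ rep x a) ++ (rep x b ++ z) := by
    rintro a b _ rfl
    rw [rep_add]; simp
  refine ⟨2 * m + 1, fun n hn => and_congr ?_ (and_congr ?_ (not_congr ⟨?_, ?_⟩))⟩
  · exact ⟨ID.transfer hC (hcy m le_rfl) (hpre _ (by omega)) (hpre _ (by omega)),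
      ID.transfer hC (hcy m le_rfl) (hpre _ (by omega)) (hpre _ (by omega))⟩
  · rw [X.run_append, X.run_append _ (y ++ rep x (n + 1)), hrun n (by omega),
      hrun (n + 1) (by omega)]
  · intro hb
    rw [hsplit m (n - m) n (by omega)] at hb
    rcases hb.transfer hC hxm (rep_prefix x z (show m ≤ n - m by omega))
      (rep_prefix x z (show m ≤ n + 1 - m by omega)) (hcy (m + 1) (by omega))
      (by rw [hrun _ (by omega)]) with h1 | h1
    · rwa [hsplit m (n + 1 - m) (n + 1) (by omega)]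
    · rwa [hsplit (m + 1) (n - m) (n + 1) (by omega)]
  · intro hb
    rw [hsplit (m + 1) (n - m) (n + 1) (by omega)] at hb
    rcases hb.transfer hC hxm (rep_prefix x z (show m ≤ n - m by omega))
      (rep_prefix x z (show m ≤ n - (m + 1) by omega)) (hcy m le_rfl)
      (by rw [hrun (m + 1) (by omega)]) with h1 | h1
    · rwa [hsplit (m + 1) (n - (m + 1)) n (by omega)]
    · rwa [hsplit m (n - m) n (by omega)]

theorem inH_E2 [Finite A] [Finite V] (hC : C.Good L) (hX : X.Good) : InH 1 (E2 X) := by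
  have := hC.finSite
  obtain ⟨W, hW⟩ := hX.x2
  obtain ⟨G, hG⟩ := hX.x3
  have hG' : ∀ (w : ℕ → A) (σ : ℕ → X.St), C.Rich w → X.IsTraj w σ →
      ∀ τ, ∃ c, τ ≤ c ∧ c ≤ τ + G ∧ Usable X G w σ c := fun w σ a b τ => by
    obtain ⟨c, h, m, a1, a2, a3⟩ := hG w σ a b τ
    exact ⟨c, a1, a2, h, m, a3⟩
  refine sfc_rich hC le_rfl (Star (E1 X (2 * max W G + G))) (Reg.finite (finite_E1 X _)).star
    (InH.finite 0 (finite_E1 X _)).star _ (reg_E2 hC hX) fun x hx hr hrot y z => ?_
  choose n0 hn0 using E2h_stable hC hX hW hG' x hx hr hrot y z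
  obtain ⟨N, hN⟩ := (Set.finite_range n0).bddAbove
  exact ⟨N, fun n hn => exists_congr fun h => hn0 h n ((hN ⟨h, rfl⟩).trans hn)⟩

theorem E2_block (hC : C.Good L) {w : ℕ → A} {σ : ℕ → X.St} (hσ : X.IsTraj w σ)
    (hl : LOC X w σ) {c t T : ℕ} {h h' : C.Site} (hc : σ c = X.init h X.hid)
    (hid : ID C h (seg w c t)) (he : σ (c + t) = X.init h' X.hid) (htT : t ≤ T)
    (hmin : ∀ s, s < t → ¬ (C.complete (seg w c s) ∧
      ∃ h'', σ (c + s) = X.init h'' X.hid ∧ ID C h'' (seg w (c + s) (T - s)))) :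
    E2 X (seg w c t) := by
  refine ⟨h, hid, ⟨h', by rw [← hc, hσ.run_seg, he]⟩, ?_⟩
  rintro ⟨u, v, hb, e⟩
  obtain ⟨e1, e2, e3⟩ := append_eq_seg e.symm
  generalize u.length = s at e1 e2 e3
  subst e2 e3
  obtain ⟨h'', ⟨a, -, b⟩ | ⟨⟨a, a'⟩, b⟩⟩ := hb
  · rw [← hc, hσ.run_seg] at a
    exact hl _ _ _ a b
  · rw [← hc, hσ.run_seg] at a'
    have hst : s < t := by
      have := complete_ne_nil hC b.1
      by_contra hh
      exact this (by rw [show t - s = 0 by omega]; rfl)
    exact hmin s hst ⟨a, h'', a', b.mono hC (seg_prefix _ _ (by omega))⟩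

theorem E2_complete (hC : C.Good L) {w : ℕ → A} {σ : ℕ → X.St} (hσ : X.IsTraj w σ)
    (hl : LOC X w σ) (T : ℕ) : ∀ c h he, σ c = X.init h X.hid → ID C h (seg w c T) →
      σ (c + T) = X.init he X.hid → Star (E2 X) (seg w c T) := by
  classical
  induction T using Nat.strong_induction_on with
  | _ T ih =>
    intro c h he hc hid hend
    by_cases hex : ∃ s, s < T ∧ C.complete (seg w c s) ∧
        ∃ h'', σ (c + s) = X.init h'' X.hid ∧ ID C h'' (seg w (c + s) (T - s))
    · obtain ⟨a1, a2, h', a3, a4⟩ := Nat.find_spec hex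
      have hmin := fun s (hs : s < Nat.find hex) => Nat.find_min hex hs
      generalize Nat.find hex = t at a1 a2 a3 a4 hmin
      have ht0 : 0 < t := by
        have := complete_ne_nil hC a2
        rcases t with _ | t
        · exact absurd rfl this
        · omega
      have e : seg w c T = seg w c t ++ seg w (c + t) (T - t) := by
        rw [← seg_add]; congr 1; omega
      rw [e]
      refine Star.cons _ _ (E2_block hC hσ hl hc
        (hid.transfer hC a2 (seg_prefix _ _ a1.le) (List.prefix_refl _)) a3 a1.le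
        fun s hs hh => hmin s hs ⟨by omega, hh⟩) ?_
      exact ih _ (by omega) _ h' he a3 a4 (by rw [← hend]; congr 1; omega)
    · have := Star.cons _ _ (E2_block hC hσ hl hc hid hend le_rfl
        fun s hs hh => hex ⟨s, hs, hh⟩) Star.nil
      simpa using this

theorem E2_sound (hX : X.Good) {w : ℕ → A} {σ : ℕ → X.St} (hσ : X.IsTraj w σ)
    (hl : LOC X w σ) {v : List A} (hv : Star (E2 X) v) :
    ∀ c t h, v = seg w c t → σ c = X.init h X.hid → ∃ h', σ (c + t) = X.init h' X.hid := by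
  induction hv with
  | nil =>
    intro c t h e hc
    have : t = 0 := by simpa using (congrArg List.length e).symm
    subst this
    exact ⟨h, hc⟩
  | cons u v hu _ ih =>
    intro c t h e hc
    obtain ⟨e1, e2, e3⟩ := append_eq_seg e
    obtain ⟨h0, a1, ⟨h2, a2⟩, -⟩ := hu
    have : h = h0 := by
      by_contra hne
      exact hl c h u.length (by rw [hc, hX.pos_init]) (e2 ▸ a1.2 h hne)
    subst this
    rw [← hc, e2, hσ.run_seg] at a2
    obtain ⟨h', b2⟩ := ih _ _ _ e3 a2
    exact ⟨h', by rw [← b2]; congr 1; omega⟩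

theorem P2 (hC : C.Good L) (hX : X.Good) {w : ℕ → A} {σ : ℕ → X.St} {q m : ℕ}
    (hq : 0 < q) (hm : 0 < m) (hw : ∀ i, w (i + q) = w i) (hr : C.Rich w) (hσ : X.IsTraj w σ)
    (hper : σ (m * q) = σ 0) (hl : LOC X w σ) (hn : ∃ τ, 0 < τ ∧ X.Hit (σ τ))
    (hrot : Rot (Star (E2 X)) w q) : σ q = σ 0 := by
  obtain ⟨τ, a, b⟩ := hn
  obtain ⟨c, h, -, a2, a3⟩ := hX.x1 w σ hr hσ τ a b
  obtain ⟨T, hT⟩ := exists_ID hC hr a3
  have h1 := E2_complete hC hσ hl ((T + 2) * m * q) c h h a2
    (hT.mono hC (seg_prefix _ _ (by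
      have : (T + 2) * 1 * 1 ≤ (T + 2) * m * q := by gcongr <;> omega
      omega))) (by rw [traj_periodic hσ hw hper, a2])
  have h2 := (hrot.two c _ (by
    have : (T + 2) * 1 ≤ (T + 2) * m := by gcongr; omega
    omega)).1 h1
  have h3 := (hrot.two c 3 (by omega)).2 h2
  have key : ∀ n, Star (E2 X) (seg w c (n * q)) → σ (c + n * q) = X.init h X.hid := by
    intro n hn'
    obtain ⟨h', b⟩ := E2_sound hX hσ hl hn' c _ h rfl a2
    have : h' = h := by
      by_contra hne
      exact hl (c + n * q) h' T (by rw [b, hX.pos_init])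
        (by rw [seg_periodic hw]; exact hT.2 h' hne)
    rw [b, this]
  refine shift_eq hσ hw hq hm hper (a := c + 2 * q) ?_
  rw [key 2 h2, ← key 3 h3]
  congr 1; omega

theorem D2 (hC : C.Good L) (hX : X.Good) {w : ℕ → A} {q k : ℕ} (hq : 0 < q) (hk : 0 < k)
    (hw : ∀ i, w (i + q) = w i) (hr : C.Rich w) (hrot : Rot (Star (E2 X)) w q)
    (s₁ : C.Pos × V) (hper : C.trun s₁ (seg w 0 (k * q)) = s₁)
    (hn : ∀ τ, 0 < τ → C.trun s₁ (seg w 0 τ) ≠ C.s0) : C.trun s₁ (seg w 0 q) = s₁ := by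
  let T : ℕ → C.Pos × V := fun τ => C.trun s₁ (seg w 0 τ)
  have hT : ∀ τ, T (τ + 1) = C.tstep (T τ) (w τ) := fun τ => by
    simp only [T, C.trun_seg_succ, Nat.zero_add]
  have hTs : ∀ a t, C.trun (T a) (seg w a t) = T (a + t) := fun a t => by
    simp only [T, seg_add, C.trun_append, Nat.zero_add]
  have hper' : T (k * q) = T 0 := hper
  obtain ⟨c, -, -, hc⟩ := hC.p1 s₁.1 w 0
  have hc1 : (T c).1 = C.birth := by simp only [T, C.trun_fst, hc]
  have hw' : ∀ i, w (c + (i + q)) = w (c + i) := fun i => by rw [← Nat.add_assoc, hw]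
  have hpos : ∀ τ, C.prun C.birth (seg (fun i => w (c + i)) 0 τ) = (T (c + τ)).1 := fun τ => by
    rw [seg_shift, Nat.add_zero, ← hTs, C.trun_fst, hc1]
  have hTk : T (c + k * q) = T c := by simpa using traj_periodic hT hw hper' 1 c
  obtain ⟨b1, m, b2⟩ := hX.x4 (fun i => w (c + i)) q k hq hk hw' (by rw [hpos, hTk, hc1]) (by
    intro σ m hm hσ h0 hp hh
    refine P2 hC hX hq hm hw' (fun a => by simpa only [seg_shift] using hr (c + a)) hσ hp ?_ hh
      (hrot.shift c)
    have hσp : ∀ τ, X.pos (σ τ) = (T (c + τ)).1 := fun τ => by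
      induction τ with
      | zero => rw [h0, Nat.add_zero, hc1]
      | succ τ ih => rw [hσ, hX.pos_step, ih, ← Nat.add_assoc, hT]; rfl
    rintro τ h t a ⟨u, a1, -, a2⟩
    obtain ⟨u', a3, a4, a5⟩ := a2 (T (c + τ)).2
    have a6 := a3.trans a1
    rw [seg_shift] at a6
    obtain ⟨s, -, rfl⟩ := prefix_seg_iff.1 a6
    rw [← a, hσp, Prod.mk.eta, hTs] at a5
    refine hn _ ?_ a5
    rcases s with _ | s
    · exact absurd rfl a4
    · omega)
  rw [seg_shift, Nat.add_zero] at b1 b2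
  set f : V → V := fun l => (C.trun (C.birth, l) (seg w c q)).2
  have hn' : ∀ n, T (c + n * q) = (C.birth, f^[n] (T c).2) := fun n => by
    induction n with
    | zero => simp [← hc1]
    | succ n ih =>
      rw [Nat.succ_mul, ← Nat.add_assoc, ← hTs, ih, seg_periodic hw,
        Function.iterate_succ_apply']
      exact Prod.ext (by rw [C.trun_fst]; exact b1) rfl
  have hfk : f^[k] (T c).2 = (T c).2 := by
    have := hn' k
    rw [hTk] at this
    exact (congrArg Prod.snd this).symm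
  have hfN : f^[k * m] (T c).2 = (T c).2 := by
    rw [Function.iterate_mul]
    exact Function.iterate_fixed hfk m
  have hf1 : f (T c).2 = (T c).2 := by
    obtain ⟨d, hd⟩ : ∃ d, k * m = m + d := ⟨k * m - m, by
      have : 1 * m ≤ k * m := Nat.mul_le_mul_right _ hk
      omega⟩
    have h1 := b2 (f^[d] (T c).2)
    rw [Function.iterate_succ_apply', ← Function.iterate_add_apply, ← hd, hfN] at h1
    exact h1
  refine shift_eq hT hw hq hk hper' (a := c) ?_
  have := hn' 1
  rw [Nat.one_mul, Function.iterate_one, hf1, ← hc1] at this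
  exact this

theorem reg_Kset [Finite V] (hC : C.Good L) (s s' : C.Pos × V) : Reg (C.Kset s s') := by
  have := hC.finPos
  refine ((Reg.foldl C.tstep s (fun t => t = s')).and
    (Reg.cat (Reg.nil.not.and (Reg.foldl C.tstep s (fun t => t = C.s0))) Reg.nil.not).not).congr
    fun w => and_congr Iff.rfl ⟨?_, ?_⟩
  · rintro h u ⟨v, rfl⟩ a b c
    exact h ⟨u, v, ⟨a, c⟩, fun hv => b (by simp [hv]), rfl⟩
  · rintro h ⟨u, v, ⟨a, c⟩, b, rfl⟩
    exact h u (List.prefix_append _ _) a (by simpa using b) c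

theorem main [Finite A] [Finite V] (hC : C.Good L) (hX : X.Good) (s s' : C.Pos × V) :
    InH 2 (C.Kset s s') := by
  have := hC.finPos
  refine sfc_rich hC (by omega) (Star (E2 X)) (reg_E2 hC hX).star (inH_E2 hC hX).star _
    (reg_Kset hC s s') fun x hx hr hrot y z => ?_
  have hq : 0 < x.length := List.length_pos_iff.2 hx
  by_cases hex : ∃ n u, u <+: y ++ rep x n ∧ u ≠ [] ∧ C.trun s u = C.s0
  · obtain ⟨n₀, u, a1, a2, a3⟩ := hex
    have : ∀ n, n₀ + 1 ≤ n → ¬ C.Kset s s' (y ++ rep x n ++ z) := fun n hn hK => by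
      refine hK.2 u (a1.trans ?_) a2 (fun e => ?_) a3
      · rw [List.append_assoc]
        exact (List.prefix_append_right_inj y).2 (rep_prefix x z (by omega))
      · have b1 := a1.length_le
        have b2 := congrArg List.length e
        have b3 : (n₀ + 1) * x.length ≤ n * x.length := Nat.mul_le_mul_right _ hn
        simp only [List.length_append, length_rep] at b1 b2
        rw [Nat.add_mul] at b3
        omega
    exact ⟨n₀ + 1, fun n hn => iff_of_false (this n hn) (this _ (by omega))⟩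
  push Not at hex
  obtain ⟨m, hm, -, hid⟩ := exists_idem_iter (fun t => C.trun t x) 1 one_pos
  have hrep : ∀ t n, C.trun t (rep x n) = (fun t => C.trun t x)^[n] t :=
    fun t n => foldl_rep C.tstep t x n
  set s₁ := C.trun s (y ++ rep x m) with hs₁
  have hfix : C.trun s₁ x = s₁ := by
    have := D2 hC hX hq hm (omg_periodic x hx) hr hrot s₁
      (by simp only [seg_omg_mul, hs₁, C.trun_append, hrep, hid]) (fun τ hτ => by
        obtain ⟨v, e, -⟩ := split_big x hx y [] m τ 0 (m + τ) le_rfl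
        rw [hs₁, ← C.trun_append]
        refine hex (m + τ) _ ⟨v, by simpa using e.symm⟩ fun e' => ?_
        have := congrArg List.length e'
        simp at this
        omega)
    rwa [seg_omg] at this
  have hrun : ∀ n, m ≤ n → C.trun s (y ++ rep x n) = s₁ := by
    intro n hn
    induction n, hn using Nat.le_induction with
    | base => rfl
    | succ n _ ih => rw [rep_succ', ← List.append_assoc, C.trun_append, ih, hfix]
  have key : ∀ n, m ≤ n → (C.Kset s s' (y ++ rep x n ++ z) ↔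
      C.trun s₁ z = s' ∧ ∀ z', z' <+: z → z' ≠ z → C.trun s₁ z' ≠ C.s0) := fun n hn => by
    unfold CData.Kset
    rw [C.trun_append, hrun n hn]
    refine and_congr Iff.rfl ⟨fun h z' a b => ?_, fun h u a b c => ?_⟩
    · rw [← hrun n hn, ← C.trun_append]
      refine h _ ((List.prefix_append_right_inj _).2 a) (fun e => ?_) (by simpa using b)
      have b1 := congrArg List.length e
      have b3 : 1 * 1 ≤ n * x.length := Nat.mul_le_mul (by omega) hq
      simp only [List.length_append, length_rep, List.length_nil] at b1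
      omega
    · rcases List.prefix_or_prefix_of_prefix a (List.prefix_append _ z) with h1 | ⟨z', rfl⟩
      · exact hex n u h1 b
      · rw [C.trun_append, hrun n hn]
        exact h z' ((List.prefix_append_right_inj _).1 a) (fun e => c (by rw [e]))
  exact ⟨m, fun n hn => by rw [key n hn, key (n + 1) (by omega)]⟩

end Crest.Agent.R320.DetectAux
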