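import Crest.Agent.R320.Reg

namespace Crest.Agent.R320
universe u
variable {A : Type u}

namespace EventsAux

open Classical in
/-- The number of windows of length `k` of a word that satisfy `P`. -/
noncomputable def cnt (k : ℕ) (P : List A → Prop) : List A → ℕ
  | [] => 0
  | a :: x => (if k ≤ x.length + 1 ∧ P ((a :: x).take k) then 1 else 0) + cnt k P x

variable {k : ℕ} {P : List A → Prop}

theorem cnt_nil : cnt k P [] = 0 := rfl

open Classical in
theorem cnt_cons (a : A) (x : List A) : cnt k P (a :: x) =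
    (if k ≤ x.length + 1 ∧ P ((a :: x).take k) then 1 else 0) + cnt k P x := rfl

theorem take_app {a : A} {u : List A} (v : List A) (h : k ≤ u.length + 1) :
    (a :: (u ++ v)).take k = (a :: u).take k := by
  rw [← List.cons_append, List.take_append_of_le_length (by simpa using h)]

theorem cnt_append (u v : List A) : cnt k P u + cnt k P v ≤ cnt k P (u ++ v) := by
  induction u with
  | nil => simp [cnt_nil]
  | cons a u ih =>
    rw [List.cons_append, cnt_cons, cnt_cons]
    by_cases h : k ≤ u.length + 1 ∧ P ((a :: u).take k)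
    · rw [if_pos h, if_pos ⟨by rw [List.length_append]; omega, by rw [take_app v h.1]; exact h.2⟩]
      omega
    · rw [if_neg h]; omega

theorem cnt_suffix (u v : List A) :
    cnt k P (u ++ v) + cnt k P (u.drop (u.length - k)) =
      cnt k P u + cnt k P (u.drop (u.length - k) ++ v) := by
  induction u with
  | nil => simp [cnt_nil]
  | cons a u ih =>
    by_cases h : u.length + 1 ≤ k
    · rw [List.length_cons, Nat.sub_eq_zero_of_le h, List.drop_zero, Nat.add_comm]
    · have e : (a :: u).length - k = (u.length - k) + 1 := by rw [List.length_cons]; omega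
      rw [e, List.drop_succ_cons, List.cons_append, cnt_cons, cnt_cons, take_app v (by omega)]
      have h1 : k ≤ (u ++ v).length + 1 := by rw [List.length_append]; omega
      have h2 : k ≤ u.length + 1 := by omega
      by_cases hP : P ((a :: u).take k)
      · rw [if_pos ⟨h1, hP⟩, if_pos ⟨h2, hP⟩]; omega
      · rw [if_neg fun h => hP h.2, if_neg fun h => hP h.2]; omega

theorem cnt_reg [Finite A] (T : ℕ) : Reg (fun u => cnt k P u ≤ T) := by
  have : Finite {l : List A | l.length ≤ k} := List.finite_length_le A k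
  refine RegAux.of_factor (S := {l : List A | l.length ≤ k} × Fin (T + 2))
    (fun u => (⟨u.drop (u.length - k), by simp only [Set.mem_ofPred_eq, List.length_drop]; omega⟩,
      ⟨min (cnt k P u) (T + 1), by omega⟩)) fun u u' h v hv => ?_
  obtain ⟨h1, h2⟩ := Prod.mk.inj h
  have h1' : u.drop (u.length - k) = u'.drop (u'.length - k) := congrArg Subtype.val h1
  have h2' : min (cnt k P u) (T + 1) = min (cnt k P u') (T + 1) := congrArg Fin.val h2
  have e1 := cnt_suffix (k := k) (P := P) u v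
  have e2 := cnt_suffix (k := k) (P := P) u' v
  have e3 := cnt_append (k := k) (P := P) u v
  rw [h1'] at e1
  omega

open Classical in
theorem cnt_seg (w : ℕ → A) (N : ℕ) : ∀ t c, c + t = N → cnt k P (seg w c t) =
    ((Finset.Ico c N).filter fun j => j + k ≤ N ∧ P (seg w j k)).card := by
  intro t
  induction t with
  | zero =>
    intro c h
    rw [← h]; simp [cnt_nil]
  | succ t ih =>
    intro c h
    have e : Finset.Ico c N = insert c (Finset.Ico (c + 1) N) := by
      ext j; simp only [Finset.mem_Ico, Finset.mem_insert]; omega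
    rw [seg_succ', cnt_cons, ih (c + 1) (by omega), ← seg_succ', length_seg, e,
      Finset.filter_insert]
    by_cases hk : k ≤ t + 1
    · rw [take_seg _ _ _ _ hk]
      have hk' : c + k ≤ N := by omega
      simp only [hk, hk', true_and]
      split_ifs with hP
      · rw [Finset.card_insert_of_notMem (by simp), Nat.add_comm]
      · rw [Nat.zero_add]
    · have hk' : ¬ c + k ≤ N := by omega
      simp only [hk, hk', false_and, if_false, Nat.zero_add]

theorem cnt_pos (hk : 0 < k) {w : ℕ → A} {c t j : ℕ} (h1 : c ≤ j) (h2 : j + k ≤ c + t)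
    (h : P (seg w j k)) : 1 ≤ cnt k P (seg w c t) := by
  classical
  rw [cnt_seg w _ t c rfl]
  exact Finset.card_pos.2 ⟨j, Finset.mem_filter.2 ⟨Finset.mem_Ico.2 ⟨h1, by omega⟩, h2, h⟩⟩

theorem cnt_le (hk : 0 < k) (w : ℕ → A) (c t : ℕ) : cnt k P (seg w c t) ≤
    Set.ncard {e | c < e ∧ e ≤ c + t ∧ (k ≤ e ∧ P (seg w (e - k) k))} := by
  classical
  rw [cnt_seg w _ t c rfl, ← Set.ncard_coe_finset]
  refine Set.ncard_le_ncard_of_injOn (fun j => j + k) (fun j hj => ?_)
    (fun _ _ _ _ h => Nat.add_right_cancel h)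
    ((Set.finite_Iic (c + t)).subset fun e he => he.2.1)
  obtain ⟨h1, h2, h3⟩ := Finset.mem_filter.1 (Finset.mem_coe.1 hj)
  have := Finset.mem_Ico.1 h1
  refine ⟨by omega, h2, by omega, ?_⟩
  rwa [Nat.add_sub_cancel]

theorem cnt_blocks {w : ℕ → A} {c B : ℕ} (h : ∀ c', c ≤ c' → 1 ≤ cnt k P (seg w c' B)) (s : ℕ) :
    s ≤ cnt k P (seg w c (s * B)) := by
  induction s with
  | zero => exact Nat.zero_le _
  | succ s ih =>
    rw [Nat.succ_mul, seg_add]
    have h1 := cnt_append (k := k) (P := P) (seg w c (s * B)) (seg w (c + s * B) B)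
    have h2 := h (c + s * B) (Nat.le_add_right _ _)
    omega

theorem cnt_unbounded {w : ℕ → A} (h : ∀ c, ∃ t, 1 ≤ cnt k P (seg w c t)) (T c : ℕ) :
    ∃ t, T ≤ cnt k P (seg w c t) := by
  induction T with
  | zero => exact ⟨0, Nat.zero_le _⟩
  | succ T ih =>
    obtain ⟨t, ht⟩ := ih
    obtain ⟨t', ht'⟩ := h (c + t)
    refine ⟨t + t', ?_⟩
    rw [seg_add]
    have h1 := cnt_append (k := k) (P := P) (seg w c t) (seg w (c + t) t')
    omega

/-- The window is centred at a mismatch of locally minimal rank. -/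
def isEv (rk : List A → ℕ) (n Q : ℕ) (v : List A) : Prop :=
  v[n + Q]? ≠ v[n]? ∧ ∀ j, j ≤ 2 * n → j ≠ n → v[j + Q]? ≠ v[j]? →
    rk ((v.drop n).take (Q + 1)) < rk ((v.drop j).take (Q + 1))

theorem getElem?_seg (w : ℕ → A) {c t i : ℕ} (hi : i < t) : (seg w c t)[i]? = some (w (c + i)) := by
  rw [List.getElem?_eq_getElem (by simpa using hi), getElem_seg]

theorem isEv_seg (rk : List A → ℕ) (n Q : ℕ) (w : ℕ → A) (c : ℕ) :
    isEv rk n Q (seg w c (2 * n + Q + 1)) ↔
      w (c + n + Q) ≠ w (c + n) ∧ ∀ j, j ≤ 2 * n → j ≠ n → w (c + j + Q) ≠ w (c + j) →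
        rk (seg w (c + n) (Q + 1)) < rk (seg w (c + j) (Q + 1)) := by
  have e1 : ∀ j, j ≤ 2 * n → ((seg w c (2 * n + Q + 1))[j + Q]? ≠ (seg w c (2 * n + Q + 1))[j]? ↔
      w (c + j + Q) ≠ w (c + j)) := by
    intro j hj
    rw [getElem?_seg w (by omega), getElem?_seg w (by omega), Nat.add_assoc]
    simp
  have e2 : ∀ j, j ≤ 2 * n → ((seg w c (2 * n + Q + 1)).drop j).take (Q + 1) =
      seg w (c + j) (Q + 1) := by
    intro j hj
    rw [drop_seg _ _ _ _ (by omega), take_seg _ _ _ _ (by omega)]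
  unfold isEv
  rw [e1 n (by omega), e2 n (by omega)]
  refine and_congr_right fun _ => forall_congr' fun j => forall_congr' fun hj => ?_
  rw [e1 j hj, e2 j hj]

theorem no_tie {w : ℕ → A} {i d Q : ℕ} (hd : d ∣ Q)
    (h : seg w i (Q + 1) = seg w (i + d) (Q + 1)) : w (i + Q) = w i := by
  obtain ⟨s, rfl⟩ := hd
  have h1 : ∀ x, x ≤ d * s → w (i + x) = w (i + d + x) := by
    intro x hx
    have := congrArg (fun l : List A => l[x]?) h
    rw [getElem?_seg w (by omega), getElem?_seg w (by omega)] at this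
    exact Option.some.inj this
  have h2 : ∀ r, r ≤ s → w (i + d * r) = w i := by
    intro r
    induction r with
    | zero => intro _; rfl
    | succ r ih =>
      intro hr
      have := h1 (d * r) (Nat.mul_le_mul_left d (by omega))
      rw [← ih (by omega), this, Nat.mul_succ]
      congr 1
      omega
  exact h2 s le_rfl

theorem density {rk : List A → ℕ} {n Q : ℕ} (hQ : ∀ d, 0 < d → d ≤ n → d ∣ Q)
    (hrk : ∀ x y, x.length = Q + 1 → y.length = Q + 1 → rk x = rk y → x = y) (w : ℕ → A) :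
    ∀ r i, w (i + Q) ≠ w i → rk (seg w i (Q + 1)) ≤ r → n * r + n ≤ i →
      ∃ c, isEv rk n Q (seg w c (2 * n + Q + 1)) ∧ i ≤ c + n + n * r ∧ c + n ≤ i + n * r := by
  have step : ∀ c, w (c + n + Q) ≠ w (c + n) → isEv rk n Q (seg w c (2 * n + Q + 1)) ∨
      ∃ j, j ≤ 2 * n ∧ w (c + j + Q) ≠ w (c + j) ∧
        rk (seg w (c + j) (Q + 1)) < rk (seg w (c + n) (Q + 1)) := by
    intro c hc
    rw [isEv_seg, or_iff_not_imp_left]
    intro h
    push Not at h
    obtain ⟨j, hj, hjn, hm, hle⟩ := h hc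
    refine ⟨j, hj, hm, lt_of_le_of_ne hle fun he => ?_⟩
    have e := hrk _ _ (length_seg _ _ _) (length_seg _ _ _) he
    rcases lt_or_gt_of_ne hjn with hlt | hlt
    · refine hm (no_tie (hQ (n - j) (by omega) (by omega)) ?_)
      rw [e]; congr 1; omega
    · refine hc (no_tie (hQ (j - n) (by omega) (by omega)) ?_)
      rw [← e]; congr 1; omega
  intro r
  induction r with
  | zero =>
    intro i hi hr hn
    obtain ⟨c, rfl⟩ : ∃ c, i = c + n := ⟨i - n, by omega⟩
    rcases step c hi with h | ⟨j, -, -, h⟩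
    · exact ⟨c, h, by omega, by omega⟩
    · omega
  | succ r ih =>
    intro i hi hr hn
    rw [Nat.mul_succ] at hn ⊢
    obtain ⟨c, rfl⟩ : ∃ c, i = c + n := ⟨i - n, by omega⟩
    rcases step c hi with h | ⟨j, hj, hm, h⟩
    · exact ⟨c, h, by omega, by omega⟩
    · obtain ⟨c', h1, h2, h3⟩ := ih (c + j) hm (by omega) (by omega)
      exact ⟨c', h1, by omega, by omega⟩

theorem exists_rank (A : Type u) [Finite A] (m : ℕ) : ∃ (rk : List A → ℕ) (C : ℕ),
    (∀ x, rk x ≤ C) ∧ ∀ x y, x.length = m → y.length = m → rk x = rk y → x = y := by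
  have : Finite {l : List A | l.length = m} := List.finite_length_eq A m
  obtain ⟨C, ⟨e⟩⟩ := Finite.exists_equiv_fin {l : List A | l.length = m}
  refine ⟨fun x => if h : x.length = m then (e ⟨x, h⟩ : ℕ) else 0, C, fun x => ?_,
    fun x y hx hy h => ?_⟩
  · dsimp only
    split_ifs with h
    · exact (e ⟨x, h⟩).2.le
    · exact Nat.zero_le _
  · dsimp only at h
    rw [dif_pos hx, dif_pos hy] at h
    exact congrArg Subtype.val (e.injective (Fin.ext h))

end EventsAux

open EventsAux in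
theorem exists_events (A : Type u) [Finite A] (n : ℕ) : ∃ D : EvData A, D.Good n := by
  obtain ⟨Q, hQ0, hQ⟩ : ∃ Q, 0 < Q ∧ ∀ d, 0 < d → d ≤ n → d ∣ Q :=
    ⟨n.factorial, n.factorial_pos, fun d h1 h2 => Nat.dvd_factorial h1 h2⟩
  obtain ⟨rk, C, hC, hrk⟩ := exists_rank A (Q + 1)
  have dens := fun (w : ℕ → A) i hi hn => density hQ hrk w C i hi (hC _) hn
  obtain ⟨X, hX⟩ : ∃ X, n * C = X := ⟨_, rfl⟩
  rw [hX] at dens
  have hk : 0 < 2 * n + Q + 1 := Nat.succ_pos _
  refine ⟨⟨2 * n + Q + 1, Q, isEv rk n Q, cnt (2 * n + Q + 1) (isEv rk n Q)⟩, hk, hQ0, ?_, rfl,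
    fun u v => le_trans (Nat.le_add_right _ _) (cnt_append u v),
    fun u v => le_trans (Nat.le_add_left _ _) (cnt_append u v), fun T => cnt_reg T,
    fun w c t => cnt_le hk w c t, ?_, ?_⟩
  · intro w e e' ⟨h1, h2⟩ ⟨h1', h2'⟩ hlt
    dsimp only at h1 h2 h1' h2'
    by_contra hcon
    obtain ⟨c, rfl⟩ := Nat.exists_eq_add_of_le' h1
    obtain ⟨d, rfl⟩ : ∃ d, e' = c + d + (2 * n + Q + 1) := ⟨e' - (c + (2 * n + Q + 1)), by omega⟩
    rw [Nat.add_sub_cancel, isEv_seg] at h2 h2'
    have a1 : c + (n + d) = c + d + n := by omega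
    have a2 : c + d + (n - d) = c + n := by omega
    have b1 := h2.2 (n + d) (by omega) (by omega) (by rw [a1]; exact h2'.1)
    have b2 := h2'.2 (n - d) (by omega) (by omega) (by rw [a2]; exact h2.1)
    rw [a1] at b1
    rw [a2] at b2
    omega
  · intro w q T hq hw
    dsimp only
    rw [or_iff_not_imp_left]
    intro h c
    push Not at h
    obtain ⟨i, hi⟩ := h
    refine cnt_unbounded (fun c => ?_) (T + 1) c
    have hs : c + X + n ≤ (c + X + n) * q := Nat.le_mul_of_pos_right _ hq
    obtain ⟨c', h1, h2, -⟩ := dens w (i + (c + X + n) * q)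
      (by rw [Nat.add_right_comm, periodic_mul hw, periodic_mul hw]; exact hi) (by omega)
    exact ⟨c' + (2 * n + Q + 1), cnt_pos hk (by omega) (by omega) h1⟩
  · intro T Λ
    refine ⟨(T + 1) * (2 * (2 * n + Q + 1) + n + 2 * X + Λ), fun w c h => ?_⟩
    dsimp only at h ⊢
    have : ∃ b, c ≤ b ∧ ¬ 1 ≤ cnt (2 * n + Q + 1) (isEv rk n Q)
        (seg w b (2 * (2 * n + Q + 1) + n + 2 * X + Λ)) := by
      by_contra hcon
      push Not at hcon
      have := cnt_blocks hcon (T + 1)
      omega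
    obtain ⟨b, hb, h0⟩ := this
    refine ⟨b + (2 * n + Q + 1) + n + X, by omega, fun e h1 h2 ⟨h3, h4⟩ => ?_, fun i h1 h2 => ?_⟩
    · dsimp only at h3 h4
      exact h0 (cnt_pos hk (by omega) (by omega) h4)
    · by_contra hi
      obtain ⟨c', h3, h4, h5⟩ := dens w i hi (by omega)
      exact h0 (cnt_pos hk (by omega) (by omega) h3)

end Crest.Agent.R320
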