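import Crest.Agent.R320.SFC

namespace Crest.Agent.R320
universe u
variable {A : Type u}

namespace FinalAux

variable {V : Type} [AddCommGroup V]

theorem trun_star (C : CData A V) {v : List A} (h : Star (C.Kset C.s0 C.s0) v) :
    C.trun C.s0 v = C.s0 := by
  induction h with
  | nil => rfl
  | cons a b ha _ ih => rw [C.trun_append, ha.1, ih]

theorem lang_iff (C : CData A V) (s s' : C.Pos × V) (w : List A) :
    (C.Kset s s' w ∨ ∃ u v, C.Kset s C.s0 u ∧
      (∃ v1 v2, Star (C.Kset C.s0 C.s0) v1 ∧ C.Kset C.s0 s' v2 ∧ v = v1 ++ v2) ∧ w = u ++ v) ↔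
    C.trun s w = s' := by
  constructor
  · rintro (h | ⟨u, v, hu, ⟨v1, v2, h1, h2, rfl⟩, rfl⟩)
    · exact h.1
    · rw [C.trun_append, C.trun_append, hu.1, trun_star C h1, h2.1]
  · induction hn : w.length using Nat.strong_induction_on generalizing s w with
    | _ n ih =>
      intro hw
      by_cases hK : C.Kset s s' w
      · exact Or.inl hK
      · right
        have hex : ∃ m, ∃ u : List A, u.length = m ∧ u <+: w ∧ u ≠ [] ∧ u ≠ w ∧
            C.trun s u = C.s0 := by
          by_contra hne
          apply hK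
          refine ⟨hw, fun u h1 h2 h3 h4 => hne ⟨_, u, rfl, h1, h2, h3, h4⟩⟩
        classical
        obtain ⟨u, hul, hu1, hu2, hu3, hu4⟩ := Nat.find_spec hex
        have hKu : C.Kset s C.s0 u := by
          refine ⟨hu4, fun u' h1 h2 h3 h4 => ?_⟩
          have hlt : u'.length < u.length :=
            lt_of_le_of_ne h1.length_le (fun h => h3 (h1.eq_of_length h))
          refine Nat.find_min hex (hul ▸ hlt) ⟨u', rfl, h1.trans hu1, h2, ?_, h4⟩
          rintro rfl
          exact absurd hu1.length_le (by omega)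
        obtain ⟨v, rfl⟩ := hu1
        have hv : C.trun C.s0 v = s' := by rw [← hw, C.trun_append, hu4]
        have hlen : v.length < n := by
          have := List.length_pos_iff.2 hu2
          rw [← hn, List.length_append]; omega
        rcases ih _ hlen C.s0 v rfl hv with h | ⟨u2, v', h1, ⟨v1, v2, h2, h3, rfl⟩, rfl⟩
        · exact ⟨u, v, hKu, ⟨[], v, Star.nil, h, rfl⟩, rfl⟩
        · exact ⟨u, _, hKu, ⟨u2 ++ v1, v2, Star.cons _ _ h1 h2, h3, by rw [List.append_assoc]⟩, rfl⟩

/-- The linear part of the label map along a word. -/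
def rr (ρ : A → V →+ V) (x : List A) (v : V) : V := x.foldl (fun v a => ρ a v) v

theorem rr_add (ρ : A → V →+ V) (x : List A) (v v' : V) :
    rr ρ x (v + v') = rr ρ x v + rr ρ x v' := by
  induction x generalizing v v' with
  | nil => rfl
  | cons a x ih =>
    show rr ρ x (ρ a (v + v')) = rr ρ x (ρ a v) + rr ρ x (ρ a v')
    rw [map_add, ih]

theorem rr_append (ρ : A → V →+ V) (x y : List A) (v : V) :
    rr ρ (x ++ y) v = rr ρ y (rr ρ x v) := List.foldl_append

theorem trun_snd (C : CData A V) (p : C.Pos) (l : V) (x : List A) :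
    (C.trun (p, l) x).2 = rr C.rho x l + (C.trun (p, 0) x).2 := by
  induction x generalizing p l with
  | nil => simp [rr]
  | cons a x ih =>
    show (C.trun (C.step p a, C.rho a l + C.tr p a) x).2 =
      rr C.rho x (C.rho a l) + (C.trun (C.step p a, C.rho a 0 + C.tr p a) x).2
    rw [ih _ (C.rho a l + C.tr p a), ih _ (C.rho a 0 + C.tr p a), map_zero, zero_add, rr_add,
      add_assoc]

theorem rr_idem (C : CData A V) (x : List A) (h : ∀ s, C.trun s (x ++ x) = C.trun s x) (l : V) :
    rr C.rho x (rr C.rho x l) = rr C.rho x l := by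
  have h1 := congrArg Prod.snd (h (C.birth, l))
  have h2 := congrArg Prod.snd (h (C.birth, 0))
  rw [trun_snd C C.birth l (x ++ x), trun_snd C C.birth l x, h2, rr_append] at h1
  exact add_right_cancel h1

theorem rr_single {σ : Type} (M : DFA A σ) (x : List A) (q : σ) :
    rr (fun a => (Finsupp.mapDomain.addMonoidHom (fun q => M.step q a) :
        (σ →₀ ZMod 2) →+ (σ →₀ ZMod 2))) x (Finsupp.single q 1) =
      Finsupp.single (M.evalFrom q x) 1 := by
  induction x generalizing q with
  | nil => rfl
  | cons a x ih =>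
    show rr _ x (Finsupp.mapDomain (fun q => M.step q a) (Finsupp.single q 1)) =
      Finsupp.single (M.evalFrom (M.step q a) x) 1
    rw [Finsupp.mapDomain_single, ih]

end FinalAux

open FinalAux in
theorem final_of_carrier (α : Type u) [Finite α]
    (hcar : ∀ (V : Type) [AddCommGroup V] [Finite V] (ρ : α → V →+ V),
      ∃ C : CData α V, C.rho = ρ ∧ Finite C.Pos ∧ ∀ s s', InH 2 (C.Kset s s'))
    (L : Language α) (hL : L.IsRegular) :
    ∃ e : Crest.RegLang.GRegExp α, e.height ≤ 3 ∧ e.lang = L := by
  obtain ⟨σ, hσ, M, hM⟩ := hL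
  have hfin : Finite (σ →₀ ZMod 2) := Finite.of_equiv _ Finsupp.equivFunOnFinite.symm
  obtain ⟨C, hρ, hPos, hK⟩ := hcar (σ →₀ ZMod 2)
    (fun a => Finsupp.mapDomain.addMonoidHom (fun q => M.step q a))
  have hmain : InH 3 (fun w : List α => w ∈ L) := by
    refine sfc (ι := (C.Pos × (σ →₀ ZMod 2)) × (C.Pos × (σ →₀ ZMod 2))) (by norm_num)
      (fun i w => C.trun i.1 w = i.2) ?_ ?_ 1 one_pos _ ?_ ?_
    · intro i
      exact Reg.foldl C.tstep i.1 (fun t => t = i.2)
    · intro i
      refine InH.congr (lang_iff C i.1 i.2) ?_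
      exact ((hK _ _).mono (by norm_num)).or (((hK _ _).mono (by norm_num)).cat
        ((hK _ _).star.cat ((hK _ _).mono (by norm_num))))
    · rw [← hM]
      exact Reg.foldl M.step M.start (fun q => q ∈ M.accept)
    · intro x _ hx y z
      have h1 : ∀ s, C.trun s (x ++ x) = C.trun s x := by
        intro s
        have := (hx (s, C.trun s x) [] []).1 (by simp)
        simpa using this
      have h2 : ∀ q, M.evalFrom (M.evalFrom q x) x = M.evalFrom q x := by
        intro q
        have h3 := rr_idem C x h1 (Finsupp.single q 1)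
        rw [hρ, rr_single, rr_single] at h3
        exact Finsupp.single_left_injective one_ne_zero h3
      refine ⟨1, fun n hn => ?_⟩
      obtain ⟨m, rfl⟩ := Nat.exists_eq_add_of_le' hn
      rw [← hM, DFA.mem_accepts, DFA.mem_accepts]
      unfold DFA.eval
      rw [rep_succ' x (m + 1), rep_succ' x m]
      simp only [DFA.evalFrom_of_append, h2]
  obtain ⟨e, he, hl⟩ := hmain
  exact ⟨e, he, Language.ext hl⟩

end Crest.Agent.R320
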