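import Crest.Agent.R320.Defs

namespace Crest.Agent.R320

/-- Reference cycle `m` (the time interval `[β0 + m ℓ, β0 + (m+1) ℓ)`) contains an event. -/
def NT (E : ℕ → Prop) (β0 ell m : ℕ) : Prop :=
  ∃ e, E e ∧ β0 + m * ell ≤ e ∧ e < β0 + (m + 1) * ell

theorem anchor1_NT : type_of% @NT.eq_1 := @NT.eq_1
theorem anchor2_NT : type_of% @NT.eq_def := @NT.eq_def

namespace FineCaseAux
open Classical
set_option linter.unusedSectionVars false

/-- Number of processed cycles below `m`. -/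
noncomputable def np (pr : ℕ → Option ℕ) (m : ℕ) : ℕ :=
  ((Finset.range m).filter (fun j => pr j ≠ none)).card

theorem np_zero (pr : ℕ → Option ℕ) : np pr 0 = 0 := by simp [np]

theorem np_succ_none (pr : ℕ → Option ℕ) (m : ℕ) (h : pr m = none) :
    np pr (m + 1) = np pr m := by
  unfold np
  rw [Finset.range_add_one, Finset.filter_insert, if_neg (by simp [h])]

theorem np_succ_some (pr : ℕ → Option ℕ) (m e : ℕ) (h : pr m = some e) :
    np pr (m + 1) = np pr m + 1 := by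
  unfold np
  rw [Finset.range_add_one, Finset.filter_insert, if_pos (by simp [h]),
    Finset.card_insert_of_notMem (by simp)]

theorem np_mono (pr : ℕ → Option ℕ) {m m' : ℕ} (h : m ≤ m') : np pr m ≤ np pr m' := by
  unfold np
  exact Finset.card_le_card (Finset.filter_subset_filter _ (Finset.range_subset_range.2 h))

theorem np_const (pr : ℕ → Option ℕ) (m : ℕ) : ∀ j, m ≤ j → (∀ i, m ≤ i → i < j → pr i = none) →
    np pr j = np pr m := by
  intro j hj
  induction j, hj using Nat.le_induction with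
  | base => intro _; rfl
  | succ j hj ih =>
    intro hn
    rw [np_succ_none pr j (hn j hj (Nat.lt_succ_self j)), ih (fun i h1 h2 => hn i h1 (by omega))]

theorem exists_next (pr : ℕ → Option ℕ) (m J : ℕ) (h : np pr m < np pr J) :
    ∃ m' e', m ≤ m' ∧ m' < J ∧ pr m' = some e' ∧ ∀ i, m ≤ i → i < m' → pr i = none := by
  have hex : ∃ m', m ≤ m' ∧ m' < J ∧ pr m' ≠ none := by
    by_contra hne
    push Not at hne
    have hmJ : m ≤ J := by
      by_contra hlt
      have := np_mono pr (le_of_lt (not_le.1 hlt))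
      omega
    have := np_const pr m J hmJ (fun i h1 h2 => hne i h1 h2)
    omega
  have hs := Nat.find_spec hex
  obtain ⟨e', he'⟩ := Option.ne_none_iff_exists'.1 hs.2.2
  refine ⟨Nat.find hex, e', hs.1, hs.2.1, he', fun i h1 h2 => ?_⟩
  by_contra hi
  exact Nat.find_min hex h2 ⟨h1, by have := hs.2.1; omega, hi⟩

/-- The offset of a blocker. -/
def off (sh : ℕ → ℕ) (B : ℕ → ℕ) (pr : ℕ → Option ℕ) (ξ : ℕ) : ℕ → ℕ
  | 0 => ξ
  | m + 1 => off sh B pr ξ m + (pr m).elim 0 (fun e => sh (e - B m))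

theorem off_zero (sh : ℕ → ℕ) (B : ℕ → ℕ) (pr : ℕ → Option ℕ) (ξ : ℕ) :
    off sh B pr ξ 0 = ξ := rfl

theorem off_succ_none (sh : ℕ → ℕ) (B : ℕ → ℕ) (pr : ℕ → Option ℕ) (ξ m : ℕ)
    (h : pr m = none) : off sh B pr ξ (m + 1) = off sh B pr ξ m := by
  show off sh B pr ξ m + (pr m).elim 0 (fun e => sh (e - B m)) = _
  rw [h]; rfl

theorem off_succ_some (sh : ℕ → ℕ) (B : ℕ → ℕ) (pr : ℕ → Option ℕ) (ξ m e : ℕ)
    (h : pr m = some e) : off sh B pr ξ (m + 1) = off sh B pr ξ m + sh (e - B m) := by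
  show off sh B pr ξ m + (pr m).elim 0 (fun e => sh (e - B m)) = _
  rw [h]; rfl

theorem off_const (sh : ℕ → ℕ) (B : ℕ → ℕ) (pr : ℕ → Option ℕ) (ξ m : ℕ) :
    ∀ j, m ≤ j → (∀ i, m ≤ i → i < j → pr i = none) → off sh B pr ξ j = off sh B pr ξ m := by
  intro j hj
  induction j, hj using Nat.le_induction with
  | base => intro _; rfl
  | succ j hj ih =>
    intro hn
    rw [off_succ_none sh B pr ξ j (hn j hj (Nat.lt_succ_self j)),
      ih (fun i h1 h2 => hn i h1 (by omega))]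

section run
variable {V : Type} [AddCommGroup V] {S : ISys V} {E : ℕ → Prop} {B : ℕ → ℕ}
  {pr : ℕ → Option ℕ} {ξ β0 : ℕ}

theorem off_eq (hrun : S.IRun E B pr) (hB : B 0 + ξ = β0) (m : ℕ) :
    B m + off S.sh B pr ξ m = β0 + m * S.ell := by
  induction m with
  | zero => simpa [off_zero] using hB
  | succ m ih =>
    rw [Nat.succ_mul]
    cases hp : pr m with
    | none =>
      have := (hrun.none m hp).2
      rw [off_succ_none _ _ _ _ _ hp]; omega
    | some e =>
      have := (hrun.some m e hp).2.2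
      rw [off_succ_some _ _ _ _ _ _ hp]; omega

theorem off_le {p : ℕ} (hrun : S.IRun E B pr) (hsh : ∀ a, S.usable a → S.sh a < p) (m : ℕ) :
    off S.sh B pr ξ m ≤ ξ + np pr m * p := by
  induction m with
  | zero => simp [off_zero]
  | succ m ih =>
    cases hp : pr m with
    | none => rw [off_succ_none _ _ _ _ _ hp, np_succ_none _ _ hp]; exact ih
    | some e =>
      have := hsh _ (hrun.some m e hp).1.2.2
      rw [off_succ_some _ _ _ _ _ _ hp, np_succ_some _ _ _ hp, Nat.succ_mul]; omega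

end run

/-- The surrogate age. -/
def sur (h p Sp A : ℕ) : ℕ := if h - Sp ≤ A % h then A else (A / h) * h + A % p

theorem sur_div {h p Sp A o : ℕ} (hp : 0 < p) (hSp : p + Sp ≤ h) (ho : o < Sp) :
    (sur h p Sp A + o) / h = (A + o) / h := by
  unfold sur
  split_ifs with hc
  · rfl
  · have hh : 0 < h := by omega
    have h1 : A % p < p := Nat.mod_lt _ hp
    have e1 : (A / h * h + A % p + o) / h = A / h := by
      rw [Nat.add_assoc, Nat.add_comm, Nat.add_mul_div_right _ _ hh,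
        Nat.div_eq_of_lt (by omega), Nat.zero_add]
    have e2 : (A + o) / h = A / h := by
      have : A + o = (A % h + o) + A / h * h := by
        have := Nat.div_add_mod' A h; omega
      rw [this, Nat.add_mul_div_right _ _ hh, Nat.div_eq_of_lt (by omega), Nat.zero_add]
    rw [e1, e2]

theorem sur_mod {h p Sp A o : ℕ} (hph : p ∣ h) :
    (sur h p Sp A + o) % p = (A + o) % p := by
  unfold sur
  split_ifs with hc
  · rfl
  · obtain ⟨c, rfl⟩ := hph
    have : A / (p * c) * (p * c) + A % p + o = (A % p + o) + p * (A / (p * c) * c) := by ring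
    rw [this, Nat.add_mul_mod_self_left, Nat.mod_add_mod]

theorem sur_mem {h p Sp C A : ℕ} {SU : Finset ℕ} (hp : 0 < p) (hSp : p + Sp ≤ h)
    (hSU1 : ∀ κ v, κ < C → v < p → κ * h + v ∈ SU)
    (hSU2 : ∀ κ v, κ < C → v < Sp → κ * h + (h - Sp) + v ∈ SU) (hA : A < C * h) :
    sur h p Sp A ∈ SU := by
  have hh : 0 < h := by omega
  have hκ : A / h < C := (Nat.div_lt_iff_lt_mul hh).2 hA
  unfold sur
  split_ifs with hc
  · have h1 : A % h < h := Nat.mod_lt _ hh
    have := hSU2 (A / h) (A % h - (h - Sp)) hκ (by omega)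
    have e : A / h * h + (h - Sp) + (A % h - (h - Sp)) = A := by
      have := Nat.div_add_mod' A h; omega
    rwa [e] at this
  · exact hSU1 _ _ hκ (Nat.mod_lt _ hp)

/-- The code of an event. -/
noncomputable def code (E : ℕ → Prop) (β0 C h Sp e : ℕ) : ℕ :=
  2 * (Nat.count (NT E β0 (C * h)) ((e - β0) / (C * h)) * C + (e - β0) % (C * h) / h) +
    (if h - Sp ≤ (e - β0) % (C * h) % h then 1 else 0)

section code
variable {E : ℕ → Prop} {β0 C h Sp : ℕ}

theorem nt_of_event (hC : 0 < C) (hh : 0 < h) {e : ℕ} (he : E e) (hb : β0 ≤ e) :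
    NT E β0 (C * h) ((e - β0) / (C * h)) := by
  have hl : 0 < C * h := Nat.mul_pos hC hh
  have h1 := Nat.div_add_mod' (e - β0) (C * h)
  have h2 := Nat.mod_lt (e - β0) hl
  refine ⟨e, he, by omega, ?_⟩
  rw [Nat.succ_mul]; omega

theorem nt_infinite (hC : 0 < C) (hh : 0 < h) (hunb : ∀ c, ∃ e, c < e ∧ E e) :
    {m | NT E β0 (C * h) m}.Infinite := by
  have hl : 0 < C * h := Nat.mul_pos hC hh
  refine Set.infinite_of_forall_exists_gt fun m => ?_
  obtain ⟨e, he1, he2⟩ := hunb (β0 + (m + 1) * (C * h))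
  refine ⟨(e - β0) / (C * h), nt_of_event hC hh he2 (by omega), ?_⟩
  exact (Nat.le_div_iff_mul_le hl (x := m + 1)).2 (by omega)

theorem code_bounds (hC : 0 < C) (hh : 0 < h) (e : ℕ) :
    2 * C * Nat.count (NT E β0 (C * h)) ((e - β0) / (C * h)) ≤ code E β0 C h Sp e ∧
    code E β0 C h Sp e < 2 * C * (Nat.count (NT E β0 (C * h)) ((e - β0) / (C * h)) + 1) := by
  have hl : 0 < C * h := Nat.mul_pos hC hh
  have hκ : (e - β0) % (C * h) / h < C := (Nat.div_lt_iff_lt_mul hh).2 (Nat.mod_lt _ hl)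
  unfold code
  generalize Nat.count (NT E β0 (C * h)) ((e - β0) / (C * h)) = r at *
  generalize (e - β0) % (C * h) / h = κ at *
  have e1 : 2 * C * r = 2 * (r * C) := by ring
  have e2 : 2 * C * (r + 1) = 2 * (r * C) + 2 * C := by ring
  rw [e1, e2]
  split_ifs <;> omega

theorem code_div (hC : 0 < C) (hh : 0 < h) (e : ℕ) :
    code E β0 C h Sp e / (2 * C) = Nat.count (NT E β0 (C * h)) ((e - β0) / (C * h)) := by
  obtain ⟨h1, h2⟩ := code_bounds (E := E) (β0 := β0) (Sp := Sp) hC hh e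
  apply Nat.div_eq_of_lt_le
  · rw [Nat.mul_comm]; exact h1
  · rw [Nat.mul_comm]; exact h2

theorem count_lt {m m' : ℕ} (hm : NT E β0 (C * h) m) (hlt : m < m') :
    Nat.count (NT E β0 (C * h)) m < Nat.count (NT E β0 (C * h)) m' :=
  Nat.count_strict_mono hm hlt

theorem code_lt (hC : 0 < C) (hh : 0 < h) (hunb : ∀ c, ∃ e, c < e ∧ E e) {e T : ℕ} (he : E e)
    (hb : β0 ≤ e) (hm : (e - β0) / (C * h) < Nat.nth (NT E β0 (C * h)) T) :
    code E β0 C h Sp e < 2 * T * C := by
  obtain ⟨-, h2⟩ := code_bounds (E := E) (β0 := β0) (Sp := Sp) hC hh e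
  have h3 := (Nat.count_le_iff_le_nth (nt_infinite (β0 := β0) hC hh hunb)
    (a := (e - β0) / (C * h) + 1) (b := T)).2 hm
  rw [Nat.count_succ, if_pos (nt_of_event hC hh he hb)] at h3
  calc code E β0 C h Sp e < _ := h2
    _ ≤ 2 * C * T := Nat.mul_le_mul_left _ h3
    _ = 2 * T * C := by ring

theorem code_mono (hC : 0 < C) (hh : 0 < h) {e e' : ℕ} (he : E e) (hb : β0 ≤ e) (hle : e ≤ e') :
    code E β0 C h Sp e ≤ code E β0 C h Sp e' := by
  have hm : (e - β0) / (C * h) ≤ (e' - β0) / (C * h) := Nat.div_le_div_right (by omega)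
  rcases hm.lt_or_eq with hlt | heq
  · obtain ⟨-, h2⟩ := code_bounds (E := E) (β0 := β0) (Sp := Sp) hC hh e
    obtain ⟨h1, -⟩ := code_bounds (E := E) (β0 := β0) (Sp := Sp) hC hh e'
    have h3 := count_lt (nt_of_event hC hh he hb) hlt
    exact le_trans (le_of_lt h2) (le_trans (Nat.mul_le_mul_left _ h3) h1)
  · have h1 := Nat.div_add_mod' (e - β0) (C * h)
    have h2 := Nat.div_add_mod' (e' - β0) (C * h)
    have hA : (e - β0) % (C * h) ≤ (e' - β0) % (C * h) := by rw [heq] at h1; omega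
    unfold code
    rw [heq]
    generalize (e - β0) % (C * h) = A at *
    generalize (e' - β0) % (C * h) = A' at *
    have hκ : A / h ≤ A' / h := Nat.div_le_div_right hA
    rcases hκ.lt_or_eq with hlt | hk
    · split_ifs <;> omega
    · have h3 := Nat.div_add_mod' A h
      have h4 := Nat.div_add_mod' A' h
      rw [hk] at h3 ⊢
      split_ifs <;> omega

theorem code_inj (hC : 0 < C) (hh : 0 < h) {e e' : ℕ} (he : E e) (hb : β0 ≤ e) (he' : E e')
    (hb' : β0 ≤ e') (hc : code E β0 C h Sp e = code E β0 C h Sp e') :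
    (e - β0) / (C * h) = (e' - β0) / (C * h) ∧
    (e - β0) % (C * h) / h = (e' - β0) % (C * h) / h ∧
    (h - Sp ≤ (e - β0) % (C * h) % h ↔ h - Sp ≤ (e' - β0) % (C * h) % h) := by
  have hr := code_div (E := E) (β0 := β0) (Sp := Sp) hC hh e
  rw [hc, code_div hC hh] at hr
  have hm : (e - β0) / (C * h) = (e' - β0) / (C * h) := by
    rcases lt_trichotomy ((e - β0) / (C * h)) ((e' - β0) / (C * h)) with h1 | h1 | h1
    · have := count_lt (nt_of_event hC hh he hb) h1; omega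
    · exact h1
    · have := count_lt (nt_of_event hC hh he' hb') h1; omega
  refine ⟨hm, ?_⟩
  unfold code at hc
  rw [hm] at hc
  split_ifs at hc with h1 h2 h2
  · exact ⟨by omega, iff_of_true h1 h2⟩
  · omega
  · omega
  · exact ⟨by omega, iff_of_false h1 h2⟩

end code

/-- The least event with a given code. -/
noncomputable def evt (E : ℕ → Prop) (β0 C h Sp g : ℕ) : ℕ :=
  sInf {e | E e ∧ β0 ≤ e ∧ code E β0 C h Sp e = g}

/-- The surrogate age attached to a code. -/
noncomputable def sa (E : ℕ → Prop) (β0 C h p Sp g : ℕ) : ℕ :=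
  if {e | E e ∧ β0 ≤ e ∧ code E β0 C h Sp e = g}.Nonempty then
    sur h p Sp ((evt E β0 C h Sp g - β0) % (C * h)) else C * h

theorem div_mod_of_between {β0 l m e : ℕ} (h1 : β0 + m * l ≤ e) (h2 : e < β0 + (m + 1) * l) :
    (e - β0) / l = m ∧ β0 + m * l + (e - β0) % l = e := by
  have hd : (e - β0) / l = m := Nat.div_eq_of_lt_le (by omega) (by omega)
  refine ⟨hd, ?_⟩
  have := Nat.div_add_mod' (e - β0) l
  rw [hd] at this; omega

section main
variable {V : Type} [AddCommGroup V] {S : ISys V} {Θ : ℕ → ℕ → V × ℕ} {sg : ℕ → ℕ}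
  {h p p2 C R t T Sp n : ℕ} {E : ℕ → Prop} {φ : ℕ → ℕ → V → V} {β0 : ℕ}
  {B : ℕ → ℕ} {pr : ℕ → Option ℕ} {ξ : ℕ}

theorem off_lt (hSp2 : 2 * R + t * p < Sp)
    (hrng : ∀ a, S.usable a → h ≤ a ∧ a < S.ell ∧ S.sh a < p)
    (hrun : S.IRun E B pr) (hξ : ξ ≤ 2 * R) {m : ℕ} (hm : np pr m ≤ t) :
    off S.sh B pr ξ m < Sp := by
  have h1 := off_le (ξ := ξ) hrun (fun a ha => (hrng a ha).2.2) m
  have h2 : np pr m * p ≤ t * p := Nat.mul_le_mul_right _ hm
  omega

theorem K1 (hell : S.ell = C * h) (hSp : p + Sp ≤ h) (hSp2 : 2 * R + t * p < Sp)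
    (hrng : ∀ a, S.usable a → h ≤ a ∧ a < S.ell ∧ S.sh a < p)
    (hrun : S.IRun E B pr) (hB : B 0 + ξ = β0) (hξ : ξ ≤ 2 * R) {m e : ℕ} (hm : np pr m ≤ t)
    (hus : S.Us E (B m) e) :
    β0 ≤ e ∧ (e - β0) / (C * h) = m ∧ e - B m = (e - β0) % (C * h) + off S.sh B pr ξ m := by
  have h1 := off_lt hSp2 hrng hrun hξ hm
  have h2 := off_eq hrun hB m
  obtain ⟨h3, h4, -⟩ := hrng _ hus.2.2
  have h5 := hus.1
  rw [hell] at h2 h4
  obtain ⟨h6, h7⟩ := div_mod_of_between (β0 := β0) (l := C * h) (m := m) (e := e) (by omega)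
    (by rw [Nat.succ_mul]; omega)
  exact ⟨by omega, h6, by omega⟩

/-- An event of cycle `m` whose shifted age is usable is usable for the birth `B m`. -/
theorem us_of (hell : S.ell = C * h) (hp : 0 < p) (hSp : p + Sp ≤ h)
    (hrng : ∀ a, S.usable a → h ≤ a ∧ a < S.ell ∧ S.sh a < p)
    (hrun : S.IRun E B pr) (hB : B 0 + ξ = β0) {m e : ℕ} (he : E e) (hb : β0 ≤ e)
    (hm : (e - β0) / (C * h) = m) (hu : S.usable ((e - β0) % (C * h) + off S.sh B pr ξ m)) :
    S.Us E (B m) e := by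
  have h2 := off_eq hrun hB m
  have h3 := Nat.div_add_mod' (e - β0) (C * h)
  rw [hm] at h3
  rw [hell] at h2
  have h4 := (hrng _ hu).1
  have h5 : e - B m = (e - β0) % (C * h) + off S.sh B pr ξ m := by omega
  refine ⟨by omega, he, ?_⟩
  rw [h5]; exact hu

theorem K2 (hell : S.ell = C * h) (hC : 0 < C) (hp : 0 < p) (hSp : p + Sp ≤ h)
    (hSp2 : 2 * R + t * p < Sp) (hn : Sp ≤ n)
    (hcell : ∀ a a', a / h = a' / h → (S.usable a ↔ S.usable a') ∧ sg a = sg a')
    (hrng : ∀ a, S.usable a → h ≤ a ∧ a < S.ell ∧ S.sh a < p)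
    (hE : ∀ e e', E e → E e' → e < e' → e + n < e')
    (hrun : S.IRun E B pr) (hB : B 0 + ξ = β0) (hξ : ξ ≤ 2 * R) {m e : ℕ} (hm : np pr m ≤ t)
    (hpr : pr m = some e) :
    evt E β0 C h Sp (code E β0 C h Sp e) = e ∧
      sa E β0 C h p Sp (code E β0 C h Sp e) = sur h p Sp ((e - β0) % (C * h)) := by
  have hh : 0 < h := by omega
  obtain ⟨hus, hmin, -⟩ := hrun.some m e hpr
  obtain ⟨k1, k2, k3⟩ := K1 hell hSp hSp2 hrng hrun hB hξ hm hus
  have hmem : e ∈ {e' | E e' ∧ β0 ≤ e' ∧ code E β0 C h Sp e' = code E β0 C h Sp e} :=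
    ⟨hus.2.1, k1, rfl⟩
  have hev : evt E β0 C h Sp (code E β0 C h Sp e) = e := by
    have hle : evt E β0 C h Sp (code E β0 C h Sp e) ≤ e := Nat.sInf_le hmem
    obtain ⟨a1, a2, a3⟩ : evt E β0 C h Sp (code E β0 C h Sp e) ∈
        {e' | E e' ∧ β0 ≤ e' ∧ code E β0 C h Sp e' = code E β0 C h Sp e} :=
      Nat.sInf_mem ⟨e, hmem⟩
    generalize evt E β0 C h Sp (code E β0 C h Sp e) = e' at *
    by_contra hne
    have hlt : e' < e := lt_of_le_of_ne hle hne
    obtain ⟨c1, c2, c3⟩ := code_inj hC hh a1 a2 hus.2.1 k1 a3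
    have ho := off_lt hSp2 hrng hrun hξ hm
    have d1 := Nat.div_add_mod' (e - β0) (C * h)
    have d2 := Nat.div_add_mod' (e' - β0) (C * h)
    have d3 := Nat.div_add_mod' ((e - β0) % (C * h)) h
    have d4 := Nat.div_add_mod' ((e' - β0) % (C * h)) h
    have d5 := Nat.mod_lt ((e - β0) % (C * h)) hh
    by_cases hcr : h - Sp ≤ (e - β0) % (C * h) % h
    · have hcr' := c3.2 hcr
      have := hE e' e a1 hus.2.1 hlt
      rw [c1] at d2
      rw [c2] at d4
      omega
    · have hcr' : ¬ h - Sp ≤ (e' - β0) % (C * h) % h := fun hx => hcr (c3.1 hx)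
      have key : ∀ A : ℕ, ¬ h - Sp ≤ A % h → (A + off S.sh B pr ξ m) / h = A / h := by
        intro A hA
        have : A + off S.sh B pr ξ m = (A % h + off S.sh B pr ξ m) + A / h * h := by
          have := Nat.div_add_mod' A h; omega
        rw [this, Nat.add_mul_div_right _ _ hh, Nat.div_eq_of_lt (by omega), Nat.zero_add]
      have hu : S.usable ((e' - β0) % (C * h) + off S.sh B pr ξ m) := by
        refine (hcell _ ((e - β0) % (C * h) + off S.sh B pr ξ m) ?_).1.2 ?_
        · rw [key _ hcr, key _ hcr', c2]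
        · rw [← k3]; exact hus.2.2
      exact hmin e' hlt (us_of hell hp hSp hrng hrun hB a1 a2 (c1.trans k2) hu)
  refine ⟨hev, ?_⟩
  unfold sa
  rw [if_pos ⟨e, hmem⟩, hev]

theorem surv (hell : S.ell = C * h) (hC : 0 < C) (hp : 0 < p) (hph : p ∣ h) (hSp : p + Sp ≤ h)
    (hSp2 : 2 * R + t * p < Sp) (hn : Sp ≤ n)
    (hcell : ∀ a a', a / h = a' / h → (S.usable a ↔ S.usable a') ∧ sg a = sg a')
    (hrng : ∀ a, S.usable a → h ≤ a ∧ a < S.ell ∧ S.sh a < p)
    (hgam : ∀ a, S.gam a = (Θ (sg a) (a % p)).1)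
    (hsh : ∀ a, S.sh a = sg a + p2 * (Θ (sg a) (a % p)).2)
    (hE : ∀ e e', E e → E e' → e < e' → e + n < e')
    (hunb : ∀ c, ∃ e, c < e ∧ E e)
    (hrun : S.IRun E B pr) (hB : B 0 + ξ = β0) (hξ : ξ ≤ 2 * R) (u : ℕ → V)
    (hu1 : ∀ m e, pr m = some e → B (m + 1) ≤ β0 + Nat.nth (NT E β0 (C * h)) T * (C * h) →
      u m + S.gam (e - B m) ≠ 0)
    (hu2 : ∀ m m' e e', m < m' → pr m = some e → pr m' = some e' →
      (∀ j, m < j → j < m' → pr j = none) → u m' = φ e e' (u m + S.gam (e - B m))) :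
    ∀ k m e, pr m = some e → np pr m + k ≤ t →
      np pr m + k + 1 ≤ np pr (Nat.nth (NT E β0 (C * h)) T) →
      FineSurv Θ S.usable sg p p2 (2 * T * C) (fun g => g / (2 * C)) (sa E β0 C h p Sp)
        (fun g g' => φ (evt E β0 C h Sp g) (evt E β0 C h Sp g')) k (code E β0 C h Sp e)
        (off S.sh B pr ξ m) (u m) := by
  have hh : 0 < h := by omega
  intro k
  induction k with
  | zero => intro m e _ _ _; exact fineSurv_zero ..
  | succ k ih =>
    intro m e hpr hk1 hk2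
    have hm : np pr m ≤ t := by omega
    obtain ⟨hus, -, -⟩ := hrun.some m e hpr
    obtain ⟨k1, k2, k3⟩ := K1 hell hSp hSp2 hrng hrun hB hξ hm hus
    obtain ⟨hev, hsa⟩ := K2 hell hC hp hSp hSp2 hn hcell hrng hE hrun hB hξ hm hpr
    have ho := off_lt hSp2 hrng hrun hξ hm
    have hsg : sg (sa E β0 C h p Sp (code E β0 C h Sp e) + off S.sh B pr ξ m) = sg (e - B m) := by
      rw [hsa, k3]; exact (hcell _ _ (sur_div hp hSp ho)).2
    have hmd : (sa E β0 C h p Sp (code E β0 C h Sp e) + off S.sh B pr ξ m) % p =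
        (e - B m) % p := by
      rw [hsa, k3]; exact sur_mod hph
    have hnp1 := np_succ_some pr m e hpr
    obtain ⟨m', e', hm1, hm2, hpr', hnone⟩ :=
      exists_next pr (m + 1) (Nat.nth (NT E β0 (C * h)) T) (by omega)
    have hnp' : np pr m' = np pr m + 1 := by rw [np_const pr (m + 1) m' hm1 hnone, hnp1]
    have hoff : ∀ j, m + 1 ≤ j → j ≤ m' →
        off S.sh B pr ξ j = off S.sh B pr ξ m + S.sh (e - B m) := by
      intro j h1 h2
      rw [off_const S.sh B pr ξ (m + 1) j h1 (fun i a b => hnone i a (by omega)),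
        off_succ_some _ _ _ _ _ _ hpr]
    have hm' : np pr m' ≤ t := by omega
    obtain ⟨hus', hmin', -⟩ := hrun.some m' e' hpr'
    obtain ⟨k1', k2', k3'⟩ := K1 hell hSp hSp2 hrng hrun hB hξ hm' hus'
    obtain ⟨hev', hsa'⟩ := K2 hell hC hp hSp hSp2 hn hcell hrng hE hrun hB hξ hm' hpr'
    have ho' := off_lt hSp2 hrng hrun hξ hm'
    rw [fineSurv_succ, hsg, hmd, ← hgam, ← hsh]
    refine ⟨hu1 m e hpr ?_, code E β0 C h Sp e', off S.sh B pr ξ m',
      hoff m' hm1 le_rfl, ?_, ?_, ?_, ?_, ?_⟩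
    · have h1 := off_eq hrun hB (m + 1)
      rw [hell] at h1
      have h2 : (m + 1) * (C * h) ≤ Nat.nth (NT E β0 (C * h)) T * (C * h) :=
        Nat.mul_le_mul_right _ (by omega)
      omega
    · exact code_lt hC hh hunb hus'.2.1 k1' (by rw [k2']; exact hm2)
    · show code E β0 C h Sp e / (2 * C) < code E β0 C h Sp e' / (2 * C)
      rw [code_div hC hh, code_div hC hh]
      exact count_lt (nt_of_event hC hh hus.2.1 k1) (by rw [k2, k2']; omega)
    · rw [hsa']
      refine (hcell _ _ (sur_div hp hSp ho')).1.2 ?_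
      rw [← k3']; exact hus'.2.2
    · intro g'' hg1 hg2 hg3
      change code E β0 C h Sp e / (2 * C) < g'' / (2 * C) at hg2
      by_cases hne : {e | E e ∧ β0 ≤ e ∧ code E β0 C h Sp e = g''}.Nonempty
      · obtain ⟨a1, a2, a3⟩ : evt E β0 C h Sp g'' ∈
            {e | E e ∧ β0 ≤ e ∧ code E β0 C h Sp e = g''} := Nat.sInf_mem hne
        unfold sa at hg3
        rw [if_pos hne] at hg3
        generalize evt E β0 C h Sp g'' = e'' at *
        have hg4 := (hcell _ _ (sur_div hp hSp ho')).1.1 hg3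
        have hlt : e'' < e' := by
          by_contra hx
          have := code_mono (Sp := Sp) hC hh hus'.2.1 k1' (not_lt.1 hx)
          omega
        rw [← a3, code_div hC hh, code_div hC hh, k2] at hg2
        have hb1 : m + 1 ≤ (e'' - β0) / (C * h) := by
          by_contra hx
          have := Nat.count_monotone (NT E β0 (C * h))
            (show (e'' - β0) / (C * h) ≤ m by omega)
          omega
        have hb2 : (e'' - β0) / (C * h) ≤ m' := by
          rw [← k2']; exact Nat.div_le_div_right (by omega)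
        have hus'' : S.Us E (B ((e'' - β0) / (C * h))) e'' := by
          refine us_of hell hp hSp hrng hrun hB a1 a2 rfl ?_
          rw [hoff _ hb1 hb2, ← hoff m' hm1 le_rfl]; exact hg4
        rcases hb2.lt_or_eq with hx | hx
        · exact (hrun.none _ (hnone _ hb1 hx)).1 e'' hus''
        · rw [hx] at hus''; exact hmin' e'' hlt hus''
      · unfold sa at hg3
        rw [if_neg hne] at hg3
        have := (hrng _ hg3).2.1
        omega
    · have := ih m' e' hpr' (by omega) (by omega)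
      rw [hu2 m m' e e' (by omega) hpr hpr' (fun j a b => hnone j a b)] at this
      show FineSurv Θ S.usable sg p p2 (2 * T * C) (fun g => g / (2 * C)) (sa E β0 C h p Sp)
        (fun g g' => φ (evt E β0 C h Sp g) (evt E β0 C h Sp g')) k (code E β0 C h Sp e')
        (off S.sh B pr ξ m') (φ (evt E β0 C h Sp (code E β0 C h Sp e))
          (evt E β0 C h Sp (code E β0 C h Sp e')) (u m + S.gam (e - B m)))
      rw [hev, hev']
      exact this

end main

end FineCaseAux

open FineCaseAux in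
/-- A large family of fine blockers contains a lazy one. -/
theorem fine_case {V : Type} [AddCommGroup V] (S : ISys V) (Θ : ℕ → ℕ → V × ℕ) (sg : ℕ → ℕ)
    (h p p2 C R t cf T Sp n : ℕ) (SU : Finset ℕ)
    (hell : S.ell = C * h) (hC : 0 < C) (hp : 0 < p) (hph : p ∣ h) (hSp : p + Sp ≤ h)
    (hSp2 : 2 * R + t * p < Sp) (hn : Sp ≤ n)
    (hcell : ∀ a a', a / h = a' / h → (S.usable a ↔ S.usable a') ∧ sg a = sg a')
    (hrng : ∀ a, S.usable a → h ≤ a ∧ a < S.ell ∧ S.sh a < p)
    (hgam : ∀ a, S.gam a = (Θ (sg a) (a % p)).1)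
    (hsh : ∀ a, S.sh a = sg a + p2 * (Θ (sg a) (a % p)).2)
    (hSU0 : S.ell ∈ SU)
    (hSU1 : ∀ κ v, κ < C → v < p → κ * h + v ∈ SU)
    (hSU2 : ∀ κ v, κ < C → v < Sp → κ * h + (h - Sp) + v ∈ SU)
    (hfine : FineGood Θ S.usable sg p p2 (2 * T * C) (fun g => g / (2 * C)) SU R t cf)
    (E : ℕ → Prop) (hE : ∀ e e', E e → E e' → e < e' → e + n < e')
    (hunb : ∀ c, ∃ e, c < e ∧ E e) (φ : ℕ → ℕ → V → V) (β0 : ℕ)
    {ι : Type} (F : Finset ι) (hF : 2 * T * C * cf < F.card)
    (B : ι → ℕ → ℕ) (pr : ι → ℕ → Option ℕ) (ξ : ι → ℕ)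
    (hrun : ∀ b ∈ F, S.IRun E (B b) (pr b)) (hB : ∀ b ∈ F, B b 0 + ξ b = β0)
    (hξ : ∀ b ∈ F, ξ b ≤ 2 * R) (hinj : Set.InjOn ξ F)
    (hch : ∀ b ∈ F, S.Chain φ (B b) (pr b) (β0 + Nat.nth (NT E β0 S.ell) T * S.ell)) :
    ∃ b ∈ F, ((Finset.range (Nat.nth (NT E β0 S.ell) T)).filter
      (fun m => pr b m ≠ none)).card ≤ t := by
  classical
  have hh : 0 < h := by omega
  by_contra hcon
  push Not at hcon
  have hall : ∀ b ∈ F, ∃ g, g < 2 * T * C ∧ ∃ u, FineSurv Θ S.usable sg p p2 (2 * T * C)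
      (fun g => g / (2 * C)) (sa E β0 C h p Sp)
      (fun g g' => φ (evt E β0 C h Sp g) (evt E β0 C h Sp g')) t g (ξ b) u := by
    intro b hb
    have h1 : t < np (pr b) (Nat.nth (NT E β0 (C * h)) T) := by
      have := hcon b hb
      rw [hell] at this
      unfold np
      convert this
    obtain ⟨u, hu1, hu2⟩ := hch b hb
    rw [hell] at hu1
    obtain ⟨m, e, -, hm2, hpr, hnone⟩ := exists_next (pr b) 0 (Nat.nth (NT E β0 (C * h)) T)
      (by rw [np_zero]; omega)
    have hnp : np (pr b) m = 0 := by rw [np_const (pr b) 0 m (Nat.zero_le _) hnone, np_zero]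
    have hoff : off S.sh (B b) (pr b) (ξ b) m = ξ b := by
      rw [off_const S.sh (B b) (pr b) (ξ b) 0 m (Nat.zero_le _) hnone, off_zero]
    have hs := surv (T := T) hell hC hp hph hSp hSp2 hn hcell hrng hgam hsh hE hunb (hrun b hb)
      (hB b hb) (hξ b hb) u hu1 hu2 t m e hpr (by omega) (by omega)
    rw [hoff] at hs
    obtain ⟨hus, -, -⟩ := (hrun b hb).some m e hpr
    obtain ⟨k1, k2, -⟩ := K1 (t := t) hell hSp hSp2 hrng (hrun b hb) (hB b hb) (hξ b hb)
      (by omega) hus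
    exact ⟨_, code_lt hC hh hunb hus.2.1 k1 (by rw [k2]; exact hm2), u m, hs⟩
  choose! g hg1 hg2 using hall
  obtain ⟨g0, hg0, hcard⟩ := Finset.exists_lt_card_fiber_of_mul_lt_card_of_maps_to
    (s := F) (t := Finset.range (2 * T * C)) (f := g) (n := cf)
    (fun b hb => Finset.mem_range.2 (hg1 b hb)) (by rwa [Finset.card_range])
  obtain ⟨f⟩ : Nonempty (Fin cf ↪ (F.filter (fun b => g b = g0))) :=
    Function.Embedding.nonempty_of_card_le (by
      rw [Fintype.card_fin, Fintype.card_coe]; exact hcard.le)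
  have hf : ∀ i, (f i).1 ∈ F ∧ g (f i).1 = g0 := fun i => Finset.mem_filter.1 (f i).2
  refine hfine (sa E β0 C h p Sp) (fun g g' => φ (evt E β0 C h Sp g) (evt E β0 C h Sp g')) g0
    (fun i => ξ (f i).1) ?_ (Finset.mem_range.1 hg0) ?_ (fun i => hξ _ (hf i).1) ?_
  · intro g'
    unfold sa
    split_ifs
    · exact sur_mem hp hSp hSU1 hSU2 (Nat.mod_lt _ (Nat.mul_pos hC hh))
    · rwa [← hell]
  · intro i j hij
    exact f.injective (Subtype.ext (hinj (hf i).1 (hf j).1 hij))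
  · intro i
    have := hg2 _ (hf i).1
    rwa [(hf i).2] at this

end Crest.Agent.R320
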