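import Crest.Agent.R320.Defs

namespace Crest.Agent.R320.Geo

/-- A `B₃` sequence of polynomial size. -/
def b3 (w x : ℕ) : ℕ := x + (3 * w ^ 2 + 1) * x ^ 2 + (3 * w ^ 2 + 1) ^ 2 * x ^ 3

theorem b3_mono (w : ℕ) {x y : ℕ} (h : x ≤ y) : b3 w x ≤ b3 w y := by
  unfold b3; gcongr

theorem b3_strict (w : ℕ) {x y : ℕ} (h : x < y) : b3 w x < b3 w y := by
  unfold b3
  have h1 : (3 * w ^ 2 + 1) * x ^ 2 ≤ (3 * w ^ 2 + 1) * y ^ 2 := by gcongr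
  have h2 : (3 * w ^ 2 + 1) ^ 2 * x ^ 3 ≤ (3 * w ^ 2 + 1) ^ 2 * y ^ 3 := by gcongr
  omega

theorem digit {W x y x' y' : ℕ} (hx : x < W) (hx' : x' < W) (h : x + W * y = x' + W * y') :
    x = x' ∧ y = y' := by
  have h1 : (x + W * y) % W = (x' + W * y') % W := by rw [h]
  rw [Nat.add_mul_mod_self_left, Nat.add_mul_mod_self_left, Nat.mod_eq_of_lt hx,
    Nat.mod_eq_of_lt hx'] at h1
  subst h1
  exact ⟨rfl, Nat.eq_of_mul_eq_mul_left (by omega) (by omega : W * y = W * y')⟩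

theorem b3_prop (w a b c a' b' c' : ℕ) (ha : a < w) (hb : b < w) (hc : c < w) (ha' : a' < w)
    (hb' : b' < w) (hc' : c' < w)
    (h : b3 w a + b3 w b + b3 w c = b3 w a' + b3 w b' + b3 w c') :
    a = a' ∨ a = b' ∨ a = c' := by
  have hw : w ≤ w ^ 2 := by nlinarith
  have sq : ∀ x, x < w → x ^ 2 ≤ w ^ 2 := fun x hx => by gcongr
  have h0 : (a + b + c) + (3 * w ^ 2 + 1) * ((a ^ 2 + b ^ 2 + c ^ 2) +
      (3 * w ^ 2 + 1) * (a ^ 3 + b ^ 3 + c ^ 3)) =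
      (a' + b' + c') + (3 * w ^ 2 + 1) * ((a' ^ 2 + b' ^ 2 + c' ^ 2) +
      (3 * w ^ 2 + 1) * (a' ^ 3 + b' ^ 3 + c' ^ 3)) := by
    unfold b3 at h; linarith
  obtain ⟨e1, h1⟩ := digit (by omega) (by omega) h0
  have := sq a ha; have := sq b hb; have := sq c hc
  have := sq a' ha'; have := sq b' hb'; have := sq c' hc'
  obtain ⟨e2, e3⟩ := digit (by omega) (by omega) h1
  have z1 : (a : ℤ) + b + c = a' + b' + c' := by exact_mod_cast e1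
  have z2 : (a : ℤ) ^ 2 + b ^ 2 + c ^ 2 = a' ^ 2 + b' ^ 2 + c' ^ 2 := by exact_mod_cast e2
  have z3 : (a : ℤ) ^ 3 + b ^ 3 + c ^ 3 = a' ^ 3 + b' ^ 3 + c' ^ 3 := by exact_mod_cast e3
  have key : (6 : ℤ) * (((a : ℤ) - a') * ((a : ℤ) - b') * ((a : ℤ) - c')) = 0 := by
    have hc : (c : ℤ) = a' + b' + c' - a - b := by linarith
    rw [hc] at z2 z3
    linear_combination (2 : ℤ) * z3 - 3 * ((a' : ℤ) + b' + c' - a) * z2
  have key2 : ((a : ℤ) - a') * ((a : ℤ) - b') * ((a : ℤ) - c') = 0 := by linarith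
  rcases mul_eq_zero.1 key2 with h | h
  · rcases mul_eq_zero.1 h with h | h
    · left; omega
    · right; left; omega
  · right; right; omega

/-- The sites: one fine block (block `0`) and single-site coarse blocks. -/
theorem exists_sites (L c1 c2 : ℕ) : ∃ (Site : Type) (_ : Finite Site) (blk off scnt : Site → ℕ)
    (sflag : Site → Bool),
    (∀ h, blk h < 2 * L * c2 + 1) ∧ (∀ h, off h ≤ b3 (2 * L * c1) (2 * L * c1)) ∧
    (∀ h, blk h ≠ 0 → off h = 0 ∧ ∀ h', blk h' = blk h → h' = h) ∧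
    (∀ h1 h2 h3 h4, blk h1 = 0 → blk h2 = 0 → blk h3 = 0 → blk h4 = 0 →
      off h1 + off h2 = off h3 + off h4 → h1 = h3 ∨ h1 = h4) ∧
    (∀ i, i < L → ∀ f, ∃ F : Finset Site, c1 ≤ F.card ∧
      ∀ h ∈ F, blk h = 0 ∧ scnt h = i ∧ sflag h = f) ∧
    (∀ i, i < L → ∀ f, ∃ F : Finset Site, c2 ≤ F.card ∧
      ∀ h ∈ F, blk h ≠ 0 ∧ scnt h = i ∧ sflag h = f ∧ (f = true ↔ L * c2 < blk h)) := by
  classical
  let e1 : (Fin L × Bool × Fin c1) ≃ Fin (2 * L * c1) :=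
    Fintype.equivFinOfCardEq (by simp; ring)
  obtain ⟨e2⟩ : Nonempty (Fin L × Fin c2 ≃ Fin (L * c2)) := ⟨finProdFinEquiv⟩
  let cb : Fin L × Bool × Fin c2 → ℕ := fun x =>
    1 + (if x.2.1 = true then L * c2 else 0) + (e2 (x.1, x.2.2) : Fin (L * c2)).val
  have hcb : Function.Injective cb := by
    rintro ⟨i, f, j⟩ ⟨i', f', j'⟩ h
    have h1 := (e2 (i, j) : Fin (L * c2)).isLt
    have h2 := (e2 (i', j') : Fin (L * c2)).isLt
    have hf : f = f' := by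
      cases f <;> cases f' <;> simp only [cb] at h <;> simp at h ⊢ <;> omega
    subst hf
    have h3 : (e2 (i, j) : Fin (L * c2)) = e2 (i', j') := by
      apply Fin.ext; simp only [cb] at h; omega
    have h4 := e2.injective h3
    simp only [Prod.mk.injEq] at h4
    rw [h4.1, h4.2]
  refine ⟨(Fin L × Bool × Fin c1) ⊕ (Fin L × Bool × Fin c2), inferInstance,
    Sum.elim (fun _ => 0) cb, Sum.elim (fun x => b3 (2 * L * c1) (e1 x).val) (fun _ => 0),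
    Sum.elim (fun x => x.1.val) (fun x => x.1.val), Sum.elim (fun x => x.2.1) (fun x => x.2.1),
    ?_, ?_, ?_, ?_, ?_, ?_⟩
  · rintro (x | ⟨i, f, j⟩)
    · simp
    · have h1 := (e2 (i, j) : Fin (L * c2)).isLt
      simp only [Sum.elim_inr, cb]
      have : 2 * L * c2 = L * c2 + L * c2 := by ring
      split_ifs <;> omega
  · rintro (x | x)
    · exact b3_mono _ (e1 x).isLt.le
    · simp
  · rintro (x | x) hx
    · simp at hx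
    · refine ⟨rfl, ?_⟩
      rintro (y | y) hy
      · exact absurd hy.symm hx
      · rw [hcb hy]
  · rintro (x1 | x1) (x2 | x2) (x3 | x3) (x4 | x4) h1 h2 h3 h4 h <;>
      try (simp only [Sum.elim_inr, cb] at h1 h2 h3 h4; omega)
    simp only [Sum.elim_inl] at h
    have := b3_prop (2 * L * c1) (e1 x1).val (e1 x2).val (e1 x3).val (e1 x3).val (e1 x4).val
      (e1 x3).val (e1 x1).isLt (e1 x2).isLt (e1 x3).isLt (e1 x3).isLt (e1 x4).isLt (e1 x3).isLt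
      (by omega)
    rcases this with h | h | h
    · left; rw [e1.injective (Fin.ext h)]
    · right; rw [e1.injective (Fin.ext h)]
    · left; rw [e1.injective (Fin.ext h)]
  · intro i hi f
    refine ⟨Finset.univ.image (fun j : Fin c1 => Sum.inl (⟨i, hi⟩, f, j)), ?_, ?_⟩
    · rw [Finset.card_image_of_injective _ (fun j j' h => by simpa using h)]; simp
    · intro h hh
      obtain ⟨j, -, rfl⟩ := Finset.mem_image.1 hh
      simp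
  · intro i hi f
    refine ⟨Finset.univ.image (fun j : Fin c2 => Sum.inr (⟨i, hi⟩, f, j)), ?_, ?_⟩
    · rw [Finset.card_image_of_injective _ (fun j j' h => by simpa using h)]; simp
    · intro h hh
      obtain ⟨j, -, rfl⟩ := Finset.mem_image.1 hh
      have h1 := (e2 ((⟨i, hi⟩ : Fin L), j) : Fin (L * c2)).isLt
      simp only [Sum.elim_inr, cb]
      refine ⟨by omega, trivial, trivial, ?_⟩
      cases f <;> simp <;> omega

/-- Polynomially bounded functions. -/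
def PB (f : ℕ → ℕ) : Prop := ∃ C d : ℕ, ∀ z, f z ≤ C * (z + 1) ^ d

theorem PB.const (c : ℕ) : PB (fun _ => c) := ⟨c, 0, fun _ => by simp⟩

theorem PB.id : PB (fun z => z) := ⟨1, 1, fun _ => by simp⟩

theorem PB.add {f g : ℕ → ℕ} (hf : PB f) (hg : PB g) : PB (fun z => f z + g z) := by
  obtain ⟨C, d, h⟩ := hf
  obtain ⟨C', d', h'⟩ := hg
  refine ⟨C + C', d + d', fun z => ?_⟩
  have h1 : (z + 1) ^ d ≤ (z + 1) ^ (d + d') := Nat.pow_le_pow_right (by omega) (by omega)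
  have h2 : (z + 1) ^ d' ≤ (z + 1) ^ (d + d') := Nat.pow_le_pow_right (by omega) (by omega)
  calc f z + g z ≤ C * (z + 1) ^ d + C' * (z + 1) ^ d' := add_le_add (h z) (h' z)
    _ ≤ C * (z + 1) ^ (d + d') + C' * (z + 1) ^ (d + d') := by gcongr
    _ = _ := by ring

theorem PB.mul {f g : ℕ → ℕ} (hf : PB f) (hg : PB g) : PB (fun z => f z * g z) := by
  obtain ⟨C, d, h⟩ := hf
  obtain ⟨C', d', h'⟩ := hg
  refine ⟨C * C', d + d', fun z => ?_⟩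
  calc f z * g z ≤ (C * (z + 1) ^ d) * (C' * (z + 1) ^ d') := Nat.mul_le_mul (h z) (h' z)
    _ = _ := by ring

theorem PB.pow {f : ℕ → ℕ} (hf : PB f) (k : ℕ) : PB (fun z => f z ^ k) := by
  induction k with
  | zero => simpa using PB.const 1
  | succ k ih => simpa [pow_succ] using ih.mul hf

theorem PB.b3 {f : ℕ → ℕ} (hf : PB f) : PB (fun z => b3 (f z) (f z)) := by
  have h1 : PB (fun z => 3 * f z ^ 2 + 1) := ((PB.const 3).mul (hf.pow 2)).add (PB.const 1)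
  exact (hf.add (h1.mul (hf.pow 2))).add ((h1.pow 2).mul (hf.pow 3))

theorem PB.exists_le {f : ℕ → ℕ} (hf : PB f) : ∃ z, 1 ≤ z ∧ f z ≤ 2 ^ z := by
  obtain ⟨C, d, h⟩ := hf
  have ht := tendsto_pow_const_div_const_pow_of_one_lt d (r := (2 : ℝ)) (by norm_num)
  have hpos : (0 : ℝ) < 1 / (2 * C + 1) := by positivity
  obtain ⟨m0, hm0⟩ := Filter.eventually_atTop.1 (ht.eventually (gt_mem_nhds hpos))
  refine ⟨m0 + 1, by omega, (h _).trans ?_⟩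
  have h1 := hm0 (m0 + 2) (by omega)
  rw [div_lt_div_iff₀ (by positivity) (by positivity)] at h1
  have h2 : ((C * (m0 + 1 + 1) ^ d : ℕ) : ℝ) ≤ ((2 ^ (m0 + 1) : ℕ) : ℝ) := by
    push_cast at h1 ⊢
    have h3 : (2 : ℝ) ^ (m0 + 2) = 2 * 2 ^ (m0 + 1) := by ring
    have h4 : (0 : ℝ) ≤ ((m0 : ℝ) + 2) ^ d := by positivity
    have h5 : ((m0 : ℝ) + 1 + 1) = (m0 : ℝ) + 2 := by ring
    rw [h5]
    nlinarith
  exact_mod_cast h2

macro "pb_tac" : tactic =>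
  `(tactic| repeat' (first | assumption | exact PB.id | exact PB.const _ | apply PB.add | apply PB.mul | apply PB.pow))

/-- The numerical parameters. -/
theorem exists_params (Q L : ℕ) : ∃ z t cc c2 w Sg lh T Gn cf c1 R p1 p2 Sp : ℕ,
    1 ≤ z ∧ t = 2 * Q * (3 * z + Q) ∧ cc = 3 * t + 5 + (t + 1) ^ 2 ∧ c2 = 2 * (cc + t + 1) ∧
    w = 2 * L * c2 + 1 ∧ Sg = b3 w w ∧ lh = 5 * Sg + 3 ∧ T = 6 + (t + 1) * (2 * t + 7) ∧
    Gn = 2 * T * (4 * lh) ∧ cf = z * Gn + z * Gn ^ 2 + z + 2 ∧ c1 = w * 2 * (Gn * cf) + 1 ∧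
    R = b3 (2 * L * c1) (2 * L * c1) ∧ p2 = 4 * Sg * t + lh + 1 ∧
    p1 = 4 * (2 * R + 1) * t * Gn * cf * (t + 1) + 2 * R + 1 ∧
    Sp = 2 * R + t * (p1 * p2) + 1 ∧
    Q ^ Q + (4 * lh * (p1 * p2) + 4 * lh * Sp + 1) + Gn + (2 * R + 1) + (lh + 1) + p1 * p2 +
      (4 * Sg + 1) ≤ 2 ^ z := by
  obtain ⟨t, ht, ht'⟩ : ∃ t : ℕ → ℕ, PB t ∧ ∀ z, t z = 2 * Q * (3 * z + Q) :=
    ⟨fun z => 2 * Q * (3 * z + Q), by pb_tac, fun _ => rfl⟩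
  obtain ⟨cc, hcc, hcc'⟩ : ∃ cc : ℕ → ℕ, PB cc ∧ ∀ z, cc z = 3 * t z + 5 + (t z + 1) ^ 2 :=
    ⟨fun z => 3 * t z + 5 + (t z + 1) ^ 2, by pb_tac, fun _ => rfl⟩
  obtain ⟨c2, hc2, hc2'⟩ : ∃ c2 : ℕ → ℕ, PB c2 ∧ ∀ z, c2 z = 2 * (cc z + t z + 1) :=
    ⟨fun z => 2 * (cc z + t z + 1), by pb_tac, fun _ => rfl⟩
  obtain ⟨w, hw, hw'⟩ : ∃ w : ℕ → ℕ, PB w ∧ ∀ z, w z = 2 * L * c2 z + 1 :=
    ⟨fun z => 2 * L * c2 z + 1, by pb_tac, fun _ => rfl⟩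
  obtain ⟨Sg, hSg, hSg'⟩ : ∃ Sg : ℕ → ℕ, PB Sg ∧ ∀ z, Sg z = b3 (w z) (w z) :=
    ⟨fun z => b3 (w z) (w z), hw.b3, fun _ => rfl⟩
  obtain ⟨lh, hlh, hlh'⟩ : ∃ lh : ℕ → ℕ, PB lh ∧ ∀ z, lh z = 5 * Sg z + 3 :=
    ⟨fun z => 5 * Sg z + 3, by pb_tac, fun _ => rfl⟩
  obtain ⟨T, hT, hT'⟩ : ∃ T : ℕ → ℕ, PB T ∧ ∀ z, T z = 6 + (t z + 1) * (2 * t z + 7) :=
    ⟨fun z => 6 + (t z + 1) * (2 * t z + 7), by pb_tac, fun _ => rfl⟩
  obtain ⟨Gn, hGn, hGn'⟩ : ∃ Gn : ℕ → ℕ, PB Gn ∧ ∀ z, Gn z = 2 * T z * (4 * lh z) :=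
    ⟨fun z => 2 * T z * (4 * lh z), by pb_tac, fun _ => rfl⟩
  obtain ⟨cf, hcf, hcf'⟩ : ∃ cf : ℕ → ℕ, PB cf ∧
      ∀ z, cf z = z * Gn z + z * Gn z ^ 2 + z + 2 :=
    ⟨fun z => z * Gn z + z * Gn z ^ 2 + z + 2, by pb_tac, fun _ => rfl⟩
  obtain ⟨c1, hc1, hc1'⟩ : ∃ c1 : ℕ → ℕ, PB c1 ∧ ∀ z, c1 z = w z * 2 * (Gn z * cf z) + 1 :=
    ⟨fun z => w z * 2 * (Gn z * cf z) + 1, by pb_tac, fun _ => rfl⟩
  obtain ⟨R, hR, hR'⟩ : ∃ R : ℕ → ℕ, PB R ∧ ∀ z, R z = b3 (2 * L * c1 z) (2 * L * c1 z) :=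
    ⟨fun z => b3 (2 * L * c1 z) (2 * L * c1 z), ((PB.const _).mul hc1).b3, fun _ => rfl⟩
  obtain ⟨p2, hp2, hp2'⟩ : ∃ p2 : ℕ → ℕ, PB p2 ∧ ∀ z, p2 z = 4 * Sg z * t z + lh z + 1 :=
    ⟨fun z => 4 * Sg z * t z + lh z + 1, by pb_tac, fun _ => rfl⟩
  obtain ⟨p1, hp1, hp1'⟩ : ∃ p1 : ℕ → ℕ, PB p1 ∧ ∀ z, p1 z =
      4 * (2 * R z + 1) * t z * Gn z * cf z * (t z + 1) + 2 * R z + 1 :=
    ⟨fun z => 4 * (2 * R z + 1) * t z * Gn z * cf z * (t z + 1) + 2 * R z + 1, by pb_tac,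
      fun _ => rfl⟩
  obtain ⟨Sp, hSp, hSp'⟩ : ∃ Sp : ℕ → ℕ, PB Sp ∧ ∀ z, Sp z =
      2 * R z + t z * (p1 z * p2 z) + 1 :=
    ⟨fun z => 2 * R z + t z * (p1 z * p2 z) + 1, by pb_tac, fun _ => rfl⟩
  have hF : PB (fun z => Q ^ Q + (4 * lh z * (p1 z * p2 z) + 4 * lh z * Sp z + 1) + Gn z +
      (2 * R z + 1) + (lh z + 1) + p1 z * p2 z + (4 * Sg z + 1)) := by pb_tac
  obtain ⟨z, hz, hF⟩ := hF.exists_le
  exact ⟨z, t z, cc z, c2 z, w z, Sg z, lh z, T z, Gn z, cf z, c1 z, R z, p1 z, p2 z, Sp z, hz,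
    ht' z, hcc' z, hc2' z, hw' z, hSg' z, hlh' z, hT' z, hGn' z, hcf' z, hc1' z, hR' z, hp2' z,
    hp1' z, hSp' z, hF⟩

end Crest.Agent.R320.Geo
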