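import Crest.Agent.R320.GlueAux
import Crest.Agent.R320.CoarseCase

namespace Crest.Agent.R320.Glue

variable {V : Type} [AddCommGroup V]

omit [AddCommGroup V] in
/-- Changing the activation time of a fine blocker to the common one. -/
theorem act_fine {S : ISys V} {E : ℕ → Prop} {B : ℕ → ℕ} {pr : ℕ → Option ℕ}
    {p h R A o ξ tm β0 : ℕ} {f : Bool}
    (hrng : ∀ a, S.usable a → h ≤ a ∧ a < S.ell ∧ S.sh a < p)
    (hA : ∀ a, S.usable a → a < A ∨ A + h ≤ a) (hAl : A ≤ S.ell) (hph : 2 * R + p < h)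
    (hpl : h ≤ S.ell) (hB : B 0 + (A + o) = tm) (hξ : B 0 + ξ = β0) (hξ1 : ξ ≤ 2 * R) (hξ2 : o ≤ ξ)
    (hr : S.IRun (fun e => (if f = true then B 0 + S.ell else tm) < e ∧ E e) B pr) :
    S.IRun (fun e => (if f = true then β0 + S.ell else β0 + A) < e ∧ E e) B pr := by
  have hp : ∀ a, S.usable a → S.sh a < p := fun a ha => (hrng a ha).2.2
  have hmono := irun_mono hp (by omega) hr
  have h1 := (irun_step hp hr 0).2
  refine irun_congr ?_ hr
  intro m e he hu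
  obtain ⟨u1, u2, -⟩ := hrng _ hu
  have u3 := hA _ hu
  refine and_congr_left fun _ => ?_
  rcases Nat.eq_zero_or_pos m with rfl | hm
  · split_ifs <;> omega
  · have := hmono (show 0 + 1 ≤ m by omega)
    split_ifs at h1 ⊢ <;> omega

theorem bt_glue (S : ISys V) (Θ : ℕ → ℕ → V × ℕ) (sg : ℕ → ℕ)
    (L h p p2 Sg lh w t cc cf c1 c2 R T Sp n : ℕ) (Nh : ℕ → ℕ) (SU : Finset ℕ)
    (blk off : S.Site → ℕ) (m0 : ℕ)
    (hell : S.ell = 4 * lh * h) (hlh : lh = 5 * Sg + 3) (hp : 0 < p) (hph : p ∣ h)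
    (hSp : p + Sp ≤ h) (hSp2 : 2 * R + t * p < Sp) (hn : Sp ≤ n)
    (hN : ∀ a, a < w → 2 * Sg + 1 ≤ Nh a ∧ Nh a ≤ 3 * Sg + 1) (hNmono : StrictMono Nh)
    (hB3 : ∀ a b c a' b' c', a < w → b < w → c < w → a' < w → b' < w → c' < w →
      Nh a + Nh b + Nh c = Nh a' + Nh b' + Nh c' → a = a' ∨ a = b' ∨ a = c')
    (huse : ∀ a, S.usable a ↔ a / h < 4 * lh ∧
      ∀ M, (M = 0 ∨ M = lh ∨ ∃ b, b < w ∧ M = Nh b) → a / h ≠ 4 * M ∧ a / h + 1 ≠ 4 * M)
    (hsg : ∀ a, sg a = (a / h + 2) / 4)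
    (hgam : ∀ a, S.gam a = (Θ (sg a) (a % p)).1)
    (hsh : ∀ a, S.sh a = sg a + p2 * (Θ (sg a) (a % p)).2)
    (hshp : ∀ a, S.usable a → S.sh a < p)
    (hSU0 : S.ell ∈ SU)
    (hSU1 : ∀ κ v, κ < 4 * lh → v < p → κ * h + v ∈ SU)
    (hSU2 : ∀ κ v, κ < 4 * lh → v < Sp → κ * h + (h - Sp) + v ∈ SU)
    (hfine : FineGood Θ S.usable sg p p2 (2 * T * (4 * lh)) (fun g => g / (2 * (4 * lh)))
      SU R t cf)
    (hcoarse : CoarseGood Θ p p2 Sg lh t cc)
    (hsage : ∀ s, S.sage s = 4 * h * Nh (blk s) + off s)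
    (hblk : ∀ s, blk s < w) (hoff : ∀ s, off s ≤ R)
    (hcs : ∀ s, blk s ≠ 0 → off s = 0 ∧ ∀ s', blk s' = blk s → s' = s)
    (hsid : ∀ h1 h2 h3 h4, blk h1 = 0 → blk h2 = 0 → blk h3 = 0 → blk h4 = 0 →
      off h1 + off h2 = off h3 + off h4 → h1 = h3 ∨ h1 = h4)
    (hF1 : ∀ i, i < L → ∀ f, ∃ F : Finset S.Site, c1 ≤ F.card ∧
      ∀ s ∈ F, blk s = 0 ∧ S.scnt s = i ∧ S.sflag s = f)
    (hF2 : ∀ i, i < L → ∀ f, ∃ F : Finset S.Site, c2 ≤ F.card ∧
      ∀ s ∈ F, blk s ≠ 0 ∧ S.scnt s = i ∧ S.sflag s = f ∧ (f = true ↔ m0 < blk s))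
    (hw : 0 < w)
    (hc1 : w * 2 * (2 * T * (4 * lh) * cf) < c1) (hc2 : 2 * (cc + t + 1) ≤ c2)
    (hT : T = 6 + (t + 1) * (2 * t + 7))
    (hTev : S.Tev = (T + 3) * (S.ell / n + 1)) (hdr : p + 2 * R + p * S.Tev ≤ h)
    (E : ℕ → Prop) (φ : ℕ → ℕ → V → V) (β ar i : ℕ)
    (hE : ∀ e e', E e → E e' → e < e' → e + n < e') (hunb : ∀ c, ∃ e, c < e ∧ E e)
    (hβ : 2 * S.ell ≤ β) (har : S.usable ar ∨ S.ell ≤ ar) (hi : i < L) :
    ∃ s : S.Site, S.scnt s = i ∧ (S.sflag s = true ↔ ar < S.sage s) ∧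
      ∀ tm, tm + (if ar < S.sage s then S.sh ar else 0) = β + S.sage s →
      ∀ s', s' ≠ s → ∀ (B : ℕ → ℕ) (pr : ℕ → Option ℕ), B 0 + S.sage s' = tm →
        S.IRun (fun e => (if S.sflag s' = true then B 0 + S.ell else tm) < e ∧ E e) B pr →
        ∃ tend, tm ≤ tend ∧ Set.ncard {e | tm < e ∧ e ≤ tend ∧ E e} ≤ S.Tev ∧
          ¬ S.Chain φ B pr tend := by
  classical
  by_contra hcon
  have hex : ∀ s : S.Site, ∃ (tm : ℕ) (s' : S.Site) (B : ℕ → ℕ) (pr : ℕ → Option ℕ),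
      S.scnt s = i → (S.sflag s = true ↔ ar < S.sage s) →
      tm + (if ar < S.sage s then S.sh ar else 0) = β + S.sage s ∧ s' ≠ s ∧
      B 0 + S.sage s' = tm ∧
      S.IRun (fun e => (if S.sflag s' = true then B 0 + S.ell else tm) < e ∧ E e) B pr ∧
      ∀ tend, tm ≤ tend → Set.ncard {e | tm < e ∧ e ≤ tend ∧ E e} ≤ S.Tev →
        S.Chain φ B pr tend := by
    intro s
    by_contra hno
    apply hcon
    refine ⟨s, ?_, ?_, ?_⟩
    · by_contra h1
      exact hno ⟨0, s, fun _ => 0, fun _ => none, fun h2 => absurd h2 h1⟩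
    · by_contra h1
      exact hno ⟨0, s, fun _ => 0, fun _ => none, fun _ h2 => absurd h2 h1⟩
    · intro tm htm s' hs' B pr hB hr
      by_contra h1
      refine hno ⟨tm, s', B, pr, fun _ _ => ⟨htm, hs', hB, hr, fun tend h2 h3 => ?_⟩⟩
      by_contra h4
      exact h1 ⟨tend, h2, h3, h4⟩
  clear hcon
  choose tm bl B pr hbl using hex
  -- geometry
  have hh : 0 < h := by omega
  have hHN : ∀ a, a < w → 4 * h ≤ 4 * h * Nh a ∧ 4 * h * Nh a + 8 * h ≤ S.ell := by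
    intro a ha
    obtain ⟨h1, h2⟩ := hN a ha
    have e1 : 4 * h * 1 ≤ 4 * h * Nh a := Nat.mul_le_mul_left _ (by omega)
    have e2 : 4 * h * (Nh a + 2) ≤ 4 * h * lh := Nat.mul_le_mul_left _ (by omega)
    have e3 : 4 * h * (Nh a + 2) = 4 * h * Nh a + 8 * h := by ring
    have e4 : 4 * h * lh = 4 * lh * h := by ring
    omega
  have hrng : ∀ a, S.usable a → h ≤ a ∧ a + h < S.ell ∧ S.sh a < p := by
    intro a ha
    obtain ⟨h1, h2⟩ := (huse a).1 ha
    have h3 := (h2 0 (Or.inl rfl)).1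
    have h4 := (h2 lh (Or.inr (Or.inl rfl))).2
    have h5 : 1 ≤ a / h := Nat.pos_of_ne_zero (by simpa using h3)
    have h6 : (a + h) / h < 4 * lh := by rw [Nat.add_div_right _ hh]; omega
    rw [Nat.le_div_iff_mul_le hh] at h5
    rw [Nat.div_lt_iff_lt_mul hh] at h6
    exact ⟨by omega, by omega, hshp a ha⟩
  have hrng' : ∀ a, S.usable a → h ≤ a ∧ a < S.ell ∧ S.sh a < p := fun a ha => by
    have := hrng a ha; exact ⟨this.1, by omega, this.2.2⟩
  have hsite : ∀ a b, b < w → S.usable a → a < 4 * h * Nh b ∨ 4 * h * Nh b + h ≤ a := by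
    intro a b hb ha
    have h2 := (((huse a).1 ha).2 (Nh b) (Or.inr (Or.inr ⟨b, hb, rfl⟩))).1
    by_contra hc
    apply h2
    have e1 : 4 * Nh b * h = 4 * h * Nh b := by ring
    have e2 : (4 * Nh b + 1) * h = 4 * h * Nh b + h := by ring
    have h3 : 4 * Nh b ≤ a / h := (Nat.le_div_iff_mul_le hh).2 (by omega)
    have h4 : a / h < 4 * Nh b + 1 := (Nat.div_lt_iff_lt_mul hh).2 (by omega)
    omega
  have hjump : ∀ a, S.usable a → a + S.sh a < S.ell := fun a ha => by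
    have := hrng a ha; omega
  have hs : ∀ a, a ≤ S.ell → (if ar < a then S.sh ar else 0) < p := by
    intro a ha
    split_ifs with h1
    · exact hshp ar (har.resolve_right (by omega))
    · exact hp
  have hN0 := hHN 0 hw
  have hsl : ∀ s, 4 * h ≤ S.sage s ∧ S.sage s < S.ell := by
    intro s
    have := hHN _ (hblk s); have := hoff s; have := hsage s
    omega
  have hl : 0 < S.ell := by omega
  -- the fine family
  obtain ⟨MF, hMF, hMFp⟩ := hF1 i hi (decide (ar < 4 * h * Nh 0))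
  have hMF1 : ∀ s ∈ MF, (ar < S.sage s ↔ ar < 4 * h * Nh 0) := by
    intro s hs
    have h1 := hsage s
    rw [(hMFp s hs).1] at h1
    have h2 := hoff s
    rcases har with h3 | h3
    · have := hsite ar 0 hw h3; omega
    · omega
  have hMF2 : ∀ s ∈ MF, (S.sflag s = true ↔ ar < S.sage s) := by
    intro s hs
    rw [hMF1 s hs, (hMFp s hs).2.2]; simp
  obtain ⟨s0, hs0, hs0p⟩ : ∃ s0, s0 = (if ar < 4 * h * Nh 0 then S.sh ar else 0) ∧ s0 < p :=
    ⟨_, rfl, hs _ (by omega)⟩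
  have hMF3 : ∀ s ∈ MF, tm s + s0 = β + 4 * h * Nh 0 + off s := by
    intro s hs
    have h1 := (hbl s (hMFp s hs).2.1 (hMF2 s hs)).1
    have h2 := hsage s
    rw [(hMFp s hs).1] at h2
    rw [if_congr (hMF1 s hs) rfl rfl, ← hs0] at h1
    omega
  obtain ⟨⟨ν, f'⟩, hν, hF⟩ := Finset.exists_lt_card_fiber_of_mul_lt_card_of_maps_to
    (s := MF) (t := Finset.range w ×ˢ (Finset.univ : Finset Bool))
    (f := fun s => (blk (bl s), S.sflag (bl s))) (n := 2 * T * (4 * lh) * cf)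
    (fun s _ => by simp [hblk]) (by simp; omega)
  have hνw : ν < w := by simpa using hν
  have hNν := hHN ν hνw
  set F1 := MF.filter (fun s => (blk (bl s), S.sflag (bl s)) = (ν, f')) with hF1def
  have hF1m : ∀ s ∈ F1, s ∈ MF ∧ blk (bl s) = ν ∧ S.sflag (bl s) = f' := by
    intro s hs
    simpa [hF1def] using hs
  obtain ⟨β0, hβ0⟩ : ∃ β0, β0 + 4 * h * Nh ν + s0 = β + 4 * h * Nh 0 + R :=
    ⟨β + 4 * h * Nh 0 + R - 4 * h * Nh ν - s0, by omega⟩
  obtain ⟨cs, hcs'⟩ : ∃ cs, cs = (if f' = true then β0 + S.ell else β0 + 4 * h * Nh ν) := ⟨_, rfl⟩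
  have hcs1 : β0 ≤ cs ∧ cs ≤ β0 + S.ell ∧ cs ≤ β + 2 * S.ell := by
    split_ifs at hcs' <;> omega
  set E' : ℕ → Prop := fun e => cs < e ∧ E e with hE'
  have hE'unb : ∀ c, ∃ e, c < e ∧ E' e := fun c => by
    obtain ⟨e, he, hE⟩ := hunb (c + cs); exact ⟨e, by omega, by omega, hE⟩
  have hE'sp : ∀ e e', E' e → E' e' → e < e' → e + n < e' :=
    fun e e' h1 h2 h3 => hE e e' h1.2 h2.2 h3
  have hinf : {m | NT E' β0 S.ell m}.Infinite := nt_infinite hE'unb β0 hl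
  obtain ⟨J, hJ⟩ : ∃ J, J = Nat.nth (NT E' β0 S.ell) := ⟨_, rfl⟩
  have hJadd : ∀ r d, J r + d ≤ J (r + d) := by
    intro r d; rw [hJ]; exact nth_add_le hinf r d
  have hJmem : ∀ r, NT E' β0 S.ell (J r) := by
    intro r; rw [hJ]; exact Nat.nth_mem_of_infinite hinf r
  obtain ⟨Z, hZc, hZ⟩ := exists_Z (n := n) (by omega) hE hunb hl β β0 cs T hcs1.1 hcs1.2.2
  rw [← hE', ← hJ] at hZ
  rw [← hTev] at hZc
  obtain ⟨tend, htend⟩ : ∃ tend, tend = β0 + J T * S.ell := ⟨_, rfl⟩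
  rw [← htend] at hZ
  have hJT : 2 * S.ell ≤ J T * S.ell := by
    apply Nat.mul_le_mul_right
    have := hJadd 0 T
    simp at this; omega
  have hgood : ∀ s, S.scnt s = i → (S.sflag s = true ↔ ar < S.sage s) →
      β ≤ tm s ∧ S.Chain φ (B s) (pr s) tend := by
    intro s h1 h2
    obtain ⟨h3, -, -, -, h7⟩ := hbl s h1 h2
    have h8 := hs (S.sage s) (hsl s).2.le
    have h9 := hsl s
    refine ⟨by omega, h7 tend (by omega) ?_⟩
    refine le_trans ?_ hZc
    rw [← Set.ncard_coe_finset]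
    apply Set.ncard_le_ncard _ Z.finite_toSet
    rintro e ⟨e1, e2, e3⟩
    exact hZ e (by omega) e2 e3
  let ξ : S.Site → ℕ := fun s => R + off (bl s) - off s
  have hξB : ∀ s ∈ F1, B s 0 + ξ s = β0 := by
    intro s hs
    obtain ⟨h1, h2, h3⟩ := hF1m s hs
    have h4 := (hbl s (hMFp s h1).2.1 (hMF2 s h1)).2.2.1
    have h5 := hsage (bl s)
    rw [h2] at h5
    have h6 := hMF3 s h1
    have h7 := hoff s
    simp only [ξ]; omega
  have hξR : ∀ s ∈ F1, ξ s ≤ 2 * R := by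
    intro s _
    have := hoff (bl s)
    simp only [ξ]; omega
  have hξinj : Set.InjOn ξ F1 := by
    intro s hs s' hs' hss
    obtain ⟨h1, h2, h3⟩ := hF1m s hs
    obtain ⟨h1', h2', h3'⟩ := hF1m s' hs'
    have o1 := hoff s
    have o2 := hoff s'
    simp only [ξ] at hss
    have b1 := (hMFp s h1).1
    have b2 := (hMFp s' h1').1
    by_cases hν0 : ν = 0
    · rcases hsid s (bl s') (bl s) s' b1 (by omega) (by omega) b2 (by omega) with h | h
      · exact absurd h.symm (hbl s (hMFp s h1).2.1 (hMF2 s h1)).2.1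
      · exact h
    · have z1 := (hcs (bl s) (by omega)).1
      have z2 := (hcs (bl s') (by omega)).1
      rcases hsid s s s' s' b1 b1 b2 b2 (by omega) with h | h <;> exact h
  have hrun1 : ∀ s ∈ F1, S.IRun E' (B s) (pr s) := by
    intro s hs
    obtain ⟨h1, h2, h3⟩ := hF1m s hs
    obtain ⟨-, -, h4, h5, -⟩ := hbl s (hMFp s h1).2.1 (hMF2 s h1)
    have h6 := hsage (bl s)
    rw [h2] at h6
    rw [h3] at h5
    have h7 := hoff s
    rw [hE', hcs']
    exact act_fine (A := 4 * h * Nh ν) (o := off (bl s)) (ξ := ξ s) (R := R) hrng'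
      (fun a ha => hsite a ν hνw ha) (by omega) (by omega) (by omega) (by omega) (hξB s hs)
      (hξR s hs) (by simp only [ξ]; omega) h5
  obtain ⟨x, hx, hxc⟩ := fine_case S Θ sg h p p2 (4 * lh) R t cf T Sp n SU hell (by omega) hp hph
    hSp hSp2 hn (fun a a' ha => by rw [huse, huse, hsg, hsg, ha]; simp) hrng' hgam hsh hSU0 hSU1
    hSU2 hfine E' hE'sp hE'unb φ β0 F1 hF B pr ξ hrun1 hξB hξR hξinj
    (fun s hs => by
      obtain ⟨h1, -, -⟩ := hF1m s hs
      rw [← hJ, ← htend]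
      exact (hgood s (hMFp s h1).2.1 (hMF2 s h1)).2)
  -- the lazy stretch
  obtain ⟨r1, hr1, hr2, hlz⟩ := exists_lazy hinf (pr x) t (2 * t + 7) (by rw [← hT]; exact hxc)
  rw [← hJ] at hlz hxc
  rw [← hT] at hr2
  obtain ⟨m1, hm1⟩ : ∃ m1, m1 = J r1 := ⟨_, rfl⟩
  obtain ⟨m2, hm2⟩ : ∃ m2, m1 + m2 = J (r1 + (2 * t + 7)) :=
    ⟨J (r1 + (2 * t + 7)) - m1, by have := hJadd r1 (2 * t + 7); omega⟩
  rw [← hm1, ← hm2] at hlz
  have hm14 : 4 ≤ m1 := by have := hJadd 0 r1; simp at this; omega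
  have hm2T : m1 + m2 + 2 ≤ J T := by
    have := hJadd (r1 + (2 * t + 7)) (T - (r1 + (2 * t + 7)))
    rw [show r1 + (2 * t + 7) + (T - (r1 + (2 * t + 7))) = T by omega] at this
    omega
  have hxrun := hrun1 x hx
  have hxB : ∀ j, j ≤ m2 → B x (m1 + j) = B x m1 + j * S.ell := by
    intro j
    induction j with
    | zero => simp
    | succ j ih =>
      intro hj
      have h1 := (hxrun.none (m1 + j) (hlz _ (by omega) (by omega))).2
      rw [← Nat.add_assoc, h1, ih (by omega), Nat.succ_mul]; omega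
  have hxo : B x m1 ≤ β0 + m1 * S.ell ∧ β0 + m1 * S.ell ≤ B x m1 + Sp := by
    obtain ⟨h1, h2⟩ := irun_off hshp hxrun m1
    have h3 : ((Finset.range m1).filter (fun j => pr x j ≠ none)).card ≤ t := by
      refine le_trans (Finset.card_le_card (Finset.filter_subset_filter _ ?_)) hxc
      exact Finset.range_subset_range.2 (by omega)
    have h4 := Nat.mul_le_mul_left p h3
    have h5 := hξB x hx
    have h6 := hξR x hx
    rw [Nat.mul_comm p t] at h4
    omega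
  have hm1l : 4 * S.ell ≤ m1 * S.ell := Nat.mul_le_mul_right _ hm14
  have hm2l : m1 * S.ell + m2 * S.ell + 2 * S.ell ≤ J T * S.ell := by
    have := Nat.mul_le_mul_right S.ell hm2T
    rw [Nat.add_mul, Nat.add_mul] at this; exact this
  choose ε hε1 hε2 hε3 using fun k => hJmem (r1 + 2 + 2 * k)
  -- the coarse family
  obtain ⟨MC, hMC, hMCp⟩ := hF2 i hi (decide (ar < 4 * h * Nh (m0 + 1)))
  have hMC2 : ∀ s ∈ MC, (S.sflag s = true ↔ ar < S.sage s) := by
    intro s hs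
    obtain ⟨h1, h2, h3, h4⟩ := hMCp s hs
    have h5 := hsage s
    rw [(hcs s h1).1] at h5
    rw [h3]
    simp only [decide_eq_true_eq] at h4 ⊢
    constructor
    · intro h6
      have := Nat.mul_le_mul_left (4 * h) (hNmono.monotone (show m0 + 1 ≤ blk s from h4.1 h6))
      omega
    · intro h6
      by_contra h7
      have h8 : blk s ≤ m0 + 1 := by
        by_contra h9; exact h7 (h4.2 (by omega))
      have := Nat.mul_le_mul_left (4 * h) (hNmono.monotone h8)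
      omega
  have hyoff : ∀ y ∈ MC, ∀ m, m ≤ m1 + m2 → B y m ≤ B y 0 + m * S.ell ∧
      B y 0 + m * S.ell ≤ B y m + p * S.Tev := by
    intro y hy m hm
    obtain ⟨h3, -, h5, h6, -⟩ := hbl y (hMCp y hy).2.1 (hMC2 y hy)
    have h7 := (hgood y (hMCp y hy).2.1 (hMC2 y hy)).1
    obtain ⟨h1, h2⟩ := irun_off hshp h6 m
    have h8 := hsl y
    have h9 : m * S.ell ≤ m1 * S.ell + m2 * S.ell := by
      rw [← Nat.add_mul]; exact Nat.mul_le_mul_right _ hm
    have h10 := np_le (tend := tend) (m := m) hjump h6 Z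
      (fun e he he2 => hZ e (by
        have := he.1
        have h11 := hsl (bl y)
        split_ifs at this <;> omega) he2 he.2) (by omega)
    have h11 := Nat.mul_le_mul_left p (h10.trans hZc)
    exact ⟨h1, by omega⟩
  refine coarse_case S Θ sg h p p2 Sg lh w t cc Nh hh hell hlh
    (by rw [hell]; exact Dvd.dvd.mul_left hph _) hN hB3 huse hsg hgam hsh hcoarse E hunb φ
    (B x m1) m2 tend (by omega) ?_ ε (fun k _ => (hε1 k).2) ?_ ?_ ?_ MC (by omega) ν hνw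
    blk (fun y => blk (bl y)) ?_ ?_ (fun y j => B y (m1 + j)) (fun y j => pr y (m1 + j)) ?_ ?_ ?_
  · rintro j e hj ⟨u1, u2, u3⟩
    have h1 := (hxrun.none (m1 + j) (hlz _ (by omega) (by omega))).1 e
    rw [hxB j hj.le] at h1
    exact h1 ⟨u1, ⟨by omega, u2⟩, u3⟩
  · have h1 := hε2 0
    have h2 := hJadd r1 2
    have h3 := Nat.mul_le_mul_right S.ell h2
    rw [← hm1, Nat.add_mul] at h3
    simp only [Nat.mul_zero, Nat.add_zero] at h1
    omega
  · intro k _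
    have h1 := hε2 (k + 1)
    have h2 := hε3 k
    have h3 := Nat.mul_le_mul_right S.ell (hJadd (r1 + 2 + 2 * k) 2)
    rw [show r1 + 2 + 2 * k + 2 = r1 + 2 + 2 * (k + 1) by ring, Nat.add_mul] at h3
    rw [Nat.add_mul] at h2
    omega
  · have h2 := hε3 t
    have h3 := Nat.mul_le_mul_right S.ell (hJadd (r1 + 2 + 2 * t) 5)
    rw [show r1 + 2 + 2 * t + 5 = r1 + (2 * t + 7) by ring, ← hm2, Nat.add_mul, Nat.add_mul] at h3
    rw [Nat.add_mul] at h2
    omega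
  · intro y hy
    have h1 := (hMCp y hy).1
    refine ⟨hblk _, hblk _, fun h2 => ?_, h1⟩
    exact (hbl y (hMCp y hy).2.1 (hMC2 y hy)).2.1 ((hcs y h1).2 _ h2.symm)
  · intro y hy y' hy' hyy
    exact (hcs y' (hMCp y' hy').1).2 _ hyy
  · intro y hy
    obtain ⟨h3, -, h5, h6, -⟩ := hbl y (hMCp y hy).2.1 (hMC2 y hy)
    have h7 := (hgood y (hMCp y hy).2.1 (hMC2 y hy)).1
    have hmono := irun_mono hshp (by omega) h6
    have h8 := (hyoff y hy m1 (by omega)).2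
    have h9 := hsl (bl y)
    refine irun_congr ?_ (irun_shift m1 h6)
    intro j e he _
    have h10 := hmono (show m1 ≤ m1 + j by omega)
    refine and_iff_right ?_
    split_ifs <;> omega
  · intro y hy j hj
    obtain ⟨h3, -, h5, h6, -⟩ := hbl y (hMCp y hy).2.1 (hMC2 y hy)
    obtain ⟨h7, h8⟩ := hyoff y hy (m1 + j) (by omega)
    have h9 := hs (S.sage y) (hsl y).2.le
    have h10 := hsage y
    rw [(hcs y (hMCp y hy).1).1] at h10
    have h11 := hsage (bl y)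
    have h12 := hoff (bl y)
    rw [Nat.add_mul] at h7 h8
    simp only [Nat.mul_add]
    omega
  · intro y hy
    exact chain_shift m1 (hgood y (hMCp y hy).2.1 (hMC2 y hy)).2

end Crest.Agent.R320.Glue
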