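import Crest.Agent.R320.FineCase

namespace Crest.Agent.R320.Glue

variable {V : Type} [AddCommGroup V] {S : ISys V}

omit [AddCommGroup V] in
theorem irun_congr {E1 E2 : ℕ → Prop} {B : ℕ → ℕ} {pr : ℕ → Option ℕ}
    (h : ∀ m e, B m < e → S.usable (e - B m) → (E1 e ↔ E2 e)) (hr : S.IRun E1 B pr) :
    S.IRun E2 B pr := by
  have key : ∀ m e, S.Us E1 (B m) e ↔ S.Us E2 (B m) e := by
    intro m e
    constructor
    · rintro ⟨h1, h2, h3⟩; exact ⟨h1, (h m e h1 h3).1 h2, h3⟩
    · rintro ⟨h1, h2, h3⟩; exact ⟨h1, (h m e h1 h3).2 h2, h3⟩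
  constructor
  · intro m e he
    obtain ⟨h1, h2, h3⟩ := hr.some m e he
    exact ⟨(key m e).1 h1, fun e' he' hu => h2 e' he' ((key m e').2 hu), h3⟩
  · intro m he
    obtain ⟨h1, h2⟩ := hr.none m he
    exact ⟨fun e hu => h1 e ((key m e).2 hu), h2⟩

omit [AddCommGroup V] in
theorem irun_shift {E : ℕ → Prop} {B : ℕ → ℕ} {pr : ℕ → Option ℕ} (m1 : ℕ)
    (hr : S.IRun E B pr) : S.IRun E (fun j => B (m1 + j)) (fun j => pr (m1 + j)) :=
  ⟨fun m e he => hr.some (m1 + m) e he, fun m he => hr.none (m1 + m) he⟩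

theorem chain_shift {φ : ℕ → ℕ → V → V} {B : ℕ → ℕ} {pr : ℕ → Option ℕ} {tend : ℕ} (m1 : ℕ)
    (hc : S.Chain φ B pr tend) :
    S.Chain φ (fun j => B (m1 + j)) (fun j => pr (m1 + j)) tend := by
  obtain ⟨u, h1, h2⟩ := hc
  refine ⟨fun j => u (m1 + j), fun m e he hB => h1 (m1 + m) e he hB, ?_⟩
  intro m m' e e' hm he he' hj
  refine h2 (m1 + m) (m1 + m') e e' (by omega) he he' ?_
  intro j hj1 hj2
  have := hj (j - m1) (by omega) (by omega)
  simpa [show m1 + (j - m1) = j by omega] using this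

omit [AddCommGroup V] in
theorem irun_step {E : ℕ → Prop} {B : ℕ → ℕ} {pr : ℕ → Option ℕ} {p : ℕ}
    (hp : ∀ a, S.usable a → S.sh a < p) (hr : S.IRun E B pr) (m : ℕ) :
    B (m + 1) ≤ B m + S.ell ∧ B m + S.ell ≤ B (m + 1) + (if pr m ≠ none then p else 0) := by
  cases h : pr m with
  | none => have := (hr.none m h).2; simp; omega
  | some e =>
    obtain ⟨h1, -, h3⟩ := hr.some m e h
    have := hp _ h1.2.2
    simp; omega

omit [AddCommGroup V] in
theorem irun_off {E : ℕ → Prop} {B : ℕ → ℕ} {pr : ℕ → Option ℕ} {p : ℕ}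
    (hp : ∀ a, S.usable a → S.sh a < p) (hr : S.IRun E B pr) (m : ℕ) :
    B m ≤ B 0 + m * S.ell ∧
      B 0 + m * S.ell ≤ B m + p * ((Finset.range m).filter (fun j => pr j ≠ none)).card := by
  induction m with
  | zero => simp
  | succ m ih =>
    obtain ⟨h1, h2⟩ := irun_step hp hr m
    rw [Finset.range_add_one, Finset.filter_insert, Nat.succ_mul]
    split_ifs at h2 ⊢ with hm
    · rw [Finset.card_insert_of_notMem (by simp), Nat.mul_succ]; omega
    · omega

omit [AddCommGroup V] in
theorem irun_mono {E : ℕ → Prop} {B : ℕ → ℕ} {pr : ℕ → Option ℕ} {p : ℕ}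
    (hp : ∀ a, S.usable a → S.sh a < p) (hpl : p ≤ S.ell) (hr : S.IRun E B pr) : Monotone B := by
  apply monotone_nat_of_le_succ
  intro m
  have := (irun_step hp hr m).2
  split_ifs at this <;> omega

omit [AddCommGroup V] in
theorem np_le {E : ℕ → Prop} {B : ℕ → ℕ} {pr : ℕ → Option ℕ} {tend m : ℕ}
    (hp : ∀ a, S.usable a → a + S.sh a < S.ell) (hr : S.IRun E B pr) (Z : Finset ℕ)
    (hZ : ∀ e, E e → e ≤ tend → e ∈ Z) (hm : B m ≤ tend) :
    ((Finset.range m).filter (fun j => pr j ≠ none)).card ≤ Z.card := by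
  have hmono : Monotone B := irun_mono (p := S.ell) (fun a ha => by have := hp a ha; omega) le_rfl hr
  have key : ∀ j e, pr j = some e → E e ∧ B j < e ∧ e < B (j + 1) := by
    intro j e he
    obtain ⟨⟨h1, h2, h3⟩, -, h4⟩ := hr.some j e he
    have := hp _ h3
    exact ⟨h2, h1, by omega⟩
  apply Finset.card_le_card_of_injOn (fun j => (pr j).getD 0)
  · intro j hj
    simp only [Finset.coe_filter, Finset.mem_range, Set.mem_ofPred_eq] at hj
    obtain ⟨e, he⟩ := Option.ne_none_iff_exists'.1 hj.2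
    obtain ⟨h1, h2, h3⟩ := key j e he
    have := hmono (show j + 1 ≤ m by omega)
    simp only [he, Option.getD_some, Finset.mem_coe]
    exact hZ e h1 (by omega)
  · intro j hj j' hj' hjj
    simp only [Finset.coe_filter, Finset.mem_range, Set.mem_ofPred_eq] at hj hj'
    obtain ⟨e, he⟩ := Option.ne_none_iff_exists'.1 hj.2
    obtain ⟨e', he'⟩ := Option.ne_none_iff_exists'.1 hj'.2
    simp only [he, he', Option.getD_some] at hjj
    obtain ⟨h1, h2, h3⟩ := key j e he
    obtain ⟨h1', h2', h3'⟩ := key j' e' he'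
    by_contra hne
    rcases Nat.lt_or_gt_of_ne hne with h | h
    · have := hmono (show j + 1 ≤ j' by omega); omega
    · have := hmono (show j' + 1 ≤ j by omega); omega

open Classical in
theorem card_ev {E : ℕ → Prop} {n : ℕ} (hn : 0 < n)
    (hE : ∀ e e', E e → E e' → e < e' → e + n < e') (a l : ℕ) :
    ((Finset.Icc a (a + l)).filter E).card ≤ l / n + 1 := by
  rw [← Finset.card_range (l / n + 1)]
  apply Finset.card_le_card_of_injOn (fun e => (e - a) / n)
  · intro e he
    simp only [Finset.coe_filter, Finset.mem_Icc, Set.mem_ofPred_eq] at he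
    have : (e - a) / n ≤ l / n := Nat.div_le_div_right (by omega)
    simp only [Finset.coe_range, Set.mem_Iio]; omega
  · have key : ∀ e e', a ≤ e → e + n < e' → (e - a) / n < (e' - a) / n := by
      intro e e' h1 h2
      have : (e - a + n) / n ≤ (e' - a) / n := Nat.div_le_div_right (by omega)
      rw [Nat.add_div_right _ hn] at this; omega
    intro e he e' he' hee
    simp only [Finset.coe_filter, Finset.mem_Icc, Set.mem_ofPred_eq] at he he' hee
    by_contra hne
    rcases Nat.lt_or_gt_of_ne hne with h | h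
    · have := key e e' he.1.1 (hE e e' he.2 he'.2 h); omega
    · have := key e' e he'.1.1 (hE e' e he'.2 he.2 h); omega

theorem nt_infinite {E : ℕ → Prop} (hunb : ∀ c, ∃ e, c < e ∧ E e) (β0 : ℕ) {l : ℕ} (hl : 0 < l) :
    {m | NT E β0 l m}.Infinite := by
  apply Set.infinite_of_forall_exists_gt
  intro m
  obtain ⟨e, he, hE⟩ := hunb (β0 + (m + 1) * l)
  refine ⟨(e - β0) / l, ⟨e, hE, ?_, ?_⟩, ?_⟩
  · have := Nat.div_mul_le_self (e - β0) l; omega
  · have := Nat.lt_div_mul_add (a := e - β0) hl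
    rw [Nat.succ_mul]; omega
  · have : m + 1 ≤ (e - β0) / l := (Nat.le_div_iff_mul_le hl).2 (by omega)
    omega

theorem nth_add_le {P : ℕ → Prop} (hP : {m | P m}.Infinite) (r d : ℕ) :
    Nat.nth P r + d ≤ Nat.nth P (r + d) := by
  induction d with
  | zero => simp
  | succ d ih =>
    have : Nat.nth P (r + d) < Nat.nth P (r + (d + 1)) :=
      Nat.nth_strictMono hP (show r + d < r + (d + 1) by omega)
    omega

/-- All events up to the end of the `T`-th nontrivial cycle lie in a small finite set. -/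
theorem exists_Z {E : ℕ → Prop} {n : ℕ} (hn : 0 < n)
    (hE : ∀ e e', E e → E e' → e < e' → e + n < e') (hunb : ∀ c, ∃ e, c < e ∧ E e)
    {l : ℕ} (hl : 0 < l) (β β0 cs T : ℕ) (h1 : β0 ≤ cs) (h2 : cs ≤ β + 2 * l) :
    ∃ Z : Finset ℕ, Z.card ≤ (T + 3) * (l / n + 1) ∧ ∀ e, β < e →
      e ≤ β0 + Nat.nth (NT (fun e => cs < e ∧ E e) β0 l) T * l → E e → e ∈ Z := by
  classical
  set P := NT (fun e => cs < e ∧ E e) β0 l with hP
  have hinf : {m | P m}.Infinite := nt_infinite (fun c => by
    obtain ⟨e, he, hE⟩ := hunb (c + cs); exact ⟨e, by omega, by omega, hE⟩) β0 hl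
  let st : ℕ → ℕ := fun r => if r ≤ T then β0 + Nat.nth P r * l else β + (r - (T + 1)) * l
  refine ⟨(Finset.range (T + 3)).biUnion (fun r => (Finset.Icc (st r) (st r + l)).filter E), ?_, ?_⟩
  · have := Finset.card_biUnion_le_card_mul (Finset.range (T + 3))
      (fun r => (Finset.Icc (st r) (st r + l)).filter E) (l / n + 1)
      (fun r _ => card_ev hn hE _ _)
    simpa using this
  · intro e he1 he2 he3
    simp only [Finset.mem_biUnion, Finset.mem_range, Finset.mem_filter, Finset.mem_Icc]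
    by_cases hc : e ≤ β + l
    · exact ⟨T + 1, by omega, by simp [st]; omega, he3⟩
    by_cases hc2 : e ≤ β + 2 * l
    · refine ⟨T + 2, by omega, ?_, he3⟩
      have : T + 2 - (T + 1) = 1 := by omega
      simp [st, this]; omega
    have hm1 := Nat.div_mul_le_self (e - β0) l
    have hm2 := Nat.lt_div_mul_add (a := e - β0) hl
    have hPm : P ((e - β0) / l) :=
      ⟨e, ⟨by omega, he3⟩, by omega, by rw [Nat.succ_mul]; omega⟩
    have hle : (e - β0) / l ≤ Nat.nth P T := by
      apply Nat.div_le_of_le_mul; rw [Nat.mul_comm]; omega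
    have hcnt : Nat.count P ((e - β0) / l) ≤ T := (Nat.count_le_iff_le_nth hinf).2 hle
    refine ⟨Nat.count P ((e - β0) / l), by omega, ?_, he3⟩
    simp only [st, if_pos hcnt, Nat.nth_count hPm]
    omega

/-- A trajectory with few processed cycles has a long unprocessed stretch. -/
theorem exists_lazy {P : ℕ → Prop} (hP : {m | P m}.Infinite) (pr : ℕ → Option ℕ) (t t' : ℕ)
    (hc : ((Finset.range (Nat.nth P (6 + (t + 1) * t'))).filter (fun m => pr m ≠ none)).card ≤ t) :
    ∃ r1, 4 ≤ r1 ∧ r1 + t' + 2 ≤ 6 + (t + 1) * t' ∧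
      ∀ m, Nat.nth P r1 ≤ m → m < Nat.nth P (r1 + t') → pr m = none := by
  by_contra hcon
  push Not at hcon
  have key : ∀ s, s ≤ t + 1 →
      s ≤ ((Finset.range (Nat.nth P (4 + s * t'))).filter (fun m => pr m ≠ none)).card := by
    intro s
    induction s with
    | zero => simp
    | succ s ih =>
      intro hs
      have h1 : (s + 1) * t' ≤ (t + 1) * t' := Nat.mul_le_mul_right _ hs
      have h2 : (s + 1) * t' = s * t' + t' := Nat.succ_mul _ _
      obtain ⟨m, hm1, hm2, hm3⟩ := hcon (4 + s * t') (by omega) (by omega)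
      have hsub : insert m ((Finset.range (Nat.nth P (4 + s * t'))).filter
          (fun m => pr m ≠ none)) ⊆
          (Finset.range (Nat.nth P (4 + (s + 1) * t'))).filter (fun m => pr m ≠ none) := by
        intro x hx
        have e : 4 + (s + 1) * t' = 4 + s * t' + t' := by omega
        rw [e]
        simp only [Finset.mem_insert, Finset.mem_filter, Finset.mem_range] at hx ⊢
        rcases hx with rfl | hx
        · exact ⟨hm2, hm3⟩
        · exact ⟨by omega, hx.2⟩
      have := Finset.card_le_card hsub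
      rw [Finset.card_insert_of_notMem (by simp; omega)] at this
      have := ih (by omega)
      omega
  have h1 := key (t + 1) le_rfl
  have h2 : ((Finset.range (Nat.nth P (4 + (t + 1) * t'))).filter (fun m => pr m ≠ none)).card ≤
      ((Finset.range (Nat.nth P (6 + (t + 1) * t'))).filter (fun m => pr m ≠ none)).card := by
    apply Finset.card_le_card
    apply Finset.filter_subset_filter
    exact Finset.range_subset_range.2 ((Nat.nth_strictMono hP).monotone (by omega))
  omega

end Crest.Agent.R320.Glue
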