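import Crest.Agent.R320.Defs

namespace Crest.Agent.R320
open Crest.RegLang
universe u
variable {A : Type u}

theorem InH.mono {h h' : ℕ} {P : List A → Prop} (hh : h ≤ h') (hP : InH h P) : InH h' P := by
  obtain ⟨e, he, hP⟩ := hP
  exact ⟨e, he.trans hh, hP⟩

theorem InH.congr {h : ℕ} {P Q : List A → Prop} (e : ∀ w, P w ↔ Q w) (hP : InH h P) : InH h Q := by
  obtain ⟨x, hx, hP⟩ := hP
  exact ⟨x, hx, fun w => (hP w).trans (e w)⟩

theorem InH.not {h : ℕ} {P : List A → Prop} (hP : InH h P) : InH h (fun w => ¬ P w) := by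
  obtain ⟨e, he, hP⟩ := hP
  exact ⟨.not e, he, fun w => not_congr (hP w)⟩

theorem InH.const (h : ℕ) (p : Prop) : InH h (fun _ : List A => p) := by
  have h0 : InH h (fun _ : List A => False) := ⟨.zero, Nat.zero_le _, fun w => Iff.rfl⟩
  by_cases hp : p
  · exact h0.not.congr fun w => by simp [hp]
  · exact h0.congr fun w => by simp [hp]

theorem InH.or {h : ℕ} {P Q : List A → Prop} (hP : InH h P) (hQ : InH h Q) : InH h (fun w => P w ∨ Q w) := by
  obtain ⟨e, he, hP⟩ := hP
  obtain ⟨f, hf, hQ⟩ := hQ
  exact ⟨.union e f, max_le he hf, fun w => (Language.mem_add _ _ _).trans (or_congr (hP w) (hQ w))⟩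

theorem InH.and {h : ℕ} {P Q : List A → Prop} (hP : InH h P) (hQ : InH h Q) : InH h (fun w => P w ∧ Q w) :=
  (hP.not.or hQ.not).not.congr fun w => by tauto

theorem InH.iff {h : ℕ} {P Q : List A → Prop} (hP : InH h P) (hQ : InH h Q) : InH h (fun w => P w ↔ Q w) :=
  ((hP.and hQ).or (hP.not.and hQ.not)).congr fun w => by tauto

theorem InH.cat {h : ℕ} {P Q : List A → Prop} (hP : InH h P) (hQ : InH h Q) :
    InH h (fun w => ∃ u v, P u ∧ Q v ∧ w = u ++ v) := by
  obtain ⟨e, he, hP⟩ := hP
  obtain ⟨f, hf, hQ⟩ := hQ
  refine ⟨.cat e f, max_le he hf, fun w => Language.mem_mul.trans ⟨?_, ?_⟩⟩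
  · rintro ⟨u, hu, v, hv, rfl⟩
    exact ⟨u, v, (hP u).1 hu, (hQ v).1 hv, rfl⟩
  · rintro ⟨u, v, hu, hv, rfl⟩
    exact ⟨u, (hP u).2 hu, v, (hQ v).2 hv, rfl⟩

theorem InH.word (h : ℕ) (u : List A) : InH h (fun w => w = u) := by
  induction u with
  | nil => exact ⟨.eps, Nat.zero_le _, fun w => Language.mem_one w⟩
  | cons a u ih =>
    have h1 : InH h (fun w : List A => w = [a]) := ⟨.char a, Nat.zero_le _, fun w => Iff.rfl⟩
    refine (h1.cat ih).congr fun w => ⟨?_, ?_⟩
    · rintro ⟨_, _, rfl, rfl, rfl⟩; rfl
    · rintro rfl; exact ⟨[a], u, rfl, rfl, rfl⟩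

theorem InH.finite (h : ℕ) {P : List A → Prop} (hP : {w | P w}.Finite) : InH h P := by
  have : ∀ S : Set (List A), S.Finite → InH h (fun w => w ∈ S) := by
    intro S hS
    induction S, hS using Set.Finite.induction_on with
    | empty => exact (InH.const h False).congr fun w => by simp
    | @insert a s _ _ ih => exact ((InH.word h a).or ih).congr fun w => by simp
  exact this _ hP

namespace HeightAux

theorem star_iff {P : List A → Prop} {w : List A} :
    Star P w ↔ ∃ L : List (List A), w = L.flatten ∧ ∀ y ∈ L, P y := by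
  constructor
  · intro h
    induction h with
    | nil => exact ⟨[], rfl, by simp⟩
    | cons u v hu _ ih =>
      obtain ⟨L, rfl, hL⟩ := ih
      exact ⟨u :: L, rfl, by simpa using ⟨hu, hL⟩⟩
  · rintro ⟨L, rfl, hL⟩
    induction L with
    | nil => exact Star.nil
    | cons u L ih =>
      exact Star.cons u _ (hL u (by simp)) (ih fun y hy => hL y (by simp [hy]))

theorem star_append {P : List A → Prop} {u v : List A} (hu : Star P u) (hv : Star P v) :
    Star P (u ++ v) := by
  induction hu with
  | nil => exact hv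
  | cons a b ha _ ih => rw [List.append_assoc]; exact Star.cons _ _ ha ih

theorem star_single {P : List A → Prop} {u : List A} (hu : P u) : Star P u := by
  simpa using Star.cons u [] hu Star.nil

theorem star_cons_iff {P : List A → Prop} {a : A} {w : List A} :
    Star P (a :: w) ↔ ∃ u v, P (a :: u) ∧ Star P v ∧ w = u ++ v := by
  constructor
  · intro h
    generalize hx : a :: w = x at h
    induction h with
    | nil => cases hx
    | cons u v hu hv ih =>
      cases u with
      | nil => exact ih hx
      | cons b u =>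
        obtain ⟨rfl, rfl⟩ := List.cons.inj hx
        exact ⟨u, v, hu, hv, rfl⟩
  · rintro ⟨u, v, hu, hv, rfl⟩
    exact Star.cons (a :: u) v hu hv

theorem append_eq_snoc {u v w : List A} {a : A} (h : u ++ v = w ++ [a]) :
    (v = [] ∧ u = w ++ [a]) ∨ ∃ v', v = v' ++ [a] ∧ w = u ++ v' := by
  rcases List.eq_nil_or_concat' v with rfl | ⟨v', b, rfl⟩
  · exact Or.inl ⟨rfl, by simpa using h⟩
  · rw [← List.append_assoc] at h
    obtain ⟨h1, h2⟩ := List.append_inj' h rfl
    obtain rfl : b = a := by simpa using h2
    exact Or.inr ⟨v', rfl, h1.symm⟩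

theorem star_snoc_iff {P : List A → Prop} {a : A} {w : List A} :
    Star P (w ++ [a]) ↔ ∃ u v, Star P u ∧ P (v ++ [a]) ∧ w = u ++ v := by
  constructor
  · intro h
    generalize hx : w ++ [a] = x at h
    induction h generalizing w with
    | nil => simp at hx
    | cons u v hu hv ih =>
      rcases append_eq_snoc hx.symm with ⟨rfl, rfl⟩ | ⟨v', rfl, rfl⟩
      · exact ⟨[], w, Star.nil, hu, rfl⟩
      · obtain ⟨x, y, hx', hy, rfl⟩ := ih rfl
        exact ⟨u ++ x, y, Star.cons _ _ hu hx', hy, by rw [List.append_assoc]⟩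
  · rintro ⟨u, v, hu, hv, rfl⟩
    rw [List.append_assoc]
    exact star_append hu (star_single hv)

theorem mem_star {e : GRegExp A} {w : List A} :
    w ∈ (GRegExp.star e).lang ↔ Star (fun w => w ∈ e.lang) w :=
  Language.mem_kstar.trans star_iff.symm

theorem self (e : GRegExp A) : InH e.height fun w => w ∈ e.lang := ⟨e, le_rfl, fun _ => Iff.rfl⟩

theorem left (a : A) (e : GRegExp A) : InH e.height fun w => a :: w ∈ e.lang := by
  induction e with
  | zero => exact InH.const _ False
  | eps => exact (InH.const _ False).congr fun w => by simp [GRegExp.lang]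
  | char b =>
    refine ((InH.const 0 (a = b)).and (InH.word 0 [])).congr fun w => ?_
    exact (List.cons_eq_cons (a := a) (b := b) (l := w) (l' := [])).symm
  | union P Q hP hQ =>
    exact ((hP.mono (le_max_left _ _)).or (hQ.mono (le_max_right _ _))).congr fun w =>
      (Language.mem_add _ _ _).symm
  | cat P Q hP hQ =>
    refine (((hP.mono (le_max_left _ _)).cat ((self Q).mono (le_max_right _ _))).or
      ((InH.const _ ([] ∈ P.lang)).and (hQ.mono (le_max_right _ _)))).congr fun w => ?_
    refine Iff.trans ⟨?_, ?_⟩ Language.mem_mul.symm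
    · rintro (⟨u, v, hu, hv, rfl⟩ | ⟨h1, h2⟩)
      · exact ⟨a :: u, hu, v, hv, rfl⟩
      · exact ⟨[], h1, a :: w, h2, rfl⟩
    · rintro ⟨u, hu, v, hv, h⟩
      cases u with
      | nil => obtain rfl : v = a :: w := h; exact Or.inr ⟨hu, hv⟩
      | cons b u =>
        obtain ⟨rfl, rfl⟩ := List.cons.inj h
        exact Or.inl ⟨u, v, hu, hv, rfl⟩
  | not P hP => exact hP.not
  | star P hP =>
    refine ((hP.mono (Nat.le_succ _)).cat (self (.star P))).congr fun w => ?_
    simp only [mem_star, star_cons_iff]

theorem right (a : A) (e : GRegExp A) : InH e.height fun w => w ++ [a] ∈ e.lang := by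
  induction e with
  | zero => exact InH.const _ False
  | eps => exact (InH.const _ False).congr fun w => by simp [GRegExp.lang]
  | char b =>
    refine ((InH.const 0 (a = b)).and (InH.word 0 [])).congr fun w => ?_
    change _ ↔ w ++ [a] = [b]
    constructor
    · rintro ⟨rfl, rfl⟩; rfl
    · intro h
      obtain ⟨h1, h2⟩ := List.append_inj' (show w ++ [a] = [] ++ [b] from h) rfl
      exact ⟨by simpa using h2, h1⟩
  | union P Q hP hQ =>
    exact ((hP.mono (le_max_left _ _)).or (hQ.mono (le_max_right _ _))).congr fun w =>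
      (Language.mem_add _ _ _).symm
  | cat P Q hP hQ =>
    refine ((((self P).mono (le_max_left _ _)).cat (hQ.mono (le_max_right _ _))).or
      ((InH.const _ ([] ∈ Q.lang)).and (hP.mono (le_max_left _ _)))).congr fun w => ?_
    refine Iff.trans ⟨?_, ?_⟩ Language.mem_mul.symm
    · rintro (⟨u, v, hu, hv, rfl⟩ | ⟨h1, h2⟩)
      · exact ⟨u, hu, v ++ [a], hv, (List.append_assoc _ _ _).symm⟩
      · exact ⟨w ++ [a], h2, [], h1, List.append_nil _⟩
    · rintro ⟨u, hu, v, hv, h⟩
      rcases append_eq_snoc h with ⟨rfl, rfl⟩ | ⟨v', rfl, rfl⟩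
      · exact Or.inr ⟨hv, hu⟩
      · exact Or.inl ⟨u, v', hu, hv, rfl⟩
  | not P hP => exact hP.not
  | star P hP =>
    refine ((self (.star P)).cat (hP.mono (Nat.le_succ _))).congr fun w => ?_
    simp only [mem_star, star_snoc_iff]

theorem star_len {M : ℕ} {w : List A} : Star (fun w : List A => w.length = M) w → M ∣ w.length := by
  intro h
  induction h with
  | nil => simp
  | cons u v hu _ ih => rw [List.length_append, hu]; exact dvd_add dvd_rfl ih

theorem star_of_len {M : ℕ} (k : ℕ) (w : List A) (h : w.length = k * M) :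
    Star (fun w : List A => w.length = M) w := by
  induction k generalizing w with
  | zero =>
    obtain rfl : w = [] := List.eq_nil_of_length_eq_zero (by simpa using h)
    exact Star.nil
  | succ k ih =>
    rw [← List.take_append_drop M w]
    rw [Nat.succ_mul] at h
    exact Star.cons _ _ (by simp; omega) (ih _ (by simp; omega))

end HeightAux

open HeightAux

theorem InH.star {h : ℕ} {P : List A → Prop} (hP : InH h P) : InH (h + 1) (Star P) := by
  obtain ⟨e, he, hP⟩ := hP
  refine ⟨.star e, Nat.succ_le_succ he, fun w => mem_star.trans ?_⟩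
  rw [show (fun w => w ∈ e.lang) = P from funext fun w => propext (hP w)]

theorem InH.exists_fin {h : ℕ} {ι : Type*} [Finite ι] {P : ι → List A → Prop}
    (hP : ∀ i, InH h (P i)) : InH h (fun w => ∃ i, P i w) := by
  have : ∀ S : Set ι, S.Finite → InH h (fun w => ∃ i ∈ S, P i w) := by
    intro S hS
    induction S, hS using Set.Finite.induction_on with
    | empty => exact (InH.const h False).congr fun w => by simp
    | @insert a s _ _ ih => exact ((hP a).or ih).congr fun w => by simp
  exact (this Set.univ Set.finite_univ).congr fun w => by simp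

theorem InH.forall_fin {h : ℕ} {ι : Type*} [Finite ι] {P : ι → List A → Prop}
    (hP : ∀ i, InH h (P i)) : InH h (fun w => ∀ i, P i w) :=
  (InH.exists_fin fun i => (hP i).not).not.congr fun w => by simp

theorem InH.quot {h : ℕ} {P : List A → Prop} (hP : InH h P) (u v : List A) :
    InH h (fun w => P (u ++ w ++ v)) := by
  have h1 : ∀ {P : List A → Prop} (a : A), InH h P → InH h fun w => P (a :: w) := by
    rintro P a ⟨e, he, hP⟩
    exact ((left a e).mono he).congr fun w => hP _
  have h2 : ∀ {P : List A → Prop} (a : A), InH h P → InH h fun w => P (w ++ [a]) := by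
    rintro P a ⟨e, he, hP⟩
    exact ((right a e).mono he).congr fun w => hP _
  have h3 : ∀ (u : List A) {P : List A → Prop}, InH h P → InH h fun w => P (u ++ w) := by
    intro u
    induction u with
    | nil => exact fun hP => hP
    | cons a u ih => exact fun hP => ih (h1 a hP)
  have h4 : ∀ (v : List A), InH h fun w => P (w ++ v) := by
    intro v
    induction v with
    | nil => exact hP.congr fun w => by simp
    | cons a v ih => exact (h2 a ih).congr fun w => by simp
  exact h3 u (h4 v)

theorem InH.lenmod [Finite A] {h : ℕ} (hh : 1 ≤ h) (M r : ℕ) :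
    InH h (fun w : List A => w.length % M = r) := by
  have hl : ∀ k n : ℕ, InH k (fun w : List A => w.length = n) := fun k n =>
    InH.finite k (List.finite_length_eq A n)
  rcases Nat.eq_zero_or_pos M with rfl | hM
  · exact (hl h r).congr fun w => by simp
  by_cases hr : r < M
  · refine ((hl h r).cat ((hl 0 M).star.mono hh)).congr fun w => ⟨?_, ?_⟩
    · rintro ⟨u, v, hu, hv, rfl⟩
      obtain ⟨k, hk⟩ := star_len hv
      rw [List.length_append, hu, hk, Nat.add_mul_mod_self_left, Nat.mod_eq_of_lt hr]
    · intro hw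
      have h1 := Nat.mod_add_div w.length M
      refine ⟨w.take r, w.drop r, by simp; omega, star_of_len (w.length / M) _ ?_,
        (List.take_append_drop r w).symm⟩
      rw [List.length_drop, Nat.mul_comm]; omega
  · exact (InH.const h False).congr fun w => by
      have := Nat.mod_lt w.length hM
      simp; omega

end Crest.Agent.R320
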