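import Crest.Agent.R320.Kill
import Crest.Agent.R320.Geo
import Crest.Agent.R320.Glue

namespace Crest.Agent.R320

theorem exists_isys (V : Type) [AddCommGroup V] [Finite V] (L : ℕ) : ∃ n : ℕ, ∀ k Q0 : ℕ,
    0 < k → 0 < Q0 → ∃ S : ISys V, S.Good L n k Q0 := by
  classical
  obtain ⟨z, t, cc, c2, w, Sg, lh, T, Gn, cf, c1, R, p1, p2, Sp, hz, ht, hcc, hc2, hw, hSg, hlh,
    hT, hGn, hcf, hc1, hR, hp2, hp1, hSp, hF⟩ := Geo.exists_params (Nat.card V) L
  obtain ⟨p, hp⟩ : ∃ p, p = p1 * p2 := ⟨_, rfl⟩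
  rw [← hp] at hSp hF
  have hp1pos : 2 * R + 1 ≤ p1 := by omega
  have hp2pos : lh + 1 ≤ p2 := by omega
  have hpp1 : p1 ≤ p := by rw [hp]; exact Nat.le_mul_of_pos_right _ (by omega)
  have hppos : 0 < p := by omega
  refine ⟨8 * (p * (T + 3)) * lh + Sp, fun k Q0 hk hQ0 => ?_⟩
  obtain ⟨n, hn⟩ : ∃ n, n = 8 * (p * (T + 3)) * lh + Sp := ⟨_, rfl⟩
  rw [← hn]
  obtain ⟨h0, hh0⟩ : ∃ h0, h0 = 2 * (p + 2 * R + p * (T + 3)) + Sp + p + R + k := ⟨_, rfl⟩
  obtain ⟨h, hh⟩ : ∃ h, h = p * Q0 * h0 := ⟨_, rfl⟩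
  have hh0h : h0 ≤ h := by rw [hh]; exact Nat.le_mul_of_pos_left _ (Nat.mul_pos hppos hQ0)
  have hhpos : 0 < h := by omega
  obtain ⟨Site, hfin, blk, off, scnt, sflag, hblk, hoff, hcs, hsid, hF1, hF2⟩ :=
    Geo.exists_sites L c1 c2
  rw [← hw] at hblk
  rw [← hR] at hoff
  obtain ⟨Nh, hNh⟩ : ∃ Nh : ℕ → ℕ, ∀ a, Nh a = 2 * Sg + 1 + Geo.b3 w a := ⟨_, fun _ => rfl⟩
  have hN : ∀ a, a < w → 2 * Sg + 1 ≤ Nh a ∧ Nh a ≤ 3 * Sg + 1 := by
    intro a ha
    have := Geo.b3_mono w ha.le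
    rw [hNh]; omega
  obtain ⟨usable, huse⟩ : ∃ usable : ℕ → Prop, ∀ a, usable a ↔ a / h < 4 * lh ∧
      ∀ M, (M = 0 ∨ M = lh ∨ ∃ b, b < w ∧ M = Nh b) → a / h ≠ 4 * M ∧ a / h + 1 ≠ 4 * M :=
    ⟨_, fun _ => Iff.rfl⟩
  obtain ⟨sg, hsg⟩ : ∃ sg : ℕ → ℕ, ∀ a, sg a = (a / h + 2) / 4 := ⟨_, fun _ => rfl⟩
  obtain ⟨SU, hSUc, hSU0, hSU1, hSU2⟩ : ∃ SU : Finset ℕ, SU.card ≤ 4 * lh * p + 4 * lh * Sp + 1 ∧
      4 * lh * h ∈ SU ∧ (∀ κ v, κ < 4 * lh → v < p → κ * h + v ∈ SU) ∧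
      ∀ κ v, κ < 4 * lh → v < Sp → κ * h + (h - Sp) + v ∈ SU := by
    refine ⟨insert (4 * lh * h)
      ((Finset.range (4 * lh) ×ˢ Finset.range p).image (fun x => x.1 * h + x.2) ∪
       (Finset.range (4 * lh) ×ˢ Finset.range Sp).image (fun x => x.1 * h + (h - Sp) + x.2)),
      ?_, Finset.mem_insert_self _ _, ?_, ?_⟩
    · refine (Finset.card_insert_le _ _).trans (Nat.add_le_add_right ?_ 1)
      refine (Finset.card_union_le _ _).trans (Nat.add_le_add ?_ ?_)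
      · exact Finset.card_image_le.trans (by simp)
      · exact Finset.card_image_le.trans (by simp)
    · intro κ v h1 h2
      refine Finset.mem_insert_of_mem (Finset.mem_union_left _ ?_)
      exact Finset.mem_image.2 ⟨(κ, v), by simp [h1, h2], rfl⟩
    · intro κ v h1 h2
      refine Finset.mem_insert_of_mem (Finset.mem_union_right _ ?_)
      exact Finset.mem_image.2 ⟨(κ, v), by simp [h1, h2], rfl⟩
  obtain ⟨Θ, hΘ, hfine, hcoarse⟩ := exists_theta V usable sg (fun g => g / (2 * (4 * lh))) SU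
    z t cf cc Gn R Sg lh p1 p2 hz (by omega) (by omega) (by omega) (by omega) (by omega)
    (by omega) (by omega) (by omega) (by omega) (by omega) (by omega) (by omega) (by omega)
  rw [← hp] at hfine hcoarse
  have hshp : ∀ a, usable a → sg a + p2 * (Θ (sg a) (a % p)).2 < p := by
    intro a ha
    have h1 := ((huse a).1 ha).1
    have h2 : sg a ≤ lh := by rw [hsg]; omega
    have h3 : p2 * ((Θ (sg a) (a % p)).2 + 1) ≤ p2 * p1 := Nat.mul_le_mul_left _ (hΘ _ _)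
    rw [Nat.mul_comm p2 p1, Nat.mul_succ] at h3
    omega
  have hHN : ∀ a, a < w → 4 * h ≤ 4 * h * Nh a ∧ 4 * h * Nh a + 8 * h ≤ 4 * lh * h := by
    intro a ha
    obtain ⟨h1, h2⟩ := hN a ha
    have e1 : 4 * h * 1 ≤ 4 * h * Nh a := Nat.mul_le_mul_left _ (by omega)
    have e2 : 4 * h * (Nh a + 2) ≤ 4 * h * lh := Nat.mul_le_mul_left _ (by omega)
    have e3 : 4 * h * (Nh a + 2) = 4 * h * Nh a + 8 * h := by ring
    have e4 : 4 * h * lh = 4 * lh * h := by ring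
    omega
  let S : ISys V :=
    { ell := 4 * lh * h
      usable := usable
      gam := fun a => (Θ (sg a) (a % p)).1
      sh := fun a => sg a + p2 * (Θ (sg a) (a % p)).2
      Site := Site
      sage := fun s => 4 * h * Nh (blk s) + off s
      sflag := sflag
      scnt := scnt
      Tev := (T + 3) * (4 * lh * h / n + 1) }
  refine ⟨S, hfin, ?_, ?_, ?_, ?_, ?_, ?_⟩
  · exact Nat.mul_pos (by omega) hhpos
  · show Q0 ∣ 4 * lh * h
    rw [hh]; exact Dvd.dvd.mul_left (Dvd.dvd.mul_right (Dvd.intro_left _ rfl) _) _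
  · intro a ha
    have h0 := hshp a ha
    obtain ⟨h1, h2⟩ := (huse a).1 ha
    have h3 := (h2 0 (Or.inl rfl)).1
    have h4 := (h2 lh (Or.inr (Or.inl rfl))).2
    have h5 : 1 ≤ a / h := Nat.pos_of_ne_zero (by simpa using h3)
    have h6 : (a + h) / h < 4 * lh := by rw [Nat.add_div_right _ hhpos]; omega
    rw [Nat.le_div_iff_mul_le hhpos] at h5
    rw [Nat.div_lt_iff_lt_mul hhpos] at h6
    refine ⟨by omega, by simp only [S]; omega, fun s => ?_⟩
    obtain ⟨h7, h8⟩ := h2 (Nh (blk s)) (Or.inr (Or.inr ⟨blk s, hblk s, rfl⟩))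
    have h9 := hoff s
    simp only [S]
    rcases Nat.lt_or_gt_of_ne h7 with h10 | h10
    · right
      have h11 : (a + h) / h < 4 * Nh (blk s) := by rw [Nat.add_div_right _ hhpos]; omega
      rw [Nat.div_lt_iff_lt_mul hhpos] at h11
      have e1 : 4 * Nh (blk s) * h = 4 * h * Nh (blk s) := by ring
      omega
    · left
      have h11 : 4 * Nh (blk s) + 1 ≤ a / h := h10
      rw [Nat.le_div_iff_mul_le hhpos] at h11
      have e1 : (4 * Nh (blk s) + 1) * h = 4 * h * Nh (blk s) + h := by ring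
      omega
  · intro s
    have := hHN _ (hblk s)
    simp only [S]; omega
  · intro s
    have := hHN _ (hblk s)
    have := hoff s
    simp only [S]; omega
  · intro E φ β ar i hE hunb hβ har hi
    refine Glue.bt_glue S Θ sg L h p p2 Sg lh w t cc cf c1 c2 R T Sp n Nh SU blk off (L * c2)
      rfl hlh hppos ?_ (by omega) (by omega) (by omega) hN ?_ ?_ huse hsg (fun _ => rfl)
      (fun _ => rfl) hshp hSU0 hSU1 hSU2 (by rw [← hGn]; exact hfine) hcoarse (fun _ => rfl)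
      hblk hoff hcs hsid hF1 hF2 (by omega) (by rw [← hGn]; omega) (by omega) hT rfl ?_
      E φ β ar i hE hunb hβ har hi
    · rw [hh]; exact Dvd.dvd.mul_right (Dvd.intro _ rfl) _
    · intro a b hab
      have := Geo.b3_strict w hab
      rw [hNh, hNh]; omega
    · intro a b c a' b' c' h1 h2 h3 h4 h5 h6 h7
      simp only [hNh] at h7
      exact Geo.b3_prop w a b c a' b' c' h1 h2 h3 h4 h5 h6 (by omega)
    · show p + 2 * R + p * ((T + 3) * (4 * lh * h / n + 1)) ≤ h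
      have h1 : 4 * lh * h / n * n ≤ 4 * lh * h := Nat.div_mul_le_self _ _
      have h2 : 4 * lh * h / n * (8 * (p * (T + 3)) * lh) ≤ 4 * lh * h / n * n :=
        Nat.mul_le_mul_left _ (by omega)
      have h3 : 4 * lh * (2 * (p * (T + 3) * (4 * lh * h / n))) ≤ 4 * lh * h := by
        calc _ = 4 * lh * h / n * (8 * (p * (T + 3)) * lh) := by ring
          _ ≤ _ := h2.trans h1
      have h4 := Nat.le_of_mul_le_mul_left h3 (by omega)
      have h5 : p * ((T + 3) * (4 * lh * h / n + 1)) =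
          p * (T + 3) * (4 * lh * h / n) + p * (T + 3) := by ring
      omega

end Crest.Agent.R320
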