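import Crest.Agent.R320.KillAux2

/-!
Row 320: the coarse blockers die for most tables.
-/

set_option autoImplicit false

namespace Crest.Agent.R320.KillAux

open Finset

variable {V : Type} [AddCommGroup V]

theorem coarse_congr {Θ : ℕ → ℕ → V × ℕ} {p p2 S t : ℕ} {base base' Δ Δ' : ℕ → ℕ}
    {mp mp' : ℕ → V → V} (hb : ∀ k < t, base k = base' k) (hΔ : ∀ k < t, Δ k ≡ Δ' k [MOD p])
    (hmp : ∀ k < t, mp k = mp' k) (d r : ℕ) :
    ∀ k a a' u, k + r ≤ t → a ≡ a' [MOD p] → CoarseSurv Θ p p2 S base Δ mp d r k a u →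
      CoarseSurv Θ p p2 S base' Δ' mp' d r k a' u := by
  induction r with
  | zero => intro k a a' u _ _ _; exact coarseSurv_zero ..
  | succ r ih =>
    intro k a a' u hk ha h
    rw [coarseSurv_succ] at h ⊢
    have hkt : k < t := by omega
    have ha' : a % p = a' % p := ha
    rw [← hb k hkt, ← hmp k hkt, ← ha']
    exact ⟨h.1, ih _ _ _ _ (by omega) ((ha.add_right _).add (hΔ k hkt)) h.2⟩

/-- the age (up to multiples of `p2`) of a coarse blocker at round `k` -/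
def lab (S : ℕ) (base Δ : ℕ → ℕ) (d a k : ℕ) : ℕ := a + ∑ l ∈ range k, (base l + d - 2 * S + Δ l)

/-- all table zones are distinct -/
def Valid (n p2 S : ℕ) (base Δ d a0 : ℕ → ℕ) (c t : ℕ) : Prop :=
  ∀ b < c, ∀ b' < c, ∀ k < t, ∀ k' < t, base k + d b - 2 * S ≡ base k' + d b' - 2 * S [MOD n] →
    lab S base Δ (d b) (a0 b) k ≡ lab S base Δ (d b') (a0 b') k' [MOD p2] → b = b' ∧ k = k'

theorem lab_congr {p S t : ℕ} {base base' Δ Δ' : ℕ → ℕ} (hb : ∀ k < t, base k = base' k)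
    (hΔ : ∀ k < t, Δ k ≡ Δ' k [MOD p]) (d : ℕ) {a a' : ℕ} (ha : a ≡ a' [MOD p]) :
    ∀ k ≤ t, lab S base Δ d a k ≡ lab S base' Δ' d a' k [MOD p] := by
  intro k
  induction k with
  | zero => intro _; simpa [lab] using ha
  | succ k ih =>
    intro hk
    have h1 := ih (by omega)
    unfold lab at h1 ⊢
    rw [sum_range_succ, sum_range_succ, ← add_assoc, ← add_assoc a', hb k (by omega)]
    exact h1.add ((Nat.ModEq.refl _).add (hΔ k (by omega)))

theorem coarse_kill [Fintype V] {n p1 p2 : ℕ} (hn : 0 < n) (hp : 0 < p1 * p2) (S : ℕ)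
    (base Δ : ℕ → ℕ) (mp : ℕ → V → V) (d a0 : ℕ → ℕ) (c t : ℕ)
    (hV : Valid n p2 S base Δ d a0 c t) :
    pr (fun θ : Fin n × Fin (p1 * p2) → V × Fin p1 => ∀ b < c, ∃ u,
      CoarseSurv (tab hn hp θ) (p1 * p2) p2 S base Δ mp (d b) t 0 (a0 b) u) ≤
      (2 ^ Fintype.card V * (1 - 1 / (2 * Fintype.card V)) ^ t) ^ c := by
  classical
  have hp1 : 0 < p1 := Nat.pos_of_mul_pos_right hp
  have : Nonempty (Fin p1) := ⟨⟨0, hp1⟩⟩
  let idx : ℕ × ℕ × ℕ → Fin n × Fin (p1 * p2) := fun st =>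
    ix hn hp (base st.2.1 + d st.1 - 2 * S) (st.2.2 % (p1 * p2))
  let tr : ℕ × ℕ × ℕ → Fin p1 → ℕ × ℕ × ℕ → Prop := fun st δ st' =>
    st' = (st.1, st.2.1 + 1, st.2.2 + ((base st.2.1 + d st.1 - 2 * S) + p2 * δ.val + Δ st.2.1))
  let Old : ℕ → ℕ → Finset (Fin n × Fin (p1 * p2)) → Prop := fun b k U =>
    ∀ i ∈ U, ∃ b' k' a, k' < t ∧ (b' < b ∨ b' = b ∧ k' < k) ∧
      a ≡ lab S base Δ (d b') (a0 b') k' [MOD p2] ∧ i = idx (b', k', a)
  have key := kill_core (V := V) idx tr (fun st _ => mp st.2.1)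
    (fun st δ s s' h h' => h.trans h'.symm) c t 0 (fun b => (b, 0, a0 b))
    (fun b k st U => st.1 = b ∧ st.2.1 = k ∧ st.2.2 ≡ lab S base Δ (d b) (a0 b) k [MOD p2] ∧
      Old b k U)
    (fun _ => ⟨rfl, rfl, by simp [lab, Nat.ModEq], fun i hi => absurd hi (notMem_empty _)⟩)
    (by
      rintro _ _ ⟨b, k, a⟩ U hb hk ⟨rfl, rfl, h1, h2⟩ hU
      obtain ⟨b', k', a', h3, h4, h5, h6⟩ := h2 _ hU
      obtain ⟨h7, h8⟩ := (ix_eq_iff hn hp).1 h6
      have h9 : a ≡ a' [MOD p2] := Nat.ModEq.of_mul_left p1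
        ((Nat.mod_modEq _ _).symm.trans (h8.trans (Nat.mod_modEq _ _)))
      have := hV b hb b' (by simp only at h4 hb; omega) k hk k' h3 h7
        (h1.symm.trans (h9.trans h5))
      simp only at h4
      omega)
    (fun b st U _ h => ⟨rfl, rfl, by simp [lab, Nat.ModEq], fun i hi => by
      obtain ⟨b', k', a', h3, h4, h5⟩ := h.2.2.2 i hi
      exact ⟨b', k', a', h3, Or.inl (by omega), h5⟩⟩)
    (by
      rintro _ _ ⟨b, k, a⟩ U hb hk ⟨rfl, rfl, h1, h2⟩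
      refine ⟨rfl, rfl, by simp [lab, Nat.ModEq], fun i hi => ?_⟩
      rcases mem_insert.1 hi with rfl | hi
      · exact ⟨b, k, a, hk, Or.inl (Nat.lt_succ_self _), h1, rfl⟩
      · obtain ⟨b', k', a', h3, h4, h5⟩ := h2 i hi
        exact ⟨b', k', a', h3, Or.inl (by simp only at h4 ⊢; omega), h5⟩)
    (by
      rintro _ _ ⟨b, k, a⟩ U hb hk ⟨rfl, rfl, h1, h2⟩ B hB
      rw [Nat.le_zero, card_eq_zero, eq_empty_iff_forall_notMem]
      intro δ hδ
      obtain ⟨st', rfl, h3⟩ := hB δ hδ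
      refine h3 ⟨rfl, rfl, ?_, fun i hi => ?_⟩
      · unfold lab at h1 ⊢
        rw [sum_range_succ, ← add_assoc (a0 _)]
        refine h1.add (Nat.ModEq.add_right _ ?_)
        simp [Nat.ModEq]
      · rcases mem_insert.1 hi with rfl | hi
        · exact ⟨b, k, a, hk, Or.inr ⟨rfl, Nat.lt_succ_self _⟩, h1, rfl⟩
        · obtain ⟨b', k', a', h3, h4, h5⟩ := h2 i hi
          exact ⟨b', k', a', h3, by simp only at h4 ⊢; omega, h5⟩)
  rw [Nat.cast_zero, mul_zero, zero_div, zero_add] at key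
  refine le_trans (pr_mono fun θ h b hb => ?_) key
  obtain ⟨u, hu⟩ := h b hb
  refine ⟨u, ?_⟩
  have conv : ∀ r k a u, CoarseSurv (tab hn hp θ) (p1 * p2) p2 S base Δ mp (d b) r k a u →
      surv idx tr (fun st _ => mp st.2.1) θ r (b, k, a) u := by
    intro r
    induction r with
    | zero => intro k a u _; trivial
    | succ r ih =>
      intro k a u h
      rw [coarseSurv_succ] at h
      rw [add_assoc a] at h
      exact ⟨h.1, _, rfl, ih _ _ _ h.2⟩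
  exact conv _ _ _ _ hu

theorem lab_diff (S : ℕ) (base Δ : ℕ → ℕ) (t d d' a a' : ℕ) (h : ∀ k ≤ t, 2 * S ≤ base k + d)
    (h' : ∀ k ≤ t, 2 * S ≤ base k + d') : ∀ k ≤ t,
    (lab S base Δ d a k : ℤ) - lab S base Δ d' a' k = a - a' + k * ((d : ℤ) - d') := by
  intro k
  induction k with
  | zero => intro _; simp [lab]
  | succ k ih =>
    intro hk
    have h1 := ih (by omega)
    unfold lab at h1 ⊢
    rw [sum_range_succ, sum_range_succ]
    push_cast [Nat.cast_sub (h k (by omega)), Nat.cast_sub (h' k (by omega))] at h1 ⊢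
    linear_combination h1

theorem exists_subfamily {p2 S t cc c0 : ℕ} (hp2 : 4 * S * t < p2) (hcc : c0 + (t + 1) ^ 2 ≤ cc)
    (base Δ : ℕ → ℕ) (d a0 : Fin cc → ℕ) (hd : ∀ b, d b ≤ 4 * S) (hinj : Function.Injective d)
    (hS : ∀ b k, k ≤ t → 2 * S ≤ base k + d b) :
    ∃ e : Fin c0 → Fin cc, Function.Injective e ∧ ∀ b, ∀ k ≤ t, ∀ k' ≤ t,
      lab S base Δ (d (e b)) (a0 (e b)) k ≡ lab S base Δ (d (e b)) (a0 (e b)) k' [MOD p2] →
        k = k' := by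
  classical
  let Bad : ℕ × ℕ → Finset (Fin cc) := fun x => univ.filter fun b => x.1 < x.2 ∧ x.2 ≤ t ∧
    lab S base Δ (d b) (a0 b) x.1 ≡ lab S base Δ (d b) (a0 b) x.2 [MOD p2]
  have hBad : ∀ x, (Bad x).card ≤ 1 := by
    rintro ⟨k, k'⟩
    refine card_le_one.2 fun b hb b' hb' => hinj ?_
    obtain ⟨h1, h2, h3⟩ := (mem_filter.1 hb).2
    obtain ⟨-, -, h4⟩ := (mem_filter.1 hb').2
    simp only at h1 h2 h3 h4
    have e1 := lab_diff S base Δ t (d b) (d b') (a0 b) (a0 b') (hS b) (hS b') k (by omega)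
    have e2 := lab_diff S base Δ t (d b) (d b') (a0 b) (a0 b') (hS b) (hS b') k' h2
    have h5 := (Nat.modEq_iff_dvd.1 h3).sub (Nat.modEq_iff_dvd.1 h4)
    have e3 : (lab S base Δ (d b) (a0 b) k' : ℤ) - lab S base Δ (d b) (a0 b) k -
        (lab S base Δ (d b') (a0 b') k' - lab S base Δ (d b') (a0 b') k) =
        ((k' : ℤ) - k) * ((d b : ℤ) - d b') := by linear_combination e2 - e1
    rw [e3] at h5
    have h6 : |((k' : ℤ) - k) * ((d b : ℤ) - d b')| < p2 := by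
      rw [abs_mul]
      have h7 : |(k' : ℤ) - k| ≤ t := by rw [abs_le]; omega
      have h8 : |(d b : ℤ) - d b'| ≤ 4 * S := by
        have := hd b; have := hd b'
        rw [abs_le]; omega
      have h9 : ((4 * S * t : ℕ) : ℤ) < p2 := by exact_mod_cast hp2
      push_cast at h9
      calc _ ≤ (t : ℤ) * (4 * S) := mul_le_mul h7 h8 (abs_nonneg _) (by positivity)
        _ < p2 := by linarith
    have h7 := Int.eq_zero_of_abs_lt_dvd h5 h6
    rcases mul_eq_zero.1 h7 with h | h <;> omega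
  set A := (range (t + 1) ×ˢ range (t + 1)).biUnion Bad with hA
  have hAc : A.card ≤ (t + 1) ^ 2 := by
    refine (card_biUnion_le_card_mul _ _ 1 fun x _ => hBad x).trans ?_
    simp [sq]
  have hc : c0 ≤ Aᶜ.card := by
    rw [card_compl, Fintype.card_fin]
    omega
  refine ⟨orderEmbOfCardLe _ hc, (orderEmbOfCardLe _ hc).injective, fun b k hk k' hk' h => ?_⟩
  have hb := mem_compl.1 (orderEmbOfCardLe_mem _ hc b)
  rcases lt_trichotomy k k' with h1 | h1 | h1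
  · exact absurd (mem_biUnion.2 ⟨(k, k'), by simp; omega,
      mem_filter.2 ⟨mem_univ _, h1, hk', h⟩⟩) hb
  · exact h1
  · exact absurd (mem_biUnion.2 ⟨(k', k), by simp; omega,
      mem_filter.2 ⟨mem_univ _, h1, hk, h.symm⟩⟩) hb

theorem coarse_bad [Fintype V] {lh p1 p2 : ℕ} (hp : 0 < p1 * p2) (z t cc S : ℕ) (hz : 1 ≤ z)
    (hK : Fintype.card V ^ Fintype.card V ≤ 2 ^ z) (hlh : lh + 1 ≤ 2 ^ z) (hpz : p1 * p2 ≤ 2 ^ z)
    (hS : 4 * S + 1 ≤ 2 ^ z) (ht : 2 * Fintype.card V * (3 * z + Fintype.card V) ≤ t)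
    (hp2 : 4 * S * t < p2) (hcc : 3 * t + 5 + (t + 1) ^ 2 ≤ cc) :
    pr (fun θ : Fin (lh + 1) × Fin (p1 * p2) → V × Fin p1 =>
      ¬ CoarseGood (tab lh.succ_pos hp θ) (p1 * p2) p2 S lh t cc) ≤ 1 / 4 := by
  classical
  let P : Type := (Fin t → Fin (lh + 1)) × (Fin t → Fin (p1 * p2)) × (Fin t → V → V) ×
    (Fin (3 * t + 5) → Fin (4 * S + 1)) × (Fin (3 * t + 5) → Fin (p1 * p2))
  let E : P → (Fin (lh + 1) × Fin (p1 * p2) → V × Fin p1) → Prop := fun π θ =>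
    Valid (lh + 1) p2 S (ext (fun k => (π.1 k : ℕ)) 0) (ext (fun k => (π.2.1 k : ℕ)) 0)
      (ext (fun b => (π.2.2.2.1 b : ℕ)) 0) (ext (fun b => (π.2.2.2.2 b : ℕ)) 0) (3 * t + 5) t ∧
    ∀ b < 3 * t + 5, ∃ u, CoarseSurv (tab lh.succ_pos hp θ) (p1 * p2) p2 S
      (ext (fun k => (π.1 k : ℕ)) 0) (ext (fun k => (π.2.1 k : ℕ)) 0) (ext π.2.2.1 id)
      (ext (fun b => (π.2.2.2.1 b : ℕ)) 0 b) t 0 (ext (fun b => (π.2.2.2.2 b : ℕ)) 0 b) u
  have hη := eta_bound (Fintype.card V) z t Fintype.card_pos ht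
  have hV : (1 : ℝ) ≤ Fintype.card V := by exact_mod_cast Fintype.card_pos
  have hη0 : (0 : ℝ) ≤ 1 - 1 / (2 * Fintype.card V) := by
    rw [sub_nonneg, div_le_one (by positivity)]; linarith
  have hE : ∀ π, pr (E π) ≤ (1 / 2 ^ (3 * z)) ^ (3 * t + 5) := by
    intro π
    by_cases hπ : Valid (lh + 1) p2 S (ext (fun k => (π.1 k : ℕ)) 0)
      (ext (fun k => (π.2.1 k : ℕ)) 0) (ext (fun b => (π.2.2.2.1 b : ℕ)) 0)
      (ext (fun b => (π.2.2.2.2 b : ℕ)) 0) (3 * t + 5) t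
    · refine le_trans (pr_mono fun θ h => h.2)
        ((coarse_kill lh.succ_pos hp S _ _ _ _ _ _ t hπ).trans ?_)
      exact pow_le_pow_left₀ (by positivity) hη _
    · rw [pr_false fun θ h => hπ h.1]
      positivity
  refine le_trans (pr_mono fun θ h => ?_) ((pr_exists_le' E _ hE).trans ?_)
  · unfold CoarseGood at h
    push Not at h
    obtain ⟨base, Δ, mp, d, a0, h1, h2, h3, h4, h5, h6⟩ := h
    obtain ⟨e, he1, he2⟩ := exists_subfamily hp2 hcc base Δ d a0 h2 h3 fun b k hk => (h4 b k hk).1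
    let π : P := ⟨fun k => ⟨base k, Nat.lt_succ_of_le (h1 k k.2.le)⟩,
      fun k => ⟨Δ k % (p1 * p2), Nat.mod_lt _ hp⟩, fun k => mp k,
      fun b => ⟨d (e b), Nat.lt_succ_of_le (h2 _)⟩, fun b => ⟨a0 (e b) % (p1 * p2), Nat.mod_lt _ hp⟩⟩
    have hb : ∀ k < t, base k = ext (fun k => (π.1 k : ℕ)) 0 k := fun k hk => by
      rw [ext_of_lt _ _ hk]
    have hΔ : ∀ k < t, Δ k ≡ ext (fun k => (π.2.1 k : ℕ)) 0 k [MOD p1 * p2] := fun k hk => by
      rw [ext_of_lt _ _ hk]; exact (Nat.mod_modEq _ _).symm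
    refine ⟨π, fun b hb1 b' hb1' k hk k' hk' h7 h8 => ?_, fun b hb1 => ?_⟩
    · rw [ext_of_lt _ _ hb1, ext_of_lt _ _ hb1'] at h7
      rw [ext_of_lt _ _ hb1, ext_of_lt _ _ hb1', ext_of_lt _ _ hb1, ext_of_lt _ _ hb1'] at h8
      rw [← hb k hk, ← hb k' hk'] at h7
      have h9 := h4 (e ⟨b, hb1⟩) k hk.le
      have h10 := h4 (e ⟨b', hb1'⟩) k' hk'.le
      have h11 : base k + d (e ⟨b, hb1⟩) - 2 * S = base k' + d (e ⟨b', hb1'⟩) - 2 * S :=
        h7.eq_of_lt_of_lt (by simp only [π]; omega) (by simp only [π]; omega)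
      have h12 : e ⟨b, hb1⟩ = e ⟨b', hb1'⟩ := by
        by_contra h
        exact h5 _ _ k k' h hk.le hk'.le (by omega)
      obtain rfl : b = b' := by simpa using he1 h12
      refine ⟨rfl, he2 ⟨b, hb1⟩ k hk.le k' hk'.le ?_⟩
      have h13 := fun k hk => Nat.ModEq.of_mul_left p1 (lab_congr (S := S) hb hΔ (d (e ⟨b, hb1⟩))
        (Nat.mod_modEq (a0 (e ⟨b, hb1⟩)) (p1 * p2)).symm k hk)
      exact (h13 k hk.le).trans (h8.trans (h13 k' hk'.le).symm)
    · obtain ⟨u, hu⟩ := h6 (e ⟨b, hb1⟩)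
      refine ⟨u, ?_⟩
      rw [ext_of_lt _ _ hb1, ext_of_lt _ _ hb1]
      exact coarse_congr hb hΔ (fun k hk => by rw [ext_of_lt _ _ hk]) _ t 0 _ _ u (by omega)
        (Nat.mod_modEq _ _).symm hu
  · have hc : Fintype.card P ≤ 2 ^ (3 * z * t + 2 * z * (3 * t + 5)) := by
      simp only [P, Fintype.card_prod, Fintype.card_fun, Fintype.card_fin]
      calc _ ≤ (2 ^ z) ^ t * ((2 ^ z) ^ t * ((2 ^ z) ^ t *
            ((2 ^ z) ^ (3 * t + 5) * (2 ^ z) ^ (3 * t + 5)))) := by gcongr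
        _ = _ := by ring
    have hc' : (Fintype.card P : ℝ) ≤ 2 ^ (3 * z * t + 2 * z * (3 * t + 5)) := by
      exact_mod_cast hc
    refine (mul_le_mul_of_nonneg_right hc' (by positivity)).trans ?_
    rw [one_div_pow, ← pow_mul, mul_one_div, div_le_div_iff₀ (by positivity) four_pos, one_mul]
    calc (2 : ℝ) ^ (3 * z * t + 2 * z * (3 * t + 5)) * 4
        = 2 ^ (3 * z * t + 2 * z * (3 * t + 5) + 2) := by ring
      _ ≤ _ := pow_le_pow_right₀ one_le_two (by nlinarith)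

end Crest.Agent.R320.KillAux
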