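import Crest.Agent.R320.Defs
import Crest.Agent.R320.KillAux3

namespace Crest.Agent.R320
universe u
variable {A : Type u}

theorem exists_theta (V : Type) [AddCommGroup V] [Finite V] (usable : ℕ → Prop) (sg cyc : ℕ → ℕ)
    (SU : Finset ℕ) (z t cf cc Gn R S lh p1 p2 : ℕ) (hz : 1 ≤ z)
    (hK : Nat.card V ^ Nat.card V ≤ 2 ^ z) (hSU : SU.card ≤ 2 ^ z) (hGn : Gn ≤ 2 ^ z)
    (hR : 2 * R + 1 ≤ 2 ^ z) (hlh : lh + 1 ≤ 2 ^ z) (hp : p1 * p2 ≤ 2 ^ z)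
    (hS : 4 * S + 1 ≤ 2 ^ z) (ht : 2 * Nat.card V * (3 * z + Nat.card V) ≤ t)
    (hcf : z * Gn + z * Gn ^ 2 + z + 2 ≤ cf)
    (hp1 : 4 * (2 * R + 1) * t * Gn * cf * (t + 1) < p1) (hRp : 2 * R < p1 * p2)
    (hp2 : 4 * S * t < p2) (hcc : 3 * t + 5 + (t + 1) ^ 2 ≤ cc) :
    ∃ Θ : ℕ → ℕ → V × ℕ, (∀ s a, (Θ s a).2 < p1) ∧
      FineGood Θ usable sg (p1 * p2) p2 Gn cyc SU R t cf ∧
      CoarseGood Θ (p1 * p2) p2 S lh t cc := by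
  have := Fintype.ofFinite V
  rw [Nat.card_eq_fintype_card] at hK ht
  have hp0 : 0 < p1 * p2 := by omega
  have : Nonempty (Fin p1) := ⟨⟨0, by omega⟩⟩
  have h1 := KillAux.fine_bad (V := V) lh.succ_pos hp0 usable sg cyc SU z t cf Gn R hz hK hSU hGn hR
    ht hcf hp1 hRp
  have h2 := KillAux.coarse_bad (V := V) hp0 z t cc S hz hK hlh hp hS ht hp2 hcc
  obtain ⟨θ, hθ⟩ := KillAux.exists_of_pr_lt_one
    (((KillAux.pr_or_le _ _).trans (add_le_add h1 h2)).trans_lt (by norm_num))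
  rw [not_or, not_not, not_not] at hθ
  exact ⟨KillAux.tab lh.succ_pos hp0 θ, fun s a => Fin.is_lt _, hθ.1, hθ.2⟩

end Crest.Agent.R320
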