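import Mathlib

/-!
Row 320: finite counting core for the random table.
-/

set_option autoImplicit false

namespace Crest.Agent.R320.KillAux

open Finset

section prob

variable {X : Type} [Fintype X]

open Classical in
/-- uniform probability of an event on a finite type -/
noncomputable def pr (E : X → Prop) : ℝ := ((univ.filter E).card : ℝ) / Fintype.card X

theorem pr_nonneg (E : X → Prop) : 0 ≤ pr E := by unfold pr; positivity

theorem pr_mono {E F : X → Prop} (h : ∀ x, E x → F x) : pr E ≤ pr F := by
  classical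
  unfold pr
  refine div_le_div_of_nonneg_right ?_ (Nat.cast_nonneg _)
  exact_mod_cast card_le_card fun x hx => by
    simp only [mem_filter, mem_univ, true_and] at hx ⊢
    exact h x hx

theorem pr_le_one (E : X → Prop) : pr E ≤ 1 := by
  classical
  unfold pr
  refine div_le_one_of_le₀ ?_ (Nat.cast_nonneg _)
  exact_mod_cast card_le_univ _

theorem pr_false {E : X → Prop} (h : ∀ x, ¬ E x) : pr E = 0 := by
  classical
  unfold pr
  rw [filter_eq_empty_iff.2 fun x _ => h x]
  simp

theorem pr_exists_le {P : Type} [Fintype P] (E : P → X → Prop) :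
    pr (fun x => ∃ π, E π x) ≤ ∑ π, pr (E π) := by
  classical
  unfold pr
  rw [← sum_div]
  refine div_le_div_of_nonneg_right ?_ (Nat.cast_nonneg _)
  have h1 : (univ.filter fun x => ∃ π, E π x) ⊆ univ.biUnion fun π => univ.filter (E π) := by
    intro x hx
    simpa using hx
  have h2 := (card_le_card h1).trans card_biUnion_le
  convert (Nat.cast_le (α := ℝ)).2 h2 using 1
  · congr!
  · push_cast; rfl

theorem pr_exists_le' {P : Type} [Fintype P] (E : P → X → Prop) (B : ℝ) (h : ∀ π, pr (E π) ≤ B) :
    pr (fun x => ∃ π, E π x) ≤ Fintype.card P * B := by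
  refine (pr_exists_le E).trans ((sum_le_sum fun π _ => h π).trans ?_)
  simp

theorem pr_or_le (E F : X → Prop) : pr (fun x => E x ∨ F x) ≤ pr E + pr F := by
  have := pr_exists_le (P := Bool) (fun b x => if b then E x else F x)
  simpa [or_comm] using this

theorem exists_of_pr_lt_one [Nonempty X] {E : X → Prop} (h : pr E < 1) : ∃ x, ¬ E x := by
  classical
  by_contra h1
  push Not at h1
  unfold pr at h
  rw [filter_true_of_mem fun x _ => h1 x, card_univ, div_self] at h
  · exact lt_irrefl _ h
  · exact_mod_cast Fintype.card_ne_zero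

end prob

section prod

variable {I Ω : Type} [Fintype I] [DecidableEq I] [Fintype Ω]

theorem pr_coord [Nonempty Ω] (E : (I → Ω) → Prop) (i : I)
    (hE : ∀ θ ω, E θ → E (Function.update θ i ω)) (ω : Ω) :
    pr (fun θ => θ i = ω ∧ E θ) = pr E / Fintype.card Ω := by
  classical
  have h1 : ∀ ω ω' : Ω, (univ.filter fun θ : I → Ω => θ i = ω ∧ E θ).card ≤
      (univ.filter fun θ : I → Ω => θ i = ω' ∧ E θ).card := by
    intro ω ω'
    refine card_le_card_of_injOn (fun θ => Function.update θ i ω') (fun θ hθ => ?_) ?_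
    · simp only [coe_filter, mem_univ, true_and, Set.mem_ofPred_eq] at hθ ⊢
      exact ⟨Function.update_self _ _ _, hE θ ω' hθ.2⟩
    · intro θ hθ θ' hθ' h
      simp only [coe_filter, mem_univ, true_and, Set.mem_ofPred_eq] at hθ hθ'
      funext j
      by_cases hj : j = i
      · rw [hj, hθ.1, hθ'.1]
      · have := congrFun h j
        simpa [Function.update_of_ne hj] using this
  have h2 : (univ.filter E).card =
      Fintype.card Ω * (univ.filter fun θ : I → Ω => θ i = ω ∧ E θ).card := by
    rw [card_eq_sum_card_fiberwise (f := fun θ : I → Ω => θ i) (t := univ)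
      (fun _ _ => mem_coe.2 (mem_univ _))]
    rw [← card_univ, ← smul_eq_mul, ← sum_const]
    refine sum_congr rfl fun ω' _ => ?_
    rw [filter_filter]
    simp only [and_comm (a := E _)]
    exact le_antisymm (h1 _ _) (h1 _ _)
  have h3 : (Fintype.card Ω : ℝ) ≠ 0 := by exact_mod_cast Fintype.card_ne_zero
  unfold pr
  rw [div_right_comm]
  congr 1
  rw [eq_div_iff h3, mul_comm]
  convert (congrArg (Nat.cast (R := ℝ)) h2).symm using 1
  push_cast
  congr!

/-- the event holds after changing the coordinates in `U` -/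
def Adv (U : Finset I) (E : (I → Ω) → Prop) : (I → Ω) → Prop :=
  fun θ => ∃ θ', (∀ i, i ∉ U → θ' i = θ i) ∧ E θ'

omit [Fintype I] [DecidableEq I] [Fintype Ω] in
theorem Adv.mono {U : Finset I} {E F : (I → Ω) → Prop} (h : ∀ θ, E θ → F θ) (θ : I → Ω)
    (hθ : Adv U E θ) : Adv U F θ :=
  let ⟨θ', h1, h2⟩ := hθ; ⟨θ', h1, h _ h2⟩

theorem pr_adv_step [Nonempty Ω] (U : Finset I) (E : (I → Ω) → Prop) (i : I) (hi : i ∉ U)
    (B : Ω → ℝ) (hB : ∀ ω, pr (Adv (insert i U) fun θ => θ i = ω ∧ E θ) ≤ B ω) :
    pr (Adv U E) ≤ (∑ ω, B ω) / Fintype.card Ω := by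
  have h1 : pr (Adv U E) ≤
      pr (fun θ => ∃ ω, θ i = ω ∧ Adv (insert i U) (fun θ => θ i = ω ∧ E θ) θ) := by
    refine pr_mono fun θ ⟨θ', h1, h2⟩ => ⟨θ i, rfl, θ', fun j hj => h1 j fun h => hj ?_, h1 i hi, h2⟩
    exact mem_insert_of_mem h
  refine h1.trans ((pr_exists_le _).trans ?_)
  rw [sum_div]
  refine sum_le_sum fun ω _ => ?_
  rw [pr_coord]
  · exact div_le_div_of_nonneg_right (hB ω) (Nat.cast_nonneg _)
  · rintro θ ω' ⟨θ', h1, h2⟩
    refine ⟨θ', fun j hj => ?_, h2⟩
    rw [Function.update_of_ne (fun h : j = i => hj (h ▸ mem_insert_self _ _))]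
    exact h1 j hj

end prod

section core

variable {I V D St : Type} [AddCommGroup V]

/-- survival of a blocker -/
def surv (idx : St → I) (tr : St → D → St → Prop) (mp : St → St → V → V) (θ : I → V × D) :
    ℕ → St → V → Prop
  | 0, _, _ => True
  | r + 1, st, u => u + (θ (idx st)).1 ≠ 0 ∧
      ∃ st', tr st (θ (idx st)).2 st' ∧ surv idx tr mp θ r st' (mp st st' (u + (θ (idx st)).1))

theorem surv_succ (idx : St → I) (tr : St → D → St → Prop) (mp : St → St → V → V)
    (θ : I → V × D) (r : ℕ) (st : St) (u : V) : surv idx tr mp θ (r + 1) st u ↔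
    (u + (θ (idx st)).1 ≠ 0 ∧
      ∃ st', tr st (θ (idx st)).2 st' ∧ surv idx tr mp θ r st' (mp st st' (u + (θ (idx st)).1))) :=
  Iff.rfl

variable [Fintype I] [DecidableEq I] [Fintype V] [Fintype D] [Nonempty D]

theorem avg_bound (s0 : V) (bad : D → Prop) [DecidablePred bad] [DecidableEq V] (κ : ℕ)
    (hκ : (univ.filter bad).card ≤ κ) (a b e : ℝ) (he : 0 ≤ e) :
    (∑ ω : V × D, ((if bad ω.2 then 1 else 0) + a + (if ω.1 = s0 then b / 2 else b)) * e) /
      Fintype.card (V × D) ≤
      (κ / Fintype.card D + a + b * (1 - 1 / (2 * Fintype.card V))) * e := by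
  have hV : (0 : ℝ) < Fintype.card V := by exact_mod_cast Fintype.card_pos
  have hD : (0 : ℝ) < Fintype.card D := by exact_mod_cast Fintype.card_pos
  rw [← sum_mul, mul_div_right_comm]
  refine mul_le_mul_of_nonneg_right ?_ he
  have h1 : ∑ ω : V × D, (if bad ω.2 then (1 : ℝ) else 0) ≤ Fintype.card V * κ := by
    rw [Fintype.sum_prod_type]
    simp only [sum_boole, sum_const, card_univ, nsmul_eq_mul]
    exact mul_le_mul_of_nonneg_left (by exact_mod_cast hκ) hV.le
  have h2 : ∑ ω : V × D, (if ω.1 = s0 then b / 2 else b) =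
      Fintype.card D * (Fintype.card V * b - b / 2) := by
    rw [Fintype.sum_prod_type_right]
    have : ∑ v : V, (if v = s0 then b / 2 else b) = Fintype.card V * b - b / 2 := by
      have : ∀ v : V, (if v = s0 then b / 2 else b) = b - if v = s0 then b / 2 else 0 := by
        intro v; split_ifs <;> ring
      simp only [this, sum_sub_distrib, sum_const, card_univ, nsmul_eq_mul, sum_ite_eq', mem_univ,
        if_true]
    simp only [this, sum_const, card_univ, nsmul_eq_mul]
  rw [sum_add_distrib, sum_add_distrib, h2, sum_const, card_univ, nsmul_eq_mul, Fintype.card_prod,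
    Nat.cast_mul, div_le_iff₀ (by positivity)]
  have : (κ / Fintype.card D + a + b * (1 - 1 / (2 * Fintype.card V))) *
      ((Fintype.card V : ℝ) * Fintype.card D) = Fintype.card V * κ +
      Fintype.card V * Fintype.card D * a + Fintype.card D * (Fintype.card V * b - b / 2) := by
    field_simp
  rw [this]
  linarith

theorem kill_core (idx : St → I) (tr : St → D → St → Prop) (mp : St → St → V → V)
    (htr : ∀ st δ s s', tr st δ s → tr st δ s' → s = s') (c t κ : ℕ) (init : ℕ → St)
    (G : ℕ → ℕ → St → Finset I → Prop) (h0 : 0 < c → G 0 0 (init 0) ∅)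
    (hfresh : ∀ b k st U, b < c → k < t → G b k st U → idx st ∉ U)
    (hskip : ∀ b st U, b + 1 < c → G b t st U → G (b + 1) 0 (init (b + 1)) U)
    (hquit : ∀ b k st U, b + 1 < c → k < t → G b k st U →
      G (b + 1) 0 (init (b + 1)) (insert (idx st) U))
    (hstep : ∀ b k st U, b < c → k < t → G b k st U →
      ∀ B : Finset D, (∀ δ ∈ B, ∃ st', tr st δ st' ∧ ¬ G b (k + 1) st' (insert (idx st) U)) →
        B.card ≤ κ) :
    pr (fun θ : I → V × D => ∀ b < c, ∃ u, surv idx tr mp θ t (init b) u) ≤
      (t * κ / Fintype.card D + 2 ^ Fintype.card V * (1 - 1 / (2 * Fintype.card V)) ^ t) ^ c := by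
  classical
  set η : ℝ := 1 - 1 / (2 * Fintype.card V) with hη
  set ε : ℝ := t * κ / Fintype.card D + 2 ^ Fintype.card V * η ^ t with hε
  have hV : (1 : ℝ) ≤ Fintype.card V := by exact_mod_cast Fintype.card_pos
  have hη0 : 0 ≤ η := by
    rw [hη, sub_nonneg, div_le_one (by positivity)]; linarith
  have hε0 : 0 ≤ ε := by positivity
  let Later : ℕ → (I → V × D) → Prop := fun j θ =>
    ∀ b, j ≤ b → b < c → ∃ u, surv idx tr mp θ t (init b) u
  have main : ∀ m b, b + m = c → ∀ U, (b < c → G b 0 (init b) U) →
      pr (Adv U (Later b)) ≤ ε ^ m := by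
    intro m
    induction m with
    | zero => intro b _ U _; rw [pow_zero]; exact pr_le_one _
    | succ m ih =>
      intro b hb U hU
      have hbc : b < c := by omega
      have hεm : 0 ≤ ε ^ m := pow_nonneg hε0 m
      have inner : ∀ r k, k + r = t → ∀ st U (S : Finset V), G b k st U →
          pr (Adv U fun θ => (∃ u ∈ S, surv idx tr mp θ r st u) ∧ Later (b + 1) θ) ≤
            (r * κ / Fintype.card D + 2 ^ S.card * η ^ r) * ε ^ m := by
        intro r
        induction r with
        | zero =>
          intro k hk st U S hG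
          obtain rfl : k = t := by omega
          refine (pr_mono (Adv.mono fun θ h => h.2)).trans
            ((ih (b + 1) (by omega) U fun h => hskip b st U h hG).trans ?_)
          refine le_mul_of_one_le_left hεm ?_
          simp only [Nat.cast_zero, zero_mul, zero_div, pow_zero, mul_one, zero_add]
          exact one_le_pow₀ one_le_two
        | succ r ihr =>
          intro k hk st U S hG
          have hkt : k < t := by omega
          rcases S.eq_empty_or_nonempty with rfl | ⟨s0, hs0⟩
          · rw [pr_false]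
            · positivity
            · rintro θ ⟨θ', -, ⟨u, hu, -⟩, -⟩
              simp at hu
          let bad : D → Prop := fun δ => ∃ st', tr st δ st' ∧ ¬ G b (k + 1) st' (insert (idx st) U)
          have hbad : (univ.filter bad).card ≤ κ :=
            hstep b k st U hbc hkt hG _ fun δ hδ => (mem_filter.1 hδ).2
          refine (pr_adv_step U _ (idx st) (hfresh b k st U hbc hkt hG)
            (fun ω : V × D => ((if bad ω.2 then 1 else 0) + r * κ / Fintype.card D +
              (if ω.1 = -s0 then 2 ^ S.card * η ^ r / 2 else 2 ^ S.card * η ^ r)) * ε ^ m)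
            ?_).trans ((avg_bound (-s0) bad κ hbad _ _ _ hεm).trans (le_of_eq ?_))
          · rintro ⟨γ, δ⟩
            have hnn : (0 : ℝ) ≤
                if γ = -s0 then 2 ^ S.card * η ^ r / 2 else 2 ^ S.card * η ^ r := by
              split_ifs <;> positivity
            by_cases hδ : bad δ
            · refine (pr_mono (Adv.mono fun θ h => h.2.2)).trans
                ((ih (b + 1) (by omega) _ fun h => hquit b k st U h hkt hG).trans ?_)
              refine le_mul_of_one_le_left hεm ?_
              simp only [if_pos hδ]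
              have : (0 : ℝ) ≤ r * κ / Fintype.card D := by positivity
              linarith
            by_cases hex : ∃ st', tr st δ st'
            swap
            · rw [pr_false]
              · simp only [if_neg hδ]
                positivity
              · rintro θ ⟨θ', -, h1, ⟨u, -, -, st', h2, -⟩, -⟩
                rw [h1] at h2
                exact hex ⟨st', h2⟩
            obtain ⟨st', hst'⟩ := hex
            have hG' : G b (k + 1) st' (insert (idx st) U) := by
              by_contra h
              exact hδ ⟨st', hst', h⟩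
            set S' : Finset V := (S.erase (-γ)).image fun u => mp st st' (u + γ) with hS'
            refine le_trans (pr_mono (Adv.mono ?_))
              ((ihr (k + 1) (by omega) st' _ S' hG').trans ?_)
            · rintro θ ⟨h1, ⟨u, hu, h2, st'', h3, h4⟩, h5⟩
              rw [h1] at h2 h3 h4
              obtain rfl := htr _ _ _ _ hst' h3
              refine ⟨⟨_, mem_image.2 ⟨u, mem_erase.2 ⟨fun h => h2 ?_, hu⟩, rfl⟩, h4⟩, h5⟩
              simp [h]
            · refine mul_le_mul_of_nonneg_right ?_ hεm
              simp only [if_neg hδ, zero_add, add_le_add_iff_left]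
              have hc1 : S'.card ≤ (S.erase (-γ)).card := card_image_le
              split_ifs with hγ
              · have hc2 : (S.erase (-γ)).card + 1 = S.card := by
                  rw [hγ, neg_neg]; exact card_erase_add_one hs0
                rw [← hc2, pow_succ, mul_right_comm, mul_div_cancel_right₀ _ two_ne_zero]
                exact mul_le_mul_of_nonneg_right (pow_le_pow_right₀ one_le_two hc1)
                  (pow_nonneg hη0 _)
              · exact mul_le_mul_of_nonneg_right
                  (pow_le_pow_right₀ one_le_two (hc1.trans card_erase_le)) (pow_nonneg hη0 _)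
          · rw [← hη]
            push_cast
            ring
      refine le_trans (pr_mono (Adv.mono ?_)) ((inner t 0 (by omega) (init b) U univ (hU hbc)).trans
        (le_of_eq ?_))
      · intro θ h
        obtain ⟨u, hu⟩ := h b le_rfl hbc
        exact ⟨⟨u, mem_univ _, hu⟩, fun b' h1 h2 => h b' (by omega) h2⟩
      · rw [card_univ, pow_succ']
  refine le_trans (pr_mono fun θ h => ?_) (main c 0 (by omega) ∅ h0)
  exact ⟨θ, fun _ _ => rfl, fun b _ hb => h b hb⟩

end core

theorem eta_bound (Q z t : ℕ) (hQ : 0 < Q) (ht : 2 * Q * (3 * z + Q) ≤ t) :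
    (2 : ℝ) ^ Q * (1 - 1 / (2 * Q)) ^ t ≤ 1 / 2 ^ (3 * z) := by
  have hQ' : (1 : ℝ) ≤ Q := by exact_mod_cast hQ
  have h0 : (0 : ℝ) ≤ 1 - 1 / (2 * Q) := by
    rw [sub_nonneg, div_le_one (by positivity)]; linarith
  have h1 : (1 - 1 / (2 * Q) : ℝ) ≤ 1 := by
    have : (0 : ℝ) ≤ 1 / (2 * Q) := by positivity
    linarith
  have h2 : (1 - 1 / (2 * Q) : ℝ) ^ (2 * Q) ≤ 1 / 2 := by
    have h3 := Real.one_sub_div_pow_le_exp_neg (n := 2 * Q) (t := 1) (by push_cast; linarith)
    push_cast at h3
    refine h3.trans ?_
    rw [Real.exp_neg, one_div]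
    exact inv_anti₀ two_pos (by linarith [Real.add_one_le_exp 1])
  calc (2 : ℝ) ^ Q * (1 - 1 / (2 * Q)) ^ t ≤ 2 ^ Q * (1 - 1 / (2 * Q)) ^ (2 * Q * (3 * z + Q)) :=
        mul_le_mul_of_nonneg_left (pow_le_pow_of_le_one h0 h1 ht) (by positivity)
    _ ≤ 2 ^ Q * (1 / 2) ^ (3 * z + Q) := by
        rw [pow_mul]
        exact mul_le_mul_of_nonneg_left (pow_le_pow_left₀ (pow_nonneg h0 _) h2 _) (by positivity)
    _ = 1 / 2 ^ (3 * z) := by
        rw [pow_add, one_div_pow, one_div_pow]; field_simp

end Crest.Agent.R320.KillAux
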