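import Crest.Agent.R320.Defs
import Crest.Agent.R320.KillAux

/-!
Row 320: the fine blockers die for most tables.
-/

set_option autoImplicit false

namespace Crest.Agent.R320.KillAux

open Finset

/-- the table index of `(s, a)` -/
def ix {n p : ℕ} (hn : 0 < n) (hp : 0 < p) (s a : ℕ) : Fin n × Fin p :=
  (⟨s % n, Nat.mod_lt _ hn⟩, ⟨a % p, Nat.mod_lt _ hp⟩)

theorem ix_eq_iff {n p : ℕ} (hn : 0 < n) (hp : 0 < p) {s a s' a' : ℕ} :
    ix hn hp s a = ix hn hp s' a' ↔ s ≡ s' [MOD n] ∧ a ≡ a' [MOD p] := by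
  simp [ix, Nat.ModEq]

/-- the table defined by a finite assignment -/
def tab {V : Type} {n p p1 : ℕ} (hn : 0 < n) (hp : 0 < p) (θ : Fin n × Fin p → V × Fin p1) :
    ℕ → ℕ → V × ℕ := fun s a => ((θ (ix hn hp s a)).1, (θ (ix hn hp s a)).2.val)

/-- extension of a finite family to `ℕ` -/
def ext {α : Type} {n : ℕ} (f : Fin n → α) (d : α) (k : ℕ) : α :=
  if h : k < n then f ⟨k, h⟩ else d

theorem ext_of_lt {α : Type} {n : ℕ} (f : Fin n → α) (d : α) {k : ℕ} (h : k < n) :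
    ext f d k = f ⟨k, h⟩ := dif_pos h

variable {V : Type} [AddCommGroup V]

theorem fine_congr {Θ : ℕ → ℕ → V × ℕ} {usable : ℕ → Prop} {sg : ℕ → ℕ} {p p2 Gn : ℕ}
    {cyc sa sa' : ℕ → ℕ} {mp mp' : ℕ → ℕ → V → V} (hsa : ∀ g < Gn, sa g = sa' g)
    (hmp : ∀ g < Gn, ∀ g' < Gn, mp g g' = mp' g g') (k : ℕ) :
    ∀ g o u, g < Gn → FineSurv Θ usable sg p p2 Gn cyc sa mp k g o u →
      FineSurv Θ usable sg p p2 Gn cyc sa' mp' k g o u := by
  induction k with
  | zero => intro g o u _ _; exact fineSurv_zero ..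
  | succ k ih =>
    intro g o u hg h
    rw [fineSurv_succ] at h ⊢
    obtain ⟨h1, g', o', h2, h3, h4, h5, h6, h7⟩ := h
    rw [← hsa g hg]
    refine ⟨h1, g', o', h2, h3, h4, hsa g' h3 ▸ h5,
      fun g'' h8 h9 => hsa g'' (h8.trans h3) ▸ h6 g'' h8 h9, ih _ _ _ h3 ?_⟩
    rw [← hmp g hg g' h3]
    exact h7

theorem fine_kill [Fintype V] {n p1 p2 : ℕ} (hn : 0 < n) (hp : 0 < p1 * p2) (usable : ℕ → Prop)
    (sg cyc sa : ℕ → ℕ) (Gn : ℕ) (mp : ℕ → ℕ → V → V) (t cf g0 : ℕ) (ξ : ℕ → ℕ)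
    (hξ : ∀ b < cf, ∀ b' < cf, ξ b = ξ b' → b = b') (hξp : ∀ b < cf, ξ b < p1 * p2) :
    pr (fun θ : Fin n × Fin (p1 * p2) → V × Fin p1 => ∀ b < cf, ∃ u,
      FineSurv (tab hn hp θ) usable sg (p1 * p2) p2 Gn cyc sa mp t g0 (ξ b) u) ≤
      (t * (Gn * (cf * (t + 1)) : ℕ) / p1 +
        2 ^ Fintype.card V * (1 - 1 / (2 * Fintype.card V)) ^ t) ^ cf := by
  classical
  have hp1 : 0 < p1 := Nat.pos_of_mul_pos_right hp
  have hp2 : 0 < p2 := Nat.pos_of_mul_pos_left hp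
  have : Nonempty (Fin p1) := ⟨⟨0, hp1⟩⟩
  let idx : ℕ × ℕ → Fin n × Fin (p1 * p2) := fun st =>
    ix hn hp (sg (sa st.1 + st.2)) ((sa st.1 + st.2) % (p1 * p2))
  let tr : ℕ × ℕ → Fin p1 → ℕ × ℕ → Prop := fun st δ st' =>
    st'.2 = st.2 + (sg (sa st.1 + st.2) + p2 * δ.val) ∧ st'.1 < Gn ∧ cyc st.1 < cyc st'.1 ∧
      usable (sa st'.1 + st'.2) ∧ ∀ g'', g'' < st'.1 → cyc st.1 < cyc g'' → ¬ usable (sa g'' + st'.2)
  let init : ℕ → ℕ × ℕ := fun b => (g0, ξ b)
  have hidx : ∀ g o o', idx (g, o) = idx (g, o') → o ≡ o' [MOD p1 * p2] := by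
    intro g o o' h
    have h1 := ((ix_eq_iff hn hp).1 h).2
    exact Nat.ModEq.add_left_cancel' (sa g)
      ((Nat.mod_modEq _ _).symm.trans (h1.trans (Nat.mod_modEq _ _)))
  have hinit : ∀ b < cf, ∀ b' < cf, idx (init b) = idx (init b') → b = b' := fun b hb b' hb' h =>
    hξ b hb b' hb' ((hidx _ _ _ h).eq_of_lt_of_lt (hξp b hb) (hξp b' hb'))
  have key := kill_core (V := V) idx tr (fun st st' => mp st.1 st'.1) (by
      rintro ⟨g, o⟩ δ ⟨g1, o1⟩ ⟨g2, o2⟩ ⟨h1, -, h2, h3, h4⟩ ⟨h5, -, h6, h7, h8⟩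
      simp only at h1 h2 h3 h4 h5 h6 h7 h8
      obtain rfl : o1 = o2 := h1.trans h5.symm
      rcases lt_trichotomy g1 g2 with h | h | h
      · exact absurd h3 (h8 g1 h h2)
      · rw [h]
      · exact absurd h7 (h4 g2 h h6))
    cf t (Gn * (cf * (t + 1))) init
    (fun b k st U => U.card ≤ b * t + k ∧ idx st ∉ U ∧
      ∀ b', b < b' → b' < cf → idx (init b') ∉ U ∧ idx (init b') ≠ idx st)
    (fun hc => ⟨by simp, notMem_empty _, fun b' h1 h2 =>
      ⟨notMem_empty _, fun h => by have := hinit b' h2 0 hc h; omega⟩⟩)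
    (fun b k st U _ _ h => h.2.1)
    (fun b st U hb h => ⟨by rw [add_mul, one_mul]; exact h.1, (h.2.2 (b + 1) (by omega) hb).1,
      fun b' h1 h2 => ⟨(h.2.2 b' (by omega) h2).1,
        fun h3 => by have := hinit b' h2 (b + 1) hb h3; omega⟩⟩)
    (fun b k st U hb hk h => by
      have h3 : ∀ b', b < b' → b' < cf → idx (init b') ∉ insert (idx st) U := fun b' h1 h2 h3 =>
        (mem_insert.1 h3).elim (h.2.2 b' h1 h2).2 (h.2.2 b' h1 h2).1
      refine ⟨?_, h3 (b + 1) (by omega) hb, fun b' h1 h2 => ⟨h3 b' (by omega) h2,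
        fun h3 => by have := hinit b' h2 (b + 1) hb h3; omega⟩⟩
      have := card_insert_le (idx st) U
      have := h.1
      rw [add_mul, one_mul]
      omega)
    (fun b k st U hb hk h B hB => by
      set U' := insert (idx st) U ∪ (range cf).image (fun b' => idx (init b')) with hU'
      have hc : U'.card ≤ cf * (t + 1) := by
        have h1 := card_union_le (insert (idx st) U) ((range cf).image (fun b' => idx (init b')))
        have h2 := card_insert_le (idx st) U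
        have h3 : ((range cf).image (fun b' => idx (init b'))).card ≤ cf :=
          card_image_le.trans (card_range cf).le
        have h4 := h.1
        have h5 : (b + 1) * t ≤ cf * t := Nat.mul_le_mul_right t hb
        rw [add_mul, one_mul] at h5
        rw [mul_add, mul_one, hU']
        omega
      have hex : ∀ δ ∈ B, ∃ st', tr st δ st' ∧ idx st' ∈ U' := by
        intro δ hδ
        obtain ⟨st', h1, h2⟩ := hB δ hδ
        refine ⟨st', h1, ?_⟩
        by_contra h3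
        rw [hU', mem_union, not_or] at h3
        refine h2 ⟨?_, h3.1, fun b' h4 h5 => ⟨fun h6 => (mem_insert.1 h6).elim (h.2.2 b' h4 h5).2
          (h.2.2 b' h4 h5).1, fun h6 => h3.2 (mem_image.2 ⟨b', mem_range.2 h5, h6⟩)⟩⟩
        have := card_insert_le (idx st) U
        have := h.1
        omega
      choose! f hf1 hf2 using hex
      have h1 : B.card ≤ (range Gn ×ˢ U').card := by
        refine card_le_card_of_injOn (fun δ => ((f δ).1, idx (f δ))) (fun δ hδ => ?_) ?_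
        · exact mem_coe.2 (mem_product.2 ⟨mem_range.2 (hf1 δ hδ).2.1, hf2 δ hδ⟩)
        · intro δ hδ δ' hδ' he
          simp only [Prod.mk.injEq] at he
          have h2 : idx ((f δ).1, (f δ).2) = idx ((f δ).1, (f δ').2) := by
            conv_rhs => rw [he.1]
            exact he.2
          have h3 := hidx _ _ _ h2
          rw [(hf1 δ hδ).1, (hf1 δ' hδ').1] at h3
          have h4 := Nat.ModEq.add_left_cancel' _ (Nat.ModEq.add_left_cancel' _ h3)
          rw [mul_comm p1 p2] at h4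
          exact Fin.ext ((Nat.ModEq.mul_left_cancel' hp2.ne' h4).eq_of_lt_of_lt δ.2 δ'.2)
      rw [card_product, card_range] at h1
      exact h1.trans (Nat.mul_le_mul_left _ hc))
  rw [Fintype.card_fin] at key
  refine le_trans (pr_mono fun θ h b hb => ?_) key
  obtain ⟨u, hu⟩ := h b hb
  refine ⟨u, ?_⟩
  have conv : ∀ k g o u, FineSurv (tab hn hp θ) usable sg (p1 * p2) p2 Gn cyc sa mp k g o u →
      surv idx tr (fun st st' => mp st.1 st'.1) θ k (g, o) u := by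
    intro k
    induction k with
    | zero => intro g o u _; trivial
    | succ k ih =>
      intro g o u h
      rw [fineSurv_succ] at h
      obtain ⟨h1, g', o', h2, h3, h4, h5, h6, h7⟩ := h
      exact ⟨h1, (g', o'), ⟨h2, h3, h4, h5, h6⟩, ih _ _ _ h7⟩
  exact conv _ _ _ _ hu

theorem fine_bad [Fintype V] {n p1 p2 : ℕ} (hn : 0 < n) (hp : 0 < p1 * p2) (usable : ℕ → Prop)
    (sg cyc : ℕ → ℕ) (SU : Finset ℕ) (z t cf Gn R : ℕ) (hz : 1 ≤ z)
    (hK : Fintype.card V ^ Fintype.card V ≤ 2 ^ z) (hSU : SU.card ≤ 2 ^ z) (hGn : Gn ≤ 2 ^ z)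
    (hR : 2 * R + 1 ≤ 2 ^ z) (ht : 2 * Fintype.card V * (3 * z + Fintype.card V) ≤ t)
    (hcf : z * Gn + z * Gn ^ 2 + z + 2 ≤ cf)
    (hp1 : 4 * (2 * R + 1) * t * Gn * cf * (t + 1) < p1) (hRp : 2 * R < p1 * p2) :
    pr (fun θ : Fin n × Fin (p1 * p2) → V × Fin p1 =>
      ¬ FineGood (tab hn hp θ) usable sg (p1 * p2) p2 Gn cyc SU R t cf) ≤ 1 / 4 := by
  classical
  let P : Type := (Fin Gn → SU) × (Fin Gn → Fin Gn → V → V) × Fin Gn × (Fin cf → Fin (2 * R + 1))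
  let E : P → (Fin n × Fin (p1 * p2) → V × Fin p1) → Prop := fun π θ =>
    Function.Injective π.2.2.2 ∧ ∀ b < cf, ∃ u,
      FineSurv (tab hn hp θ) usable sg (p1 * p2) p2 Gn cyc (ext (fun g => (π.1 g : ℕ)) 0)
        (fun g g' => ext (fun g => ext (π.2.1 g) id g') id g) t π.2.2.1
        (ext (fun b => (π.2.2.2 b : ℕ)) 0 b) u
  set ε : ℝ := t * (Gn * (cf * (t + 1)) : ℕ) / p1 +
        2 ^ Fintype.card V * (1 - 1 / (2 * Fintype.card V)) ^ t with hε
  have hη := eta_bound (Fintype.card V) z t Fintype.card_pos ht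
  have hV : (1 : ℝ) ≤ Fintype.card V := by exact_mod_cast Fintype.card_pos
  have hη0 : (0 : ℝ) ≤ 1 - 1 / (2 * Fintype.card V) := by
    rw [sub_nonneg, div_le_one (by positivity)]; linarith
  have hε0 : 0 ≤ ε := by positivity
  have hE : ∀ π, pr (E π) ≤ ε ^ cf := by
    intro π
    by_cases hπ : Function.Injective π.2.2.2
    · refine le_trans (pr_mono fun θ h => h.2) (fine_kill hn hp usable sg cyc _ Gn _ t cf _ _ ?_ ?_)
      · intro b hb b' hb' h
        rw [ext_of_lt _ _ hb, ext_of_lt _ _ hb'] at h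
        simpa using hπ (Fin.ext h)
      · intro b hb
        rw [ext_of_lt _ _ hb]
        have := (π.2.2.2 ⟨b, hb⟩).2
        omega
    · rw [pr_false fun θ h => hπ h.1]
      positivity
  refine le_trans (pr_mono fun θ h => ?_) ((pr_exists_le' E _ hE).trans ?_)
  · unfold FineGood at h
    push Not at h
    obtain ⟨sa, mp, g0, ξ, h1, h2, h3, h4, h5⟩ := h
    refine ⟨⟨fun g => ⟨sa g, h1 g⟩, fun g g' => mp g g', ⟨g0, h2⟩,
      fun b => ⟨ξ b, Nat.lt_succ_of_le (h4 b)⟩⟩, fun b b' h => h3 (by simpa using h), fun b hb => ?_⟩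
    obtain ⟨u, hu⟩ := h5 ⟨b, hb⟩
    refine ⟨u, ?_⟩
    rw [ext_of_lt _ _ hb]
    refine fine_congr (fun g hg => ?_) (fun g hg g' hg' => ?_) t _ _ _ h2 hu
    · rw [ext_of_lt _ _ hg]
    · simp only [ext_of_lt _ _ hg, ext_of_lt _ _ hg']
  · have hc : Fintype.card P ≤ 2 ^ (z * Gn + z * Gn ^ 2 + z) * (2 * R + 1) ^ cf := by
      simp only [P, Fintype.card_prod, Fintype.card_fun, Fintype.card_fin, Fintype.card_coe]
      calc _ ≤ (2 ^ z) ^ Gn * (((2 ^ z) ^ Gn) ^ Gn * (2 ^ z * (2 * R + 1) ^ cf)) := by gcongr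
        _ = _ := by ring
    have hp1' : (0 : ℝ) < p1 := by exact_mod_cast Nat.pos_of_mul_pos_right hp
    have h1 : (2 * R + 1 : ℝ) * (t * (Gn * (cf * (t + 1)) : ℕ) / p1) ≤ 1 / 4 := by
      have : ((4 * (2 * R + 1) * t * Gn * cf * (t + 1) : ℕ) : ℝ) ≤ p1 := by exact_mod_cast hp1.le
      push_cast at this ⊢
      rw [← mul_div_assoc, div_le_div_iff₀ hp1' four_pos]
      linarith
    have h2 : (2 * R + 1 : ℝ) * (1 / 2 ^ (3 * z)) ≤ 1 / 4 := by
      have h3 : (2 * R + 1 : ℝ) ≤ 2 ^ z := by exact_mod_cast hR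
      have h4 : (2 : ℝ) ^ z * 4 ≤ 2 ^ (3 * z) := by
        calc (2 : ℝ) ^ z * 4 = 2 ^ (z + 2) := by ring
          _ ≤ _ := pow_le_pow_right₀ one_le_two (by omega)
      rw [mul_one_div, div_le_div_iff₀ (by positivity) four_pos]
      linarith
    have h3 : (2 * R + 1 : ℝ) * ε ≤ 1 / 2 := by
      have := mul_le_mul_of_nonneg_left hη (show (0 : ℝ) ≤ 2 * R + 1 by positivity)
      rw [hε, mul_add]
      linarith
    have hc' : (Fintype.card P : ℝ) ≤ 2 ^ (z * Gn + z * Gn ^ 2 + z) * (2 * R + 1) ^ cf := by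
      exact_mod_cast hc
    calc (Fintype.card P : ℝ) * ε ^ cf
        ≤ 2 ^ (z * Gn + z * Gn ^ 2 + z) * (2 * R + 1) ^ cf * ε ^ cf := by gcongr
      _ = 2 ^ (z * Gn + z * Gn ^ 2 + z) * ((2 * R + 1) * ε) ^ cf := by rw [mul_pow, mul_assoc]
      _ ≤ 2 ^ (z * Gn + z * Gn ^ 2 + z) * (1 / 2) ^ cf := by gcongr
      _ ≤ 2 ^ (z * Gn + z * Gn ^ 2 + z) * (1 / 2) ^ (z * Gn + z * Gn ^ 2 + z + 2) :=
          mul_le_mul_of_nonneg_left (pow_le_pow_of_le_one (by norm_num) (by norm_num) hcf)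
            (by positivity)
      _ = 1 / 4 := by
          rw [one_div_pow]; field_simp; ring

end Crest.Agent.R320.KillAux
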