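import Crest.Agent.R320.Lev2Aux

/-!
Row 320: the level-two automaton and its dynamics.
-/

set_option linter.unusedSectionVars false

namespace Crest.Agent.R320.Lev2Aux
open Crest.Agent.R320
universe u

variable {A : Type u} {V : Type} [AddCommGroup V] {U : Type} [AddCommGroup U] [Finite U]

/-! ### Birth times -/

section births
variable (C : CData A V) (w : ℕ → A)

/-- Length of the cycle starting with a birth at time `c`. -/
noncomputable def nbd (c : ℕ) : ℕ := sInf {d | 0 < d ∧ C.prun C.birth (seg w c d) = C.birth}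

/-- Time of the `j`-th birth after a birth at time `c`. -/
noncomputable def bt (c : ℕ) : ℕ → ℕ
  | 0 => c
  | j + 1 => bt c j + nbd C w (bt c j)

theorem bt_zero (c : ℕ) : bt C w c 0 = c := rfl
theorem bt_succ (c j : ℕ) : bt C w c (j + 1) = bt C w c j + nbd C w (bt C w c j) := rfl

theorem bt_add (c i j : ℕ) : bt C w c (i + j) = bt C w (bt C w c i) j := by
  induction j with
  | zero => rfl
  | succ j ih => rw [← Nat.add_assoc, bt_succ, bt_succ, ih]

theorem nbd_min {c d : ℕ} (h0 : 0 < d) (hd : d < nbd C w c) :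
    C.prun C.birth (seg w c d) ≠ C.birth := fun h => Nat.notMem_of_lt_sInf hd ⟨h0, h⟩

variable {C} {L : ℕ}

theorem nbd_spec (hC : C.Good L) (c : ℕ) : 0 < nbd C w c ∧ nbd C w c ≤ C.ell ∧
    C.prun C.birth (seg w c (nbd C w c)) = C.birth := by
  obtain ⟨d, h0, hd, hb⟩ := hC.p1 C.birth w c
  have hm : nbd C w c ∈ {d | 0 < d ∧ C.prun C.birth (seg w c d) = C.birth} :=
    Nat.sInf_mem ⟨d, h0, hb⟩
  exact ⟨hm.1, (Nat.sInf_le (s := {d | 0 < d ∧ C.prun C.birth (seg w c d) = C.birth})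
    ⟨h0, hb⟩).trans hd, hm.2⟩

theorem lt_nbd (hC : C.Good L) {c d : ℕ}
    (h : ∀ d', 0 < d' → d' ≤ d → C.prun C.birth (seg w c d') ≠ C.birth) : d < nbd C w c := by
  by_contra hlt
  obtain ⟨h0, -, hb⟩ := nbd_spec w hC c
  exact h _ h0 (by omega) hb

theorem bt_strictMono (hC : C.Good L) (c : ℕ) : StrictMono (bt C w c) :=
  strictMono_nat_of_lt_succ fun j => by
    have := (nbd_spec w hC (bt C w c j)).1
    rw [bt_succ]; omega

theorem le_bt (hC : C.Good L) (c j : ℕ) : c ≤ bt C w c j :=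
  (bt_strictMono w hC c).monotone (Nat.zero_le j)

theorem bt_le (hC : C.Good L) (c j : ℕ) : bt C w c j ≤ c + j * C.ell := by
  induction j with
  | zero => simp [bt_zero]
  | succ j ih =>
    have := (nbd_spec w hC (bt C w c j)).2.1
    rw [bt_succ, Nat.succ_mul]; omega

theorem exists_locate (hC : C.Good L) {c t : ℕ} (h : c ≤ t) :
    ∃ j d, t = bt C w c j + d ∧ d < nbd C w (bt C w c j) := by
  induction t, h using Nat.le_induction with
  | base => exact ⟨0, 0, rfl, (nbd_spec w hC _).1⟩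
  | succ t _ ih =>
    obtain ⟨j, d, e, hd⟩ := ih
    by_cases h : d + 1 < nbd C w (bt C w c j)
    · exact ⟨j, d + 1, by omega, h⟩
    · exact ⟨j + 1, 0, by rw [bt_succ]; omega, (nbd_spec w hC _).1⟩

end births

/-! ### The automaton -/

/-- States: position, birth counter, slot, label, pending map. -/
@[ext] structure St (P : Type u) (U : Type) : Type u where
  pos : P
  cnt : ZMod (cL U)
  s : ZMod (cN U)
  lab : U
  pend : U → U

instance {P : Type u} [Finite P] : Finite (St P U) :=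
  Finite.of_injective (fun σ : St P U => (σ.pos, σ.cnt, σ.s, σ.lab, σ.pend)) fun σ σ' h => by
    simp only [Prod.mk.injEq] at h
    exact St.ext h.1 h.2.1 h.2.2.1 h.2.2.2.1 h.2.2.2.2

/-- The current label. -/
def St.cur {P : Type u} (σ : St P U) : U := σ.pend σ.lab

variable (C : CData A V) (lin : C.Pos → A → U →+ U)

/-- The linear map along a word. -/
def linrun : C.Pos → List A → U →+ U
  | _, [] => AddMonoidHom.id U
  | p, a :: u => (linrun (C.step p a) u).comp (lin p a)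

theorem linrun_nil (p : C.Pos) (x : U) : linrun C lin p [] x = x := rfl

theorem linrun_cons (p : C.Pos) (a : A) (u : List A) (x : U) :
    linrun C lin p (a :: u) x = linrun C lin (C.step p a) u (lin p a x) := rfl

theorem linrun_append (p : C.Pos) (u v : List A) (x : U) :
    linrun C lin p (u ++ v) x = linrun C lin (C.prun p u) v (linrun C lin p u x) := by
  induction u generalizing p x with
  | nil => rfl
  | cons a u ih => rw [List.cons_append, linrun_cons, ih]; rfl

theorem linrun_seg_succ (p : C.Pos) (w : ℕ → A) (c d : ℕ) (x : U) :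
    linrun C lin p (seg w c (d + 1)) x =
      lin (C.prun p (seg w c d)) (w (c + d)) (linrun C lin p (seg w c d) x) := by
  rw [seg_succ, linrun_append]; rfl

open Classical in
/-- The new counter. -/
noncomputable def ncnt (p : C.Pos) (i : ZMod (cL U)) (a : A) : ZMod (cL U) :=
  if C.step p a = C.birth then i + 1 else i

/-- The increment of the slot at a jump. -/
noncomputable def inc (f : U → U) (μ : ℕ) : ZMod (cN U) :=
  (io f : ZMod (cN U)) * (Lam U μ : ZMod (cN U))

theorem inc_of_le (f : U → U) {μ : ℕ} (h : cr U ≤ μ) : inc f μ = 0 := by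
  simp [inc, Lam, not_lt.2 h]

/-- The state was entered by a jump. -/
def J (σ : St C.Pos U) : Prop := σ.pos = C.birth ∧ σ.cnt.val % cD U = 0

open Classical in
/-- The transition function. -/
noncomputable def step (σ : St C.Pos U) (a : A) : St C.Pos U :=
  if C.step σ.pos a = C.birth ∧ (ncnt C σ.pos σ.cnt a).val % cD U = 0 then
    ⟨C.step σ.pos a, ncnt C σ.pos σ.cnt a,
      σ.s + inc (lin σ.pos a ∘ σ.pend) (σ.cnt.val / cD U),
      lin σ.pos a σ.cur + gam ((ncnt C σ.pos σ.cnt a).val / cD U)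
        (σ.s + inc (lin σ.pos a ∘ σ.pend) (σ.cnt.val / cD U)), id⟩
  else if cr U ≤ (ncnt C σ.pos σ.cnt a).val / cD U then
    ⟨C.step σ.pos a, ncnt C σ.pos σ.cnt a, σ.s, lin σ.pos a σ.cur, id⟩
  else ⟨C.step σ.pos a, ncnt C σ.pos σ.cnt a, σ.s, σ.lab, lin σ.pos a ∘ σ.pend⟩

/-- Hits. -/
def Hit (σ : St C.Pos U) : Prop := J C σ ∧ cr U ≤ σ.cnt.val / cD U ∧ σ.lab = 0

/-- Initial states. -/
noncomputable def init (h : C.Site) (m : U → U) : St C.Pos U :=
  ⟨C.spos h, (C.scnt h : ℕ), (dec U (C.scnt h)).1, (dec U (C.scnt h)).2, m⟩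

/-- The level-two automaton. -/
noncomputable def lev : Lev2 C where
  St := St C.Pos U
  step := step C lin
  pos := St.pos
  Hyp := U → U
  hid := id
  init := init C
  Hit := Hit C

/-- Runs. -/
noncomputable def run (σ : St C.Pos U) (u : List A) : St C.Pos U := u.foldl (step C lin) σ

theorem lev_run (σ : St C.Pos U) (u : List A) : (lev C lin).run σ u = run C lin σ u := rfl

theorem run_append (σ : St C.Pos U) (u v : List A) :
    run C lin σ (u ++ v) = run C lin (run C lin σ u) v := List.foldl_append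

theorem run_cons (σ : St C.Pos U) (a : A) (u : List A) :
    run C lin σ (a :: u) = run C lin (step C lin σ a) u := rfl

section onestep
variable (σ : St C.Pos U) (a : A)

theorem step_pos : (step C lin σ a).pos = C.step σ.pos a := by
  unfold step; split_ifs <;> rfl

theorem step_cnt : (step C lin σ a).cnt = ncnt C σ.pos σ.cnt a := by
  unfold step; split_ifs <;> rfl

theorem J_step : J C (step C lin σ a) ↔
    C.step σ.pos a = C.birth ∧ (ncnt C σ.pos σ.cnt a).val % cD U = 0 := by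
  unfold J; rw [step_pos, step_cnt]

theorem step_jump (h : J C (step C lin σ a)) :
    (step C lin σ a).s =
      σ.s + inc (lin σ.pos a ∘ σ.pend) (σ.cnt.val / cD U) ∧
    (step C lin σ a).lab =
      lin σ.pos a σ.cur + gam ((step C lin σ a).cnt.val / cD U) (step C lin σ a).s ∧
    (step C lin σ a).pend = id := by
  rw [J_step] at h
  unfold step
  rw [if_pos h]
  exact ⟨rfl, rfl, rfl⟩

theorem step_div (h : ¬ J C (step C lin σ a)) :
    (step C lin σ a).cnt.val / cD U = σ.cnt.val / cD U := by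
  rw [J_step] at h
  rw [step_cnt]
  unfold ncnt at h ⊢
  split_ifs with hb
  · rw [if_pos hb] at h
    exact val_succ_div _ fun h' => h ⟨hb, h'⟩
  · rfl

theorem step_kill (h : ¬ J C (step C lin σ a)) (hr : cr U ≤ σ.cnt.val / cD U) :
    (step C lin σ a).s = σ.s ∧ (step C lin σ a).lab = lin σ.pos a σ.cur ∧
      (step C lin σ a).pend = id := by
  rw [← step_div C lin σ a h, step_cnt] at hr
  rw [J_step] at h
  unfold step
  rw [if_neg h, if_pos hr]
  exact ⟨rfl, rfl, rfl⟩

theorem step_wait (h : ¬ J C (step C lin σ a)) (hr : σ.cnt.val / cD U < cr U) :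
    (step C lin σ a).s = σ.s ∧ (step C lin σ a).lab = σ.lab ∧
      (step C lin σ a).pend = lin σ.pos a ∘ σ.pend := by
  rw [← step_div C lin σ a h, step_cnt] at hr
  rw [J_step] at h
  unfold step
  rw [if_neg h, if_neg (not_le.2 hr)]
  exact ⟨rfl, rfl, rfl⟩

theorem step_quiet (h : ¬ J C (step C lin σ a)) :
    (step C lin σ a).s = σ.s ∧ (step C lin σ a).cur = lin σ.pos a σ.cur := by
  rcases le_or_gt (cr U) (σ.cnt.val / cD U) with hr | hr
  · obtain ⟨h1, h2, h3⟩ := step_kill C lin σ a h hr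
    exact ⟨h1, by unfold St.cur; rw [h2, h3]; rfl⟩
  · obtain ⟨h1, h2, h3⟩ := step_wait C lin σ a h hr
    exact ⟨h1, by unfold St.cur; rw [h2, h3]; rfl⟩

variable {σ} {σ' : St C.Pos U}

theorem step_cnt_sub (hp : σ.pos = σ'.pos) :
    (step C lin σ a).cnt - (step C lin σ' a).cnt = σ.cnt - σ'.cnt := by
  rw [step_cnt, step_cnt, hp]
  unfold ncnt
  split_ifs
  · ring
  · rfl

theorem step_same (hp : σ.pos = σ'.pos) (hc : σ.cnt = σ'.cnt) (hm : σ.pend = σ'.pend) :
    (step C lin σ a).pend = (step C lin σ' a).pend ∧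
    (step C lin σ a).s - (step C lin σ' a).s = σ.s - σ'.s ∧
    (σ.s = σ'.s →
      (step C lin σ a).cur - (step C lin σ' a).cur = lin σ.pos a (σ.cur - σ'.cur)) := by
  unfold step
  rw [← hp, ← hc, ← hm, map_sub]
  split_ifs
  · refine ⟨rfl, by ring, fun hs => ?_⟩
    rw [← hs]
    exact add_sub_add_right_eq_sub _ _ _
  · exact ⟨rfl, rfl, fun _ => rfl⟩
  · refine ⟨rfl, rfl, fun _ => ?_⟩
    unfold St.cur
    rw [← hm]
    rfl

end onestep

section runs
variable {σ σ' : St C.Pos U}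

theorem run_pos (σ : St C.Pos U) (u : List A) : (run C lin σ u).pos = C.prun σ.pos u := by
  induction u generalizing σ with
  | nil => rfl
  | cons a u ih => rw [run_cons, ih, step_pos]; rfl

theorem run_cnt_sub (u : List A) (hp : σ.pos = σ'.pos) :
    (run C lin σ u).cnt - (run C lin σ' u).cnt = σ.cnt - σ'.cnt := by
  induction u generalizing σ σ' with
  | nil => rfl
  | cons a u ih =>
    rw [run_cons, run_cons, ih (by rw [step_pos, step_pos, hp]), step_cnt_sub C lin a hp]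

theorem run_cnt_eq (u : List A) (hp : σ.pos = σ'.pos) (hc : σ.cnt = σ'.cnt) :
    (run C lin σ u).cnt = (run C lin σ' u).cnt :=
  sub_eq_zero.1 (by rw [run_cnt_sub C lin u hp, hc, sub_self])

theorem run_same (u : List A) (hp : σ.pos = σ'.pos) (hc : σ.cnt = σ'.cnt)
    (hm : σ.pend = σ'.pend) : (run C lin σ u).s - (run C lin σ' u).s = σ.s - σ'.s ∧
    (σ.s = σ'.s →
      (run C lin σ u).cur - (run C lin σ' u).cur = linrun C lin σ.pos u (σ.cur - σ'.cur)) := by
  induction u generalizing σ σ' with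
  | nil => exact ⟨rfl, fun _ => rfl⟩
  | cons a u ih =>
    obtain ⟨h1, h2, h3⟩ := step_same C lin a hp hc hm
    obtain ⟨h4, h5⟩ := ih (σ := step C lin σ a) (σ' := step C lin σ' a)
      (by rw [step_pos, step_pos, hp]) (by rw [step_cnt, step_cnt, hp, hc]) h1
    refine ⟨h4.trans h2, fun hs => ?_⟩
    rw [run_cons, run_cons, h5 (sub_eq_zero.1 (by rw [h2, hs, sub_self])), h3 hs, step_pos,
      linrun_cons]

end runs

/-! ### Trajectories from a given time on -/

/-- `σ` follows the automaton from time `c` on. -/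
def TF (w : ℕ → A) (c : ℕ) (σ : ℕ → St C.Pos U) : Prop :=
  ∀ τ, c ≤ τ → σ (τ + 1) = step C lin (σ τ) (w τ)

/-- The track starting in `σ` at time `c`. -/
noncomputable def trk (w : ℕ → A) (c : ℕ) (σ : St C.Pos U) (τ : ℕ) : St C.Pos U :=
  run C lin σ (seg w c (τ - c))

theorem trk_add (w : ℕ → A) (c : ℕ) (σ : St C.Pos U) (d : ℕ) :
    trk C lin w c σ (c + d) = run C lin σ (seg w c d) := by
  unfold trk; rw [Nat.add_sub_cancel_left]

theorem trk_self (w : ℕ → A) (c : ℕ) (σ : St C.Pos U) : trk C lin w c σ c = σ :=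
  trk_add C lin w c σ 0

theorem tf_trk (w : ℕ → A) (c : ℕ) (σ : St C.Pos U) : TF C lin w c (trk C lin w c σ) := by
  intro τ hτ
  obtain ⟨d, rfl⟩ := Nat.exists_eq_add_of_le hτ
  rw [Nat.add_assoc, trk_add, trk_add, seg_succ, run_append]
  rfl

variable {C lin} {w : ℕ → A} {c : ℕ} {σ σ' : ℕ → St C.Pos U} {L : ℕ}

theorem TF.mono (h : TF C lin w c σ) {c' : ℕ} (hc : c ≤ c') : TF C lin w c' σ :=
  fun τ hτ => h τ (hc.trans hτ)

theorem TF.run (h : TF C lin w c σ) (d : ℕ) : σ (c + d) = run C lin (σ c) (seg w c d) := by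
  induction d with
  | zero => rfl
  | succ d ih =>
    rw [← Nat.add_assoc, h _ (Nat.le_add_right _ _), ih, seg_succ, run_append]
    rfl

theorem TF.pos (h : TF C lin w c σ) (d : ℕ) :
    (σ (c + d)).pos = C.prun (σ c).pos (seg w c d) := by rw [h.run, run_pos]

/-- Two tracks with the same position and counter keep them equal. -/
theorem TF.pc (h : TF C lin w c σ) (h' : TF C lin w c σ') (hp : (σ c).pos = (σ' c).pos)
    (hc : (σ c).cnt = (σ' c).cnt) {t : ℕ} (ht : c ≤ t) :
    (σ t).pos = (σ' t).pos ∧ (σ t).cnt = (σ' t).cnt := by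
  obtain ⟨d, rfl⟩ := Nat.exists_eq_add_of_le ht
  exact ⟨by rw [h.pos, h'.pos, hp], by rw [h.run, h'.run]; exact run_cnt_eq C lin _ hp hc⟩

theorem TF.cnt_const (h : TF C lin w c σ) {d : ℕ}
    (hd : ∀ d', 0 < d' → d' ≤ d → (σ (c + d')).pos ≠ C.birth) : (σ (c + d)).cnt = (σ c).cnt := by
  induction d with
  | zero => rfl
  | succ d ih =>
    have h1 := hd (d + 1) (by omega) le_rfl
    rw [← Nat.add_assoc, h _ (Nat.le_add_right _ _)] at h1 ⊢
    rw [step_pos] at h1
    rw [step_cnt, ncnt, if_neg h1]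
    exact ih fun d' h0 hd' => hd d' h0 (by omega)

theorem TF.in_cycle (h : TF C lin w c σ) (hb : (σ c).pos = C.birth) {d : ℕ}
    (hd : d < nbd C w c) :
    (σ (c + d)).cnt = (σ c).cnt ∧ (0 < d → (σ (c + d)).pos ≠ C.birth) := by
  have key : ∀ d', 0 < d' → d' ≤ d → (σ (c + d')).pos ≠ C.birth := fun d' h0 hd' => by
    rw [h.pos, hb]
    exact nbd_min C w h0 (by omega)
  exact ⟨h.cnt_const key, fun h0 => key d h0 le_rfl⟩

theorem TF.cycle (hC : C.Good L) (h : TF C lin w c σ) (hb : (σ c).pos = C.birth) :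
    (σ (c + nbd C w c)).pos = C.birth ∧ (σ (c + nbd C w c)).cnt = (σ c).cnt + 1 := by
  obtain ⟨h0, -, h1⟩ := nbd_spec w hC c
  have h2 : (σ (c + nbd C w c)).pos = C.birth := by rw [h.pos, hb, h1]
  refine ⟨h2, ?_⟩
  obtain ⟨d, hd⟩ : ∃ d, nbd C w c = d + 1 := ⟨nbd C w c - 1, by omega⟩
  have h3 := (h.in_cycle hb (d := d) (by omega)).1
  rw [hd, ← Nat.add_assoc, h _ (Nat.le_add_right _ _)] at h2 ⊢
  rw [step_pos] at h2
  rw [step_cnt, ncnt, if_pos h2, h3]

theorem TF.at_bt (hC : C.Good L) (h : TF C lin w c σ) (hb : (σ c).pos = C.birth) (j : ℕ) :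
    (σ (bt C w c j)).pos = C.birth ∧ (σ (bt C w c j)).cnt = (σ c).cnt + j := by
  induction j with
  | zero => exact ⟨hb, by simp [bt_zero]⟩
  | succ j ih =>
    obtain ⟨h1, h2⟩ := (h.mono (le_bt w hC c j)).cycle hC ih.1
    rw [bt_succ]
    exact ⟨h1, by rw [h2, ih.2]; push_cast; ring⟩

/-- No jump inside a macro cycle. -/
theorem TF.not_J (hC : C.Good L) (h : TF C lin w c σ) (hJ : J C (σ c)) {t : ℕ} (h1 : c < t)
    (h2 : t < bt C w c (cD U)) : ¬ J C (σ t) := by
  obtain ⟨j, d, rfl, hd⟩ := exists_locate w hC h1.le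
  obtain ⟨h3, h4⟩ := h.at_bt hC hJ.1 j
  obtain ⟨h5, h6⟩ := (h.mono (le_bt w hC c j)).in_cycle h3 hd
  rintro ⟨h7, h8⟩
  have hd0 : d = 0 := by
    by_contra hne
    exact h6 (by omega) h7
  subst hd0
  have hj : j < cD U := (bt_strictMono w hC c).lt_iff_lt.1 h2
  have hj0 : j ≠ 0 := by
    rintro rfl
    exact absurd h1 (lt_irrefl _)
  rw [h5, h4, val_add_mod, Nat.add_mod, hJ.2, Nat.zero_add, Nat.mod_mod,
    Nat.mod_eq_of_lt hj] at h8
  exact hj0 h8

theorem TF.J_bt (hC : C.Good L) (h : TF C lin w c σ) (hJ : J C (σ c)) (j : ℕ) :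
    J C (σ (bt C w c (cD U * j))) := by
  obtain ⟨h3, h4⟩ := h.at_bt hC hJ.1 (cD U * j)
  refine ⟨h3, ?_⟩
  rw [h4, val_add_mod, Nat.add_mul_mod_self_left, hJ.2]

/-- Evolution while no jump occurs. -/
theorem TF.quiet (h : TF C lin w c σ) {d : ℕ} (hd : ∀ t, c < t → t ≤ c + d → ¬ J C (σ t)) :
    (σ (c + d)).s = (σ c).s ∧ (σ (c + d)).cnt.val / cD U = (σ c).cnt.val / cD U ∧
    (σ (c + d)).cur = linrun C lin (σ c).pos (seg w c d) (σ c).cur ∧
    ((σ c).cnt.val / cD U < cr U → (σ (c + d)).lab = (σ c).lab ∧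
      (σ (c + d)).pend = linrun C lin (σ c).pos (seg w c d) ∘ (σ c).pend) ∧
    (cr U ≤ (σ c).cnt.val / cD U → (σ c).pend = id → (σ (c + d)).pend = id) := by
  induction d with
  | zero => exact ⟨rfl, rfl, rfl, fun _ => ⟨rfl, rfl⟩, fun _ h => h⟩
  | succ d ih =>
    obtain ⟨i1, i2, i3, i4, i5⟩ := ih fun t h1 h2 => hd t h1 (by omega)
    have h1 := hd (c + d + 1) (by omega) le_rfl
    rw [← Nat.add_assoc]
    rw [h _ (Nat.le_add_right _ _)] at h1 ⊢
    obtain ⟨q1, q2⟩ := step_quiet C lin _ _ h1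
    refine ⟨q1.trans i1, (step_div C lin _ _ h1).trans i2, ?_, fun hr => ?_, fun hr _ => ?_⟩
    · rw [q2, i3, linrun_seg_succ, h.pos]
    · obtain ⟨-, q3, q4⟩ := step_wait C lin _ _ h1 (i2 ▸ hr)
      refine ⟨q3.trans (i4 hr).1, ?_⟩
      rw [q4, (i4 hr).2, h.pos]
      funext x
      exact (linrun_seg_succ C lin _ w c d _).symm
    · exact (step_kill C lin _ _ h1 (i2 ▸ hr)).2.2

/-- Evolution up to and including the next jump. -/
theorem TF.jump (h : TF C lin w c σ) {T : ℕ} (hT : c < T)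
    (hd : ∀ t, c < t → t < T → ¬ J C (σ t)) (hJ : J C (σ T)) :
    (σ T).s = (σ c).s + inc (linrun C lin (σ c).pos (seg w c (T - c)) ∘ (σ c).pend)
      ((σ c).cnt.val / cD U) ∧
    (σ T).lab = linrun C lin (σ c).pos (seg w c (T - c)) (σ c).cur +
      gam ((σ T).cnt.val / cD U) (σ T).s ∧ (σ T).pend = id := by
  obtain ⟨d, rfl⟩ : ∃ d, T = c + d + 1 := ⟨T - c - 1, by omega⟩
  obtain ⟨i1, i2, i3, i4, -⟩ := h.quiet (d := d) fun t h1 h2 => hd t h1 (by omega)
  rw [show c + d + 1 - c = d + 1 by omega]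
  rw [h _ (Nat.le_add_right _ _)] at hJ ⊢
  obtain ⟨q1, q2, q3⟩ := step_jump C lin _ _ hJ
  refine ⟨?_, ?_, q3⟩
  · rw [q1, i1, i2]
    rcases le_or_gt (cr U) ((σ c).cnt.val / cD U) with hr | hr
    · rw [inc_of_le _ hr, inc_of_le _ hr]
    · rw [(i4 hr).2, h.pos]
      congr 2
      funext x
      exact (linrun_seg_succ C lin _ w c d _).symm
  · rw [q2, i3, linrun_seg_succ, h.pos]

end Crest.Agent.R320.Lev2Aux
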