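import Crest.Agent.R320.Reg
import Crest.Agent.R320.Lev2Aux2

set_option linter.unusedSectionVars false

namespace Crest.Agent.R320
universe u

namespace Lev2Aux

variable {A : Type u} {V : Type} [AddCommGroup V] {U : Type} [AddCommGroup U] [Finite U]
variable {C : CData A V} {lin : C.Pos → A → U →+ U}

variable (lin) in
/-- The linear map along the macro cycle starting at time `t`. -/
noncomputable def mac (w : ℕ → A) (t : ℕ) : U → U :=
  linrun C lin C.birth (seg w t (bt C w t (cD U) - t))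

variable {w : ℕ → A} {c : ℕ} {σ : ℕ → St C.Pos U} {L : ℕ}

theorem lt_bt_D (hC : C.Good L) (w : ℕ → A) (c : ℕ) : c < bt C w c (cD U) :=
  bt_strictMono w hC c (cD_pos U)

theorem bt_mul_succ (w : ℕ → A) (c j : ℕ) :
    bt C w c (cD U * (j + 1)) = bt C w (bt C w c (cD U * j)) (cD U) := by
  rw [Nat.mul_succ, bt_add]

theorem TF.macro (hC : C.Good L) (h : TF C lin w c σ) (hJ : J C (σ c)) :
    (σ (bt C w c (cD U))).s = (σ c).s + inc (mac lin w c ∘ (σ c).pend) ((σ c).cnt.val / cD U) ∧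
    (σ (bt C w c (cD U))).lab = mac lin w c (σ c).cur +
      gam ((σ (bt C w c (cD U))).cnt.val / cD U) (σ (bt C w c (cD U))).s ∧
    (σ (bt C w c (cD U))).pend = id := by
  have := h.jump (lt_bt_D (U := U) hC w c) (fun t h1 h2 => h.not_J hC hJ h1 h2)
    (by simpa using h.J_bt hC hJ 1)
  rwa [hJ.1] at this

theorem cr_mul_lt : cD U * cr U < cL U :=
  Nat.mul_lt_mul_of_pos_left (by unfold cM; omega) (cD_pos U)

/-- The killing phase. -/
theorem TF.k2core (hC : C.Good L) (h : TF C lin w c σ) (hb : (σ c).pos = C.birth)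
    (hc : (σ c).cnt.val = cD U * cr U) {b : ℕ} (hbn : b < cnb U)
    (hω : ∀ k : Fin (cQ U),
      Bf U b (σ c).s k = mac lin w (bt C w c (cD U * (b * cQ U + k + 1)))) :
    ∃ t, c < t ∧ t ≤ c + cL U * C.ell ∧ Hit C (σ t) := by
  have hD := cD_pos U
  have hJ : J C (σ c) := ⟨hb, by rw [hc, Nat.mul_mod_right]⟩
  have hcnt : ∀ j, j ≤ cnb U * cQ U →
      (σ (bt C w c (cD U * j))).cnt.val / cD U = cr U + j := fun j hj => by
    have hlt : cD U * (cr U + j) < cL U :=
      Nat.mul_lt_mul_of_pos_left (by unfold cM; omega) hD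
    rw [(h.at_bt hC hb _).2, val_add_of_lt _ _ (by rw [hc, ← Nat.mul_add]; exact hlt), hc,
      ← Nat.mul_add, Nat.mul_div_cancel_left _ hD]
  have hmac := fun j => (h.mono (le_bt w hC c (cD U * j))).macro hC (h.J_bt hC hJ j)
  simp only [← bt_mul_succ] at hmac
  have hs : ∀ j, j ≤ cnb U * cQ U → (σ (bt C w c (cD U * j))).s = (σ c).s := by
    intro j
    induction j with
    | zero => intro _; rfl
    | succ j ih =>
      intro hj
      rw [(hmac j).1, hcnt j (by omega), inc_of_le _ (Nat.le_add_right _ _), add_zero,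
        ih (by omega)]
  have hle : ∀ k, k < cQ U → b * cQ U + k + 1 ≤ cnb U * cQ U := fun k hk => by
    have : (b + 1) * cQ U ≤ cnb U * cQ U := Nat.mul_le_mul_right _ hbn
    rw [Nat.succ_mul] at this
    omega
  set u : ℕ → U := fun k => mac lin w (bt C w c (cD U * (b * cQ U + k)))
    (σ (bt C w c (cD U * (b * cQ U + k)))).cur with hu
  have hlab : ∀ k, k < cQ U → (σ (bt C w c (cD U * (b * cQ U + k + 1)))).lab =
      u k + kv (ext (Bf U b (σ c).s)) k := fun k hk => by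
    rw [(hmac _).2.1, hcnt _ (hle k hk), hs _ (hle k hk), gam_eq hk]
  obtain ⟨k, hk, h0⟩ := exists_kill (ext (Bf U b (σ c).s)) u fun k hk => by
    have hk' : k < cQ U := by unfold cQ; omega
    rw [← hlab k hk', ext, dif_pos hk', hω ⟨k, hk'⟩]
    simp only [hu, St.cur]
    rw [← Nat.add_assoc, (hmac _).2.2]
    rfl
  have hk' : k < cQ U := hk
  refine ⟨bt C w c (cD U * (b * cQ U + k + 1)), ?_, ?_, h.J_bt hC hJ _, ?_, ?_⟩
  · exact bt_strictMono w hC c (show 0 < _ by positivity)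
  · refine (bt_le w hC c _).trans (Nat.add_le_add_left (Nat.mul_le_mul_right _ ?_) _)
    have := hle k hk'
    exact Nat.mul_le_mul_left _ (by unfold cM; omega)
  · rw [hcnt _ (hle k hk')]; omega
  · rw [hlab k hk', h0]

variable (lin) in
/-- Among `r` distinct slots one is killed. -/
theorem k2 (hC : C.Good L) (w : ℕ → A) (c : ℕ) {sl : W U → ZMod (cN U)}
    (hsl : Function.Injective sl) : ∃ ω, ∀ σ : ℕ → St C.Pos U, TF C lin w c σ →
      (σ c).pos = C.birth → (σ c).cnt.val = cD U * cr U → (σ c).s = sl ω →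
      ∃ t, c < t ∧ t ≤ c + cL U * C.ell ∧ Hit C (σ t) := by
  have : Nonempty (W U) := ⟨fun _ => id⟩
  obtain ⟨b, hb, hB⟩ := exists_Bf (Function.invFun sl)
  refine ⟨fun k => mac lin w (bt C w c (cD U * (b * cQ U + k + 1))), fun σ h h1 h2 h3 => ?_⟩
  refine h.k2core hC h1 h2 hb fun k => ?_
  rw [hB, h3, Function.leftInverse_invFun hsl]

/-- A time inside the macro cycle at which the site has a prescribed counter value. -/
theorem TF.expose (hC : C.Good (cL U)) (hw : C.Rich w) (h : TF C lin w c σ) (hJ : J C (σ c))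
    {ν : ℕ} (hν : ν < cD U) : ∃ (h0 : C.Site) (e : ℕ), c ≤ e ∧ e < bt C w c (cD U) ∧
      (σ e).pos = C.spos h0 ∧ (σ e).cnt = (C.scnt h0 : ℕ) ∧ C.scnt h0 % cD U = ν ∧
      ∀ h', h' ≠ h0 → ∃ t, C.dead h' (seg w e t) := by
  obtain ⟨h0, d, h1, h2, h3, h4⟩ := hC.bt w hw (bt C w c ν) _ (add_lt_cL _ hJ.2 hν)
  obtain ⟨h5, h6⟩ := h.at_bt hC hJ.1 ν
  have hd := lt_nbd w hC h3
  have h' := h.mono (le_bt w hC c ν)
  refine ⟨h0, bt C w c ν + d, (le_bt w hC c ν).trans (Nat.le_add_right _ _), ?_, ?_, ?_, ?_, h4⟩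
  · have := (bt_strictMono w hC c).monotone (show ν + 1 ≤ cD U from hν)
    rw [bt_succ] at this
    omega
  · rw [h'.pos, h5, h2]
  · rw [(h'.in_cycle h5 hd).1, h6, h1]
    simp
  · rw [h1, Nat.add_mod, hJ.2, Nat.zero_add, Nat.mod_mod, Nat.mod_eq_of_lt hν]

theorem TF.exists_birth (hC : C.Good L) (h : TF C lin w c σ) :
    ∃ β, c < β ∧ β ≤ c + C.ell ∧ (σ β).pos = C.birth := by
  obtain ⟨d, h0, hd, hb⟩ := hC.p1 (σ c).pos w c
  exact ⟨c + d, by omega, by omega, by rw [h.pos, hb]⟩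

theorem tf_of_isTraj (h : (lev C lin).IsTraj w σ) (c : ℕ) : TF C lin w c σ := fun τ _ => h τ

theorem x1 (hC : C.Good (cL U)) (hw : C.Rich w) (hσ : (lev C lin).IsTraj w σ) {τ : ℕ}
    (hτ : 0 < τ) (hH : Hit C (σ τ)) : ∃ c h, τ ≤ c ∧ σ c = init C h id ∧
      ∀ h', h' ≠ h → ∃ t, C.dead h' (seg w c t) := by
  have h := tf_of_isTraj hσ τ
  have hpend : (σ τ).pend = id := by
    obtain ⟨τ', rfl⟩ : ∃ τ', τ = τ' + 1 := ⟨τ - 1, by omega⟩
    have hJ := hH.1
    have e : σ (τ' + 1) = step C lin (σ τ') (w τ') := hσ τ'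
    rw [e] at hJ ⊢
    exact (step_jump C lin _ _ hJ).2.2
  obtain ⟨ν, hν, hdec⟩ := exists_dec ((σ τ).s, (0 : U))
  obtain ⟨h0, e, he1, he2, hp, hc, hm, hd⟩ := h.expose hC hw hH.1 hν
  refine ⟨e, h0, he1, ?_, hd⟩
  obtain ⟨d, rfl⟩ := Nat.exists_eq_add_of_le he1
  obtain ⟨q1, -, q3, -, q5⟩ := h.quiet (d := d) fun t h1 h2 => h.not_J hC hH.1 h1 (by omega)
  have hp' := q5 hH.2.1 hpend
  have hl : (σ (τ + d)).lab = 0 := by
    unfold St.cur at q3
    rw [hp', hpend, hH.2.2] at q3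
    simpa using q3
  exact St.ext hp hc (by simp only [init, hdec _ hm]; exact q1)
    (by simp only [init, hdec _ hm]; exact hl) hp'

theorem seg_per {a b ell : ℕ} (hp : ∀ i, a ≤ i → i + ell ≤ b → w (i + ell) = w i) {x : ℕ}
    (n t : ℕ) (hx : a ≤ x) (hb : x + n * ell + t ≤ b) : seg w (x + n * ell) t = seg w x t := by
  induction n with
  | zero => simp
  | succ n ih =>
    rw [Nat.succ_mul] at hb ⊢
    rw [← ih (by omega)]
    refine seg_congr fun i hi => ?_
    rw [show x + (n * ell + ell) + i = x + n * ell + i + ell by omega]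
    exact hp _ (by omega) (by omega)

theorem bt_eq {a b β : ℕ} (hn : ∀ β, a ≤ β → β + C.ell ≤ b → nbd C w β = C.ell) (hβ : a ≤ β)
    (j : ℕ) (hj : β + j * C.ell ≤ b) : bt C w β j = β + j * C.ell := by
  induction j with
  | zero => simp [bt_zero]
  | succ j ih =>
    rw [Nat.succ_mul] at hj ⊢
    rw [bt_succ, ih (by omega), hn _ (by omega) (by omega), Nat.add_assoc]

variable (lin) in
theorem x2 (hC : C.Good (cL U)) : ∃ W : ℕ, ∀ (w : ℕ → A) (σ : ℕ → St C.Pos U),
    (lev C lin).IsTraj w σ → (∀ τ, 0 < τ → ¬ Hit C (σ τ)) → ∀ c, C.complete (seg w c W) := by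
  obtain ⟨W, hW⟩ := hC.p5 ((2 * cL U + 1) * C.ell)
  refine ⟨W, fun w σ hσ hno c => ?_⟩
  by_contra hcomp
  obtain ⟨c', -, hper, hcyc⟩ := hW w c (not_lt.1 hcomp)
  have hn : ∀ β, c' ≤ β → β + C.ell ≤ c' + (2 * cL U + 1) * C.ell → nbd C w β = C.ell :=
    fun β h1 h2 => by
      obtain ⟨h3, h4, h5⟩ := nbd_spec w hC β
      by_contra hne
      exact (hcyc β h1 h2).2 _ h3 (by omega) h5
  obtain ⟨β, hβ1, hβ2, hβ⟩ := (tf_of_isTraj hσ c').exists_birth hC
  obtain ⟨j, hj, hval⟩ := exists_wait (σ β).cnt (cr_mul_lt (U := U))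
  obtain ⟨h1, h2⟩ := (tf_of_isTraj hσ β).at_bt hC hβ j
  have hc1 := le_bt w hC β j
  have hc2 := bt_le w hC β j
  set c1 := bt C w β j with hc1def
  have hc3 : c1 + cL U * C.ell ≤ c' + (2 * cL U + 1) * C.ell := by
    have : j * C.ell ≤ cL U * C.ell := Nat.mul_le_mul_right _ hj.le
    nlinarith
  obtain ⟨b, hb, hB⟩ := exists_Bf (U := U)
    (fun _ _ => linrun C lin C.birth (seg w c1 (cD U * C.ell)))
  obtain ⟨t, ht, -, hH⟩ := (tf_of_isTraj hσ c1).k2core hC h1 (by rw [h2, hval]) hb fun k => by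
    have hle : cD U * (b * cQ U + k + 1) + cD U ≤ cL U := by
      have h3 : (b + 1) * cQ U ≤ cnb U * cQ U := Nat.mul_le_mul_right _ hb
      have h4 := k.2
      rw [Nat.succ_mul] at h3
      rw [← Nat.mul_succ]
      exact Nat.mul_le_mul_left _ (by unfold cM; omega)
    have hle' := Nat.mul_le_mul_right C.ell hle
    rw [Nat.add_mul] at hle'
    rw [hB, mac, bt_eq hn (by omega) _ (by omega), bt_eq hn (by omega) _ (by omega),
      Nat.add_sub_cancel_left, seg_per hper _ _ (by omega) (by omega)]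
  exact hno t (by omega) hH

variable (lin) in
theorem x3 (hC : C.Good (cL U)) : ∃ G : ℕ, ∀ (w : ℕ → A) (σ : ℕ → St C.Pos U), C.Rich w →
    (lev C lin).IsTraj w σ → ∀ τ, ∃ c h m, τ ≤ c ∧ c ≤ τ + G ∧ σ c = init C h m ∧
      (∀ h', h' ≠ h → ∃ t, C.dead h' (seg w c t)) ∧
      ∀ m', (lev C lin).NoHit (init C h m') (seg w c G) →
        run C lin (init C h m') (seg w c G) = σ (c + G) := by
  refine ⟨3 * (cL U * C.ell), fun w σ hw hσ τ => ?_⟩
  set G := 3 * (cL U * C.ell) with hG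
  by_contra hcon
  push Not at hcon
  have hD := cD_pos U
  have hTF := tf_of_isTraj hσ
  obtain ⟨β, hβ1, hβ2, hβ⟩ := (hTF τ).exists_birth hC
  obtain ⟨j, hj, hval⟩ := exists_wait (σ β).cnt (cL_pos U)
  obtain ⟨h1, h2⟩ := (hTF β).at_bt hC hβ j
  have hc1 := le_bt w hC β j
  have hc2 := bt_le w hC β j
  set c0 := bt C w β j with hc0def
  have hc3 : c0 ≤ τ + cL U * C.ell := by
    have : (j + 1) * C.ell ≤ cL U * C.ell := Nat.mul_le_mul_right _ hj
    rw [Nat.succ_mul] at this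
    omega
  rw [← h2] at hval
  have hJ0 : J C (σ c0) := ⟨h1, by rw [hval, Nat.zero_mod]⟩
  have hcnt : ∀ α, α ≤ cr U → (σ (bt C w c0 (cD U * α))).cnt.val = cD U * α := fun α hα => by
    have : cD U * α < cL U := lt_of_le_of_lt (Nat.mul_le_mul_left _ hα) cr_mul_lt
    rw [((hTF c0).at_bt hC h1 _).2, val_add_of_lt _ _ (by rwa [hval, Nat.zero_add]), hval,
      Nat.zero_add]
  set cR := bt C w c0 (cD U * cr U) with hcR
  have hcR2 : cR ≤ c0 + cL U * C.ell :=
    (bt_le w hC c0 _).trans (Nat.add_le_add_left (Nat.mul_le_mul_right _ cr_mul_lt.le) _)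
  have key : ∀ α, α < cr U → ∃ (σ' : ℕ → St C.Pos U) (x y : ℕ), TF C lin w cR σ' ∧
      (σ' cR).pos = C.birth ∧ (σ' cR).cnt.val = cD U * cr U ∧ x < cK U ∧ y < cK U ∧ x ≠ y ∧
      (σ' cR).s = (σ cR).s + ((x : ZMod (cN U)) - y) * (Lam U α : ℕ) ∧
      ∀ t, cR < t → t ≤ cR + cL U * C.ell → ¬ Hit C (σ' t) := by
    intro α hα
    have hJ := (hTF c0).J_bt hC hJ0 α
    have hT0 := le_bt w hC c0 (cD U * α)
    have hdiv : (σ (bt C w c0 (cD U * α))).cnt.val / cD U = α := by
      rw [hcnt α hα.le, Nat.mul_div_cancel_left _ hD]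
    have hJ' := (hTF c0).J_bt hC hJ0 (α + 1)
    have hT' : bt C w c0 (cD U * (α + 1)) ≤ cR :=
      (bt_strictMono w hC c0).monotone (Nat.mul_le_mul_left _ hα)
    rw [bt_mul_succ] at hJ' hT'
    set T := bt C w c0 (cD U * α) with hT
    set T' := bt C w T (cD U) with hT'def
    obtain ⟨ν, hν, hdec⟩ := exists_dec ((σ T).s, (σ T).lab)
    obtain ⟨h0, e, he1, he2, hp, hc, hm, hd⟩ := (hTF T).expose hC hw hJ hν
    have hq : (σ e).s = (σ T).s ∧ (σ e).cnt.val / cD U = α ∧ (σ e).lab = (σ T).lab := by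
      obtain ⟨d, rfl⟩ := Nat.exists_eq_add_of_le he1
      obtain ⟨q1, q2, -, q4, -⟩ := (hTF T).quiet (d := d)
        fun t h1 h2 => (hTF T).not_J hC hJ h1 (by omega)
      exact ⟨q1, q2.trans hdiv, (q4 (by rwa [hdiv])).1⟩
    have hinit : σ e = init C h0 (σ e).pend :=
      St.ext hp hc (by simp only [init, hdec _ hm]; exact hq.1)
        (by simp only [init, hdec _ hm]; exact hq.2.2) rfl
    obtain ⟨m', hno, hne⟩ := hcon e h0 _ (by omega) (by omega) hinit hd
    set σ' := trk C lin w e (init C h0 m') with hσ'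
    have hTF' : TF C lin w e σ' := tf_trk C lin w e _
    have he' : σ' e = init C h0 m' := trk_self C lin w e _
    have e1 : (σ' e).pos = (σ e).pos := by rw [he', hinit]; rfl
    have e2 : (σ' e).cnt = (σ e).cnt := by rw [he', hinit]; rfl
    have e3 : (σ' e).s = (σ e).s := by rw [he', hinit]; rfl
    have e4 : (σ' e).lab = (σ e).lab := by rw [he', hinit]; rfl
    have hpc := fun t ht => hTF'.pc (hTF e) e1 e2 (t := t) ht
    have hJJ : ∀ t, e ≤ t → (J C (σ' t) ↔ J C (σ t)) := fun t ht => by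
      unfold J; rw [(hpc t ht).1, (hpc t ht).2]
    have hnj : ∀ t, e < t → t < T' → ¬ J C (σ t) := fun t h1 h2 =>
      (hTF T).not_J hC hJ (by omega) h2
    obtain ⟨j1, j2, j3⟩ := (hTF e).jump he2 hnj hJ'
    obtain ⟨k1, k2, k3⟩ := hTF'.jump he2 (fun t h1 h2 => (hJJ t h1.le).not.2 (hnj t h1 h2))
      ((hJJ T' he2.le).2 hJ')
    rw [e1, e2, e3] at k1
    rw [e1, (hpc T' he2.le).2] at k2
    rw [hq.2.1] at j1 k1
    set Φ := linrun C lin (σ e).pos (seg w e (T' - e)) with hΦ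
    refine ⟨σ', io (Φ ∘ (σ' e).pend), io (Φ ∘ (σ e).pend), hTF'.mono (by omega), ?_, ?_,
      io_lt _, io_lt _, fun hio => hne ?_, ?_, fun t ht1 ht2 hH => ?_⟩
    · rw [(hpc cR (by omega)).1]
      exact ((hTF c0).at_bt hC h1 _).1
    · rw [(hpc cR (by omega)).2]
      exact hcnt _ le_rfl
    · have hfun := io_inj hio
      have hs : (σ' T').s = (σ T').s := by rw [j1, k1, hfun]
      have hst : σ' T' = σ T' := by
        refine St.ext (hpc T' he2.le).1 (hpc T' he2.le).2 hs ?_ (k3.trans j3.symm)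
        rw [j2, k2, hs]
        congr 1
        unfold St.cur
        rw [e4]
        exact congrFun hfun _
      obtain ⟨d, hd⟩ : ∃ d, e + G = T' + d := ⟨e + G - T', by omega⟩
      rw [← trk_add, ← hσ', hd, (hTF'.mono he2.le).run, (hTF T').run, hst]
    · obtain ⟨d, hd⟩ := Nat.exists_eq_add_of_le hT'
      have := (run_same C lin (seg w T' d) (hpc T' he2.le).1 (hpc T' he2.le).2
        (k3.trans j3.symm)).1
      rw [← (hTF'.mono he2.le).run, ← (hTF T').run, ← hd, j1, k1] at this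
      unfold inc at this
      linear_combination this
    · refine hno (seg w e (t - e)) (seg_prefix w e (by omega)) (fun h => ?_) hH
      have := congrArg List.length h
      simp at this
      omega
  have : Nonempty (ℕ → St C.Pos U) := ⟨σ⟩
  choose! σ' x y hk using key
  have hlt : ∀ ω : W U, (Finite.equivFin (W U) ω).val < cr U := fun ω =>
    (Finite.equivFin (W U) ω).2
  obtain ⟨ω, hω⟩ := k2 lin hC w cR (sl := fun ω => (σ' (Finite.equivFin (W U) ω).val cR).s)
    fun ω ω' h => by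
      obtain ⟨-, -, -, a1, a2, a3, a4, -⟩ := hk _ (hlt ω)
      obtain ⟨-, -, -, b1, b2, -, b4, -⟩ := hk _ (hlt ω')
      simp only [a4, b4, add_right_inj] at h
      exact (Finite.equivFin (W U)).injective
        (Fin.ext (slot_inj (hlt ω) (hlt ω') a1 a2 b1 b2 a3 h))
  obtain ⟨a1, a2, a3, -, -, -, -, a8⟩ := hk _ (hlt ω)
  obtain ⟨t, t1, t2, t3⟩ := hω _ a1 a2 a3 rfl
  exact a8 t t1 t2 t3

theorem prun_rep {x : List A} (hx : C.prun C.birth x = C.birth) (n : ℕ) :
    C.prun C.birth (rep x n) = C.birth := by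
  induction n with
  | zero => rfl
  | succ n ih => rw [rep_succ, C.prun_append, hx, ih]

theorem linrun_rep {x : List A} (hx : C.prun C.birth x = C.birth) (n : ℕ) (l : U) :
    linrun C lin C.birth (rep x n) l = (linrun C lin C.birth x)^[n] l := by
  induction n generalizing l with
  | zero => rfl
  | succ n ih => rw [rep_succ, linrun_append, hx, ih, Function.iterate_succ_apply]

theorem x4 (hC : C.Good (cL U)) (w : ℕ → A) (q k : ℕ) (hk : 0 < k)
    (hper : ∀ i, w (i + q) = w i) (hb : C.prun C.birth (seg w 0 (k * q)) = C.birth)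
    (hyp : ∀ (σ : ℕ → St C.Pos U) (m : ℕ), 0 < m → (lev C lin).IsTraj w σ →
      (σ 0).pos = C.birth → σ (m * q) = σ 0 → (∃ τ, 0 < τ ∧ Hit C (σ τ)) → σ q = σ 0) :
    C.prun C.birth (seg w 0 q) = C.birth ∧ ∃ m : ℕ, ∀ l : U,
      (linrun C lin C.birth (seg w 0 q))^[m + 1] l = (linrun C lin C.birth (seg w 0 q))^[m] l := by
  have := hC.finPos
  set x := seg w 0 q with hx
  obtain ⟨m, hm0, ⟨m1, hm1⟩, hid⟩ := exists_idem_iter (fun σ : St C.Pos U => run C lin σ x) k hk
  have hGn : ∀ n (σ : St C.Pos U),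
      (fun σ : St C.Pos U => run C lin σ x)^[n] σ = run C lin σ (rep x n) := by
    intro n
    induction n with
    | zero => intro σ; rfl
    | succ n ih => intro σ; rw [Function.iterate_succ_apply, ih, rep_succ, run_append]
  simp only [hGn] at hid
  have hbm : C.prun C.birth (rep x m) = C.birth := by
    rw [hm1, Nat.mul_comm, rep_mul]
    exact prun_rep (by rwa [hx, ← seg_mul_eq_rep hper]) m1
  set σ0 : ZMod (cN U) → U → St C.Pos U :=
    fun s l => ⟨C.birth, (cD U * cr U : ℕ), s, l, id⟩ with hσ0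
  set σ2 : ZMod (cN U) → U → St C.Pos U := fun s l => run C lin (σ0 s l) (rep x m) with hσ2
  have hp2 : ∀ s l, (σ2 s l).pos = C.birth := fun s l => (run_pos C lin _ _).trans hbm
  have hc2 : ∀ s l, (σ2 s l).cnt.val = cD U * cr U := fun s l => by
    have h1 := run_cnt_sub C lin (σ := σ2 s l) (σ' := σ0 s l) (rep x m) (hp2 s l)
    have h2 : run C lin (σ2 s l) (rep x m) = σ2 s l := hid _
    rw [h2] at h1
    have h3 : (σ2 s l).cnt = (σ0 s l).cnt := by
      change (σ2 s l).cnt - (σ2 s l).cnt = _ at h1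
      rw [sub_self] at h1
      exact sub_eq_zero.1 h1.symm
    rw [h3]
    exact (ZMod.val_natCast _ _).trans (Nat.mod_eq_of_lt cr_mul_lt)
  have hs2 : ∀ s l, (σ2 s l).s = s + (σ2 0 0).s := fun s l => by
    have h1 := (run_same C lin (σ := σ0 s l) (σ' := σ0 0 0) (rep x m) rfl rfl rfl).1
    change (σ2 s l).s - (σ2 0 0).s = s - 0 at h1
    linear_combination h1
  obtain ⟨e, he⟩ := exists_slot (U := U)
  obtain ⟨ω, hω⟩ := k2 lin hC w 0 (sl := fun ω => e ω + (σ2 0 0).s)
    fun ω ω' h => he (add_right_cancel h)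
  have hfix : ∀ l, run C lin (σ2 (e ω) l) x = σ2 (e ω) l := fun l => by
    obtain ⟨t, t1, -, t3⟩ := hω (trk C lin w 0 (σ2 (e ω) l)) (tf_trk C lin w 0 _) (hp2 _ _)
      (hc2 _ _) (hs2 _ _)
    refine hyp (trk C lin w 0 (σ2 (e ω) l)) m hm0
      (fun τ => tf_trk C lin w 0 _ τ (Nat.zero_le _)) (hp2 _ _) ?_ ⟨t, t1, t3⟩
    change run C lin (σ2 (e ω) l) (seg w 0 (m * q)) = σ2 (e ω) l
    rw [seg_mul_eq_rep hper]
    exact hid _
  have hx1 : C.prun C.birth x = C.birth := by
    have := congrArg St.pos (hfix 0)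
    rwa [run_pos, hp2] at this
  refine ⟨hx1, m, fun l => ?_⟩
  have hdiff : ∀ n, (run C lin (σ0 (e ω) l) (rep x n)).cur - (run C lin (σ0 (e ω) 0) (rep x n)).cur
      = (linrun C lin C.birth x)^[n] l := fun n => by
    rw [(run_same C lin (σ := σ0 (e ω) l) (σ' := σ0 (e ω) 0) (rep x n) rfl rfl rfl).2 rfl,
      ← linrun_rep hx1]
    exact congrArg _ (sub_zero l)
  rw [← hdiff, ← hdiff, rep_succ', run_append, run_append]
  exact congrArg₂ (fun a b : St C.Pos U => a.cur - b.cur) (hfix l) (hfix 0)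

/-- The linearisation of the affine label maps. -/
noncomputable def flin (C : CData A V) (p : C.Pos) (a : A) : (V →₀ ZMod 2) →+ (V →₀ ZMod 2) :=
  Finsupp.mapDomain.addMonoidHom fun l => C.rho a l + C.tr p a

theorem linrun_flin [Finite (V →₀ ZMod 2)] (p : C.Pos) (u : List A) (l : V) :
    linrun C (flin C) p u (Finsupp.single l 1) = Finsupp.single (C.trun (p, l) u).2 1 := by
  induction u generalizing p l with
  | nil => rfl
  | cons a u ih =>
    have : flin C p a (Finsupp.single l 1) = Finsupp.single (C.rho a l + C.tr p a) 1 :=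
      Finsupp.mapDomain_single
    rw [linrun_cons, this, ih]
    rfl

end Lev2Aux

open Lev2Aux in
theorem exists_lev2 (V : Type) [AddCommGroup V] [Finite V] : ∃ L, 0 < L ∧
    ∀ (A : Type u) (C : CData A V), C.Good L → ∃ X : Lev2 C, X.Good := by
  have : Finite (V →₀ ZMod 2) := Finite.of_injective _ DFunLike.coe_injective
  refine ⟨cL (V →₀ ZMod 2), cL_pos _, fun A C hC => ⟨lev C (flin C), ?_⟩⟩
  have := hC.finPos
  refine ⟨inferInstanceAs (Finite (St C.Pos (V →₀ ZMod 2))),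
    inferInstanceAs (Finite ((V →₀ ZMod 2) → (V →₀ ZMod 2))), step_pos C (flin C),
    fun _ _ => rfl, fun w σ hw hσ τ hτ hH => x1 hC hw hσ hτ hH, x2 (flin C) hC, x3 (flin C) hC,
    fun w q k _ hk hper hb hyp => ?_⟩
  obtain ⟨h1, m, h2⟩ := x4 hC w q k hk hper hb hyp
  refine ⟨h1, m, fun lam => ?_⟩
  have key : ∀ n (l : V), (linrun C (flin C) C.birth (seg w 0 q))^[n] (Finsupp.single l 1) =
      Finsupp.single ((fun l => (C.trun (C.birth, l) (seg w 0 q)).2)^[n] l) 1 := by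
    intro n
    induction n with
    | zero => intro l; rfl
    | succ n ih =>
      intro l
      rw [Function.iterate_succ_apply, Function.iterate_succ_apply, linrun_flin, ih]
  have h3 := h2 (Finsupp.single lam 1)
  rw [key, key] at h3
  exact Finsupp.single_left_injective one_ne_zero h3

end Crest.Agent.R320
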