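import Crest.Agent.R320.Defs

/-!
Row 320: constants and the level-two automaton over an abstract linear system `lin`.
-/

set_option linter.unusedSectionVars false

namespace Crest.Agent.R320.Lev2Aux
open Crest.Agent.R320
universe u

/-! ### Killing vectors -/

section kill
variable {U : Type} [AddCommGroup U]

open Classical in
/-- Minus some element of `S`. -/
noncomputable def pick (S : Set U) : U := if h : S.Nonempty then -h.some else 0

/-- The labels that may still be alive after `k` rounds. -/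
noncomputable def alive (ω : ℕ → U → U) : ℕ → Set U
  | 0 => Set.univ
  | k + 1 => ω k '' (((fun x => x + pick (alive ω k)) '' alive ω k) \ {0})

/-- The killing vectors. -/
noncomputable def kv (ω : ℕ → U → U) (k : ℕ) : U := pick (alive ω k)

theorem ncard_shift [Finite U] (S : Set U) :
    (((fun x => x + pick S) '' S) \ {0}).ncard ≤ S.ncard - 1 := by
  by_cases h : S.Nonempty
  · have h0 : (0 : U) ∈ (fun x => x + pick S) '' S :=
      ⟨h.some, h.some_mem, by simp [pick, h]⟩
    rw [Set.ncard_sdiff_singleton_of_mem h0]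
    exact Nat.sub_le_sub_right (Set.ncard_image_le (Set.toFinite _)) 1
  · rw [Set.not_nonempty_iff_eq_empty.1 h]; simp

theorem ncard_alive [Finite U] (ω : ℕ → U → U) (k : ℕ) : (alive ω k).ncard ≤ Nat.card U - k := by
  induction k with
  | zero => simp [alive]
  | succ k ih =>
    have h1 := ncard_shift (alive ω k)
    have h2 : (alive ω (k + 1)).ncard ≤
        (((fun x => x + pick (alive ω k)) '' alive ω k) \ {0}).ncard :=
      Set.ncard_image_le (Set.toFinite _)
    omega

theorem exists_kill [Finite U] (ω : ℕ → U → U) (u : ℕ → U)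
    (hu : ∀ k, k + 1 < Nat.card U → u (k + 1) = ω k (u k + kv ω k)) :
    ∃ k, k < Nat.card U ∧ u k + kv ω k = 0 := by
  by_contra hne
  push Not at hne
  have hQ : 0 < Nat.card U := Nat.card_pos
  have hmem : ∀ k, k < Nat.card U → u k ∈ alive ω k := by
    intro k
    induction k with
    | zero => intro _; trivial
    | succ k ih =>
      intro hk
      rw [hu k hk]
      exact ⟨u k + kv ω k, ⟨⟨u k, ih (by omega), rfl⟩, hne k (by omega)⟩, rfl⟩
  obtain ⟨k, hk⟩ : ∃ k, Nat.card U = k + 1 := ⟨Nat.card U - 1, by omega⟩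
  have h1 := ncard_shift (alive ω k)
  have h2 := ncard_alive ω k
  have h3 : 0 < (((fun x => x + pick (alive ω k)) '' alive ω k) \ {0}).ncard :=
    (Set.ncard_pos (Set.toFinite _)).2
      ⟨u k + kv ω k, ⟨u k, hmem k (by omega), rfl⟩, hne k (by omega)⟩
  omega

end kill

/-! ### Constants -/

section consts
variable (U : Type) [AddCommGroup U] [Finite U]

noncomputable def cQ : ℕ := Nat.card U
noncomputable def cK : ℕ := Nat.card (U → U)
abbrev W : Type := Fin (cQ U) → U → U
noncomputable def cr : ℕ := Nat.card (W U)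
noncomputable def cN : ℕ := 2 * cK U * (1 + 2 * cK U * cr U) + cr U + 1
instance : NeZero (cN U) := ⟨by unfold cN; omega⟩
noncomputable def cD : ℕ := Nat.card (ZMod (cN U) × U)
noncomputable def cnb : ℕ := Nat.card (ZMod (cN U) → W U)
noncomputable def cM : ℕ := cr U + 1 + cnb U * cQ U
noncomputable def cL : ℕ := cD U * cM U

theorem cQ_pos : 0 < cQ U := Nat.card_pos
theorem cD_pos : 0 < cD U := Nat.card_pos
theorem cr_pos : 0 < cr U := Nat.card_pos
theorem cM_pos : 0 < cM U := by unfold cM; omega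
theorem cL_pos : 0 < cL U := Nat.mul_pos (cD_pos U) (cM_pos U)
instance : NeZero (cL U) := ⟨(cL_pos U).ne'⟩

noncomputable def Lam (μ : ℕ) : ℕ := if μ < cr U then 1 + 2 * cK U * μ else 0

noncomputable def dec (n : ℕ) : ZMod (cN U) × U :=
  (Finite.equivFin (ZMod (cN U) × U)).symm ⟨n % cD U, Nat.mod_lt _ (cD_pos U)⟩

noncomputable def Bf (b : ℕ) : ZMod (cN U) → W U :=
  if h : b < cnb U then (Finite.equivFin (ZMod (cN U) → W U)).symm ⟨b, h⟩ else fun _ _ => id

variable {U}

noncomputable def io (f : U → U) : ℕ := (Finite.equivFin (U → U) f).val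

theorem io_lt (f : U → U) : io f < cK U := (Finite.equivFin (U → U) f).2

theorem io_inj {f g : U → U} (h : io f = io g) : f = g :=
  (Finite.equivFin (U → U)).injective (Fin.ext h)

theorem exists_dec (x : ZMod (cN U) × U) : ∃ ν, ν < cD U ∧ ∀ n, n % cD U = ν → dec U n = x :=
  ⟨(Finite.equivFin _ x).val, (Finite.equivFin _ x).2, fun n hn => by
    unfold dec
    rw [Equiv.symm_apply_eq]
    exact Fin.ext hn⟩

theorem exists_Bf (B : ZMod (cN U) → W U) : ∃ b, b < cnb U ∧ Bf U b = B :=
  ⟨(Finite.equivFin _ B).val, (Finite.equivFin _ B).2,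
    (dif_pos (Finite.equivFin _ B).2).trans (Equiv.symm_apply_apply _ _)⟩

/-- Extension of an element of `W` to all indices. -/
noncomputable def ext (ω : W U) (k : ℕ) : U → U := if h : k < cQ U then ω ⟨k, h⟩ else id

noncomputable def gam (μ : ℕ) (s : ZMod (cN U)) : U :=
  if cr U + 1 ≤ μ then
    kv (ext (Bf U ((μ - (cr U + 1)) / cQ U) s)) ((μ - (cr U + 1)) % cQ U) else 0

theorem gam_eq {b k : ℕ} (hk : k < cQ U) (s : ZMod (cN U)) :
    gam (cr U + (b * cQ U + k + 1)) s = kv (ext (Bf U b s)) k := by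
  unfold gam
  rw [if_pos (by omega), show cr U + (b * cQ U + k + 1) - (cr U + 1) = k + b * cQ U by omega,
    Nat.add_mul_div_right _ _ (cQ_pos U), Nat.add_mul_mod_self_right, Nat.div_eq_of_lt hk,
    Nat.mod_eq_of_lt hk, Nat.zero_add]

theorem val_add_mod (x : ZMod (cL U)) (j : ℕ) :
    (x + j).val % cD U = (x.val + j) % cD U := by
  have hd : cD U ∣ cL U := Dvd.intro _ rfl
  rw [ZMod.val_add, Nat.mod_mod_of_dvd _ hd, ZMod.val_natCast, Nat.add_mod,
    Nat.mod_mod_of_dvd _ hd, ← Nat.add_mod]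

theorem val_add_of_lt (x : ZMod (cL U)) (j : ℕ) (h : x.val + j < cL U) :
    (x + j).val = x.val + j := by
  rw [ZMod.val_add, ZMod.val_natCast, Nat.mod_eq_of_lt (show j < cL U by omega),
    Nat.mod_eq_of_lt h]

theorem val_succ_div (x : ZMod (cL U)) (h : (x + 1).val % cD U ≠ 0) :
    (x + 1).val / cD U = x.val / cD U := by
  have h1 := ZMod.val_lt x
  have hD := cD_pos U
  by_cases h2 : x.val + 1 < cL U
  · have h3 := val_add_of_lt x 1 h2
    rw [Nat.cast_one] at h3
    rw [h3] at h ⊢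
    rw [Nat.succ_div, if_neg (fun hd => h (Nat.mod_eq_zero_of_dvd hd)), Nat.add_zero]
  · exfalso
    apply h
    have h3 := val_add_mod x 1
    rw [Nat.cast_one] at h3
    rw [h3, show x.val + 1 = cL U by omega]
    exact Nat.mul_mod_right _ _

theorem add_lt_cL (x : ZMod (cL U)) (h : x.val % cD U = 0) {ν : ℕ} (hν : ν < cD U) :
    x.val + ν < cL U := by
  have h1 := ZMod.val_lt x
  obtain ⟨μ, hμ⟩ := Nat.dvd_of_mod_eq_zero h
  rw [hμ] at h1 ⊢
  unfold cL at *
  have : μ < cM U := Nat.lt_of_mul_lt_mul_left h1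
  nlinarith

theorem exists_wait (x : ZMod (cL U)) {n : ℕ} (hn : n < cL U) :
    ∃ j : ℕ, j < cL U ∧ (x + j).val = n :=
  ⟨((n : ZMod (cL U)) - x).val, ZMod.val_lt _, by
    rw [ZMod.natCast_zmod_val, add_sub_cancel, ZMod.val_natCast, Nat.mod_eq_of_lt hn]⟩

/-- The slots reached by wrong hypotheses are pairwise distinct. -/
theorem slot_inj {α β x y x' y' : ℕ} (hα : α < cr U) (hβ : β < cr U) (hx : x < cK U)
    (hy : y < cK U) (hx' : x' < cK U) (hy' : y' < cK U) (hne : x ≠ y)
    (h : ((x : ZMod (cN U)) - y) * (Lam U α : ℕ) = ((x' : ZMod (cN U)) - y') * (Lam U β : ℕ)) :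
    α = β := by
  unfold Lam at h
  rw [if_pos hα, if_pos hβ] at h
  set K := cK U with hK
  set r := cr U with hr
  have h1 : ((((x : ℤ) - y) * (1 + 2 * K * α) - ((x' : ℤ) - y') * (1 + 2 * K * β) : ℤ) :
      ZMod (cN U)) = 0 := by
    push_cast at h ⊢
    rw [h, sub_self]
  rw [ZMod.intCast_zmod_eq_zero_iff_dvd] at h1
  have hN : (cN U : ℤ) = 2 * K * (1 + 2 * K * r) + r + 1 := by
    unfold cN; push_cast; rfl
  have b1 : |(x : ℤ) - y| < K := by rw [abs_lt]; constructor <;> omega
  have b2 : |(x' : ℤ) - y'| < K := by rw [abs_lt]; constructor <;> omega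
  have hK0 : (0 : ℤ) < K := lt_of_le_of_lt (abs_nonneg _) b1
  have c1 : (α : ℤ) ≤ r := by exact_mod_cast hα.le
  have c2 : (β : ℤ) ≤ r := by exact_mod_cast hβ.le
  have d1 : |((x : ℤ) - y) * (1 + 2 * K * α)| ≤ K * (1 + 2 * K * r) := by
    rw [abs_mul, abs_of_nonneg (show (0 : ℤ) ≤ 1 + 2 * K * α by positivity)]
    gcongr
  have d2 : |((x' : ℤ) - y') * (1 + 2 * K * β)| ≤ K * (1 + 2 * K * r) := by
    rw [abs_mul, abs_of_nonneg (show (0 : ℤ) ≤ 1 + 2 * K * β by positivity)]
    gcongr
  have e1 : ((x : ℤ) - y) * (1 + 2 * K * α) - ((x' : ℤ) - y') * (1 + 2 * K * β) = 0 := by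
    refine Int.eq_zero_of_abs_lt_dvd h1 ?_
    have := abs_sub (((x : ℤ) - y) * (1 + 2 * K * α)) (((x' : ℤ) - y') * (1 + 2 * K * β))
    have h0 : (0 : ℤ) ≤ r := by positivity
    rw [hN]; linarith
  have e2 : ((x : ℤ) - y) - ((x' : ℤ) - y') = 0 := by
    refine Int.eq_zero_of_abs_lt_dvd (m := 2 * K)
      ⟨((x' : ℤ) - y') * β - ((x : ℤ) - y) * α, by linarith⟩ ?_
    have := abs_sub ((x : ℤ) - y) ((x' : ℤ) - y')
    linarith
  have e3 : ((x : ℤ) - y) * (2 * K) * ((α : ℤ) - β) = 0 := by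
    have : (x' : ℤ) - y' = x - y := by linarith
    rw [this] at e1
    linarith
  have n1 : (x : ℤ) - y ≠ 0 := by omega
  have := (mul_eq_zero.1 e3).resolve_left (mul_ne_zero n1 (by positivity))
  omega

theorem exists_slot : ∃ e : W U → ZMod (cN U), Function.Injective e := by
  refine ⟨fun ω => ((Finite.equivFin (W U) ω).val : ℕ), fun ω ω' h => ?_⟩
  have hlt : ∀ ω, (Finite.equivFin (W U) ω).val < cN U := fun ω => by
    have : (Finite.equivFin (W U) ω).val < cr U := (Finite.equivFin (W U) ω).2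
    unfold cN; omega
  have := congrArg ZMod.val h
  simp only [ZMod.val_natCast, Nat.mod_eq_of_lt (hlt _)] at this
  exact (Finite.equivFin (W U)).injective (Fin.ext this)

end consts

end Crest.Agent.R320.Lev2Aux
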