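import Crest.Agent.R320.Defs

namespace Crest.Agent.R320
universe u
variable {A : Type u}

namespace RegAux

/-- A language whose left quotients factor through a finite type is regular. -/
theorem of_factor {S : Type*} [Finite S] {P : List A → Prop} (f : List A → S)
    (h : ∀ u u', f u = f u' → ∀ v, P (u ++ v) → P (u' ++ v)) : Reg P := by
  let g : S → (List A → Prop) := fun s v => ∃ u, f u = s ∧ P (u ++ v)
  refine (Set.finite_range g).subset ?_
  rintro _ ⟨u, rfl⟩
  refine ⟨f u, ?_⟩
  funext v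
  apply propext
  constructor
  · rintro ⟨u', hu', hp⟩
    exact h u' u hu' v hp
  · intro hp
    exact ⟨u, rfl, hp⟩

/-- The type of left quotients. -/
def Quo (P : List A → Prop) : Type u :=
  ↥(Set.range (fun u : List A => fun v : List A => P (u ++ v)))

/-- The left quotient by `u`. -/
def quo (P : List A → Prop) (u : List A) : Quo P := ⟨fun v => P (u ++ v), u, rfl⟩

theorem finite_quo {P : List A → Prop} (hP : Reg P) : Finite (Quo P) := hP

theorem iff_of_quo {P : List A → Prop} {u u' : List A} (h : quo P u = quo P u') (v : List A) :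
    P (u ++ v) ↔ P (u' ++ v) := by
  have h1 : (fun v => P (u ++ v)) = (fun v => P (u' ++ v)) := congrArg Subtype.val h
  exact iff_of_eq (congrFun h1 v)

/-- The action of a word on the left quotients. -/
def act (P : List A → Prop) (x : List A) (s : Quo P) : Quo P :=
  ⟨fun v => s.1 (x ++ v), by
    obtain ⟨u, hu⟩ := s.2
    refine ⟨u ++ x, ?_⟩
    funext v
    rw [← hu]
    show P (u ++ x ++ v) = P (u ++ (x ++ v))
    rw [List.append_assoc]⟩

theorem act_quo (P : List A → Prop) (x u : List A) : act P x (quo P u) = quo P (u ++ x) := by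
  apply Subtype.ext
  funext v
  show P (u ++ (x ++ v)) = P (u ++ x ++ v)
  rw [List.append_assoc]

theorem iter_act_quo (P : List A → Prop) (x u : List A) (m : ℕ) :
    (act P x)^[m] (quo P u) = quo P (u ++ rep x m) := by
  induction m with
  | zero => simp
  | succ m ih => rw [Function.iterate_succ_apply', ih, act_quo, rep_succ', List.append_assoc]

theorem star_append {P : List A → Prop} {u v : List A} (hu : Star P u) (hv : Star P v) :
    Star P (u ++ v) := by
  induction hu with
  | nil => simpa using hv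
  | cons a b ha _ ih => rw [List.append_assoc]; exact Star.cons a _ ha ih

theorem star_split {P : List A → Prop} {w : List A} (hw : Star P w) :
    ∀ u v : List A, w = u ++ v → (Star P u ∧ Star P v) ∨
      ∃ p s t r : List A, u = p ++ s ∧ v = t ++ r ∧ Star P p ∧ P (s ++ t) ∧ Star P r := by
  induction hw with
  | nil =>
    intro u v h
    obtain ⟨rfl, rfl⟩ := List.append_eq_nil_iff.1 h.symm
    exact Or.inl ⟨Star.nil, Star.nil⟩
  | cons a b ha hb ih =>
    intro u v h
    rcases List.append_eq_append_iff.1 h with ⟨c, hc1, hc2⟩ | ⟨c, hc1, hc2⟩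
    · rcases ih c v hc2 with ⟨h1, h2⟩ | ⟨p, s, t, r, h1, h2, h3, h4, h5⟩
      · exact Or.inl ⟨hc1 ▸ Star.cons a c ha h1, h2⟩
      · refine Or.inr ⟨a ++ p, s, t, r, ?_, h2, Star.cons a p ha h3, h4, h5⟩
        rw [hc1, h1, List.append_assoc]
    · exact Or.inr ⟨[], u, c, b, rfl, hc2, Star.nil, hc1 ▸ ha, hb⟩

theorem iter_add_eq {S : Type*} [Finite S] (G : S → S) (s : S) {m d : ℕ}
    (hm : Nat.card S ≤ m) (hd : (Nat.card S).factorial ∣ d) : G^[m + d] s = G^[m] s := by
  classical
  have := Fintype.ofFinite S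
  obtain ⟨i, j, hne, hij⟩ : ∃ i j : Fin (Nat.card S + 1), i ≠ j ∧ G^[i.1] s = G^[j.1] s :=
    Fintype.exists_ne_map_eq_of_card_lt (fun i : Fin (Nat.card S + 1) => G^[i.1] s)
      (by simp [Nat.card_eq_fintype_card])
  have key : ∀ i j : ℕ, i < j → j ≤ Nat.card S → G^[i] s = G^[j] s →
      G^[m + d] s = G^[m] s := by
    intro i j hlt hj h
    obtain ⟨p, rfl⟩ := Nat.exists_eq_add_of_lt hlt
    have hp : (p + 1) ∣ d := (Nat.dvd_factorial (Nat.succ_pos p) (by omega)).trans hd
    obtain ⟨t, rfl⟩ := hp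
    have h2 : ∀ t : ℕ, G^[(p + 1) * t + i] s = G^[i] s := by
      intro t
      induction t with
      | zero => simp
      | succ t ih =>
        have e : (p + 1) * (t + 1) + i = (p + 1) * t + (i + p + 1) := by ring
        rw [e, Function.iterate_add_apply, ← h, ← Function.iterate_add_apply, ih]
    obtain ⟨c, rfl⟩ : ∃ c, m = c + i := ⟨m - i, by omega⟩
    have e : c + i + (p + 1) * t = c + ((p + 1) * t + i) := by ring
    rw [e, Function.iterate_add_apply, h2, ← Function.iterate_add_apply]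
  rcases lt_or_gt_of_ne (Fin.val_ne_of_ne hne) with h | h
  · exact key i j h (by omega) hij
  · exact key j i h (by omega) hij.symm

end RegAux

open RegAux

theorem Reg.congr {P Q : List A → Prop} (e : ∀ w, P w ↔ Q w) (hP : Reg P) : Reg Q := by
  have : P = Q := funext fun w => propext (e w)
  exact this ▸ hP

theorem Reg.const (p : Prop) : Reg (fun _ : List A => p) :=
  of_factor (fun _ => ()) (fun _ _ _ _ h => h)

theorem Reg.or {P Q : List A → Prop} (hP : Reg P) (hQ : Reg Q) : Reg (fun w => P w ∨ Q w) := by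
  have := finite_quo hP
  have := finite_quo hQ
  refine of_factor (fun u => (quo P u, quo Q u)) ?_
  intro u u' h v hv
  exact hv.imp (iff_of_quo (congrArg Prod.fst h) v).1 (iff_of_quo (congrArg Prod.snd h) v).1

theorem Reg.and {P Q : List A → Prop} (hP : Reg P) (hQ : Reg Q) : Reg (fun w => P w ∧ Q w) := by
  have := finite_quo hP
  have := finite_quo hQ
  refine of_factor (fun u => (quo P u, quo Q u)) ?_
  intro u u' h v hv
  exact hv.imp (iff_of_quo (congrArg Prod.fst h) v).1 (iff_of_quo (congrArg Prod.snd h) v).1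

theorem Reg.not {P : List A → Prop} (hP : Reg P) : Reg (fun w => ¬ P w) := by
  have := finite_quo hP
  refine of_factor (fun u => quo P u) ?_
  intro u u' h v hv hv'
  exact hv ((iff_of_quo h v).2 hv')

theorem Reg.imp {P Q : List A → Prop} (hP : Reg P) (hQ : Reg Q) : Reg (fun w => P w → Q w) :=
  Reg.congr (fun _ => imp_iff_not_or.symm) (hP.not.or hQ)

theorem Reg.exists_fin {ι : Type*} [Finite ι] {P : ι → List A → Prop}
    (hP : ∀ i, Reg (P i)) : Reg (fun w => ∃ i, P i w) := by
  have := fun i => finite_quo (hP i)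
  refine of_factor (fun u => fun i => quo (P i) u) ?_
  rintro u u' h v ⟨i, hi⟩
  exact ⟨i, (iff_of_quo (congrFun h i) v).1 hi⟩

theorem Reg.forall_fin {ι : Type*} [Finite ι] {P : ι → List A → Prop}
    (hP : ∀ i, Reg (P i)) : Reg (fun w => ∀ i, P i w) := by
  have := fun i => finite_quo (hP i)
  refine of_factor (fun u => fun i => quo (P i) u) ?_
  intro u u' h v hv i
  exact (iff_of_quo (congrFun h i) v).1 (hv i)

theorem Reg.cat {P Q : List A → Prop} (hP : Reg P) (hQ : Reg Q) :
    Reg (fun w => ∃ u v, P u ∧ Q v ∧ w = u ++ v) := by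
  have := finite_quo hP
  have := finite_quo hQ
  refine of_factor (fun u => (quo P u,
    ({t | ∃ p s, u = p ++ s ∧ P p ∧ t = quo Q s} : Set (Quo Q)))) ?_
  rintro u u' h v ⟨a, b, ha, hb, hab⟩
  have h1 : quo P u = quo P u' := congrArg Prod.fst h
  have h2 : ({t | ∃ p s, u = p ++ s ∧ P p ∧ t = quo Q s} : Set (Quo Q)) =
      {t | ∃ p s, u' = p ++ s ∧ P p ∧ t = quo Q s} := congrArg Prod.snd h
  rcases List.append_eq_append_iff.1 hab with ⟨c, hc1, hc2⟩ | ⟨c, hc1, hc2⟩
  · refine ⟨u' ++ c, b, (iff_of_quo h1 c).1 (hc1 ▸ ha), hb, ?_⟩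
    rw [hc2, List.append_assoc]
  · have hm : quo Q c ∈ ({t | ∃ p s, u = p ++ s ∧ P p ∧ t = quo Q s} : Set (Quo Q)) :=
      ⟨a, c, hc1, ha, rfl⟩
    rw [h2] at hm
    obtain ⟨p, s, hu', hp, hs⟩ := hm
    refine ⟨p, s ++ v, hp, (iff_of_quo hs v).1 (hc2 ▸ hb), ?_⟩
    rw [hu', List.append_assoc]

theorem Reg.pref {P : List A → Prop} (hP : Reg P) : Reg (fun w => ∃ u, u <+: w ∧ P u) := by
  refine Reg.congr (fun w => ?_) (hP.cat (Reg.const True))
  constructor
  · rintro ⟨u, v, hu, -, rfl⟩
    exact ⟨u, List.prefix_append _ _, hu⟩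
  · rintro ⟨u, ⟨v, rfl⟩, hu⟩
    exact ⟨u, v, hu, trivial, rfl⟩

theorem Reg.star {P : List A → Prop} (hP : Reg P) : Reg (Star P) := by
  have := finite_quo hP
  refine of_factor (fun u => (Star P u,
    ({t | ∃ p s, u = p ++ s ∧ Star P p ∧ t = quo P s} : Set (Quo P)))) ?_
  intro u u' h v hv
  have h1 : Star P u = Star P u' := congrArg Prod.fst h
  have h2 : ({t | ∃ p s, u = p ++ s ∧ Star P p ∧ t = quo P s} : Set (Quo P)) =
      {t | ∃ p s, u' = p ++ s ∧ Star P p ∧ t = quo P s} := congrArg Prod.snd h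
  rcases star_split hv u v rfl with ⟨hu, hv'⟩ | ⟨p, s, t, r, hu, hv', hp, hst, hr⟩
  · exact star_append (h1 ▸ hu) hv'
  · have hm : quo P s ∈ ({t | ∃ p s, u = p ++ s ∧ Star P p ∧ t = quo P s} : Set (Quo P)) :=
      ⟨p, s, hu, hp, rfl⟩
    rw [h2] at hm
    obtain ⟨p', s', hu', hp', hs⟩ := hm
    have e : u' ++ v = p' ++ ((s' ++ t) ++ r) := by
      rw [hu', hv']; simp only [List.append_assoc]
    rw [e]
    exact star_append hp' (Star.cons _ _ ((iff_of_quo hs t).1 hst) hr)

theorem Reg.finite {P : List A → Prop} (hP : {w | P w}.Finite) : Reg P := by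
  have hT : {u : List A | ∃ w, P w ∧ u <+: w}.Finite := by
    refine (hP.biUnion (t := fun w => {u | u ∈ w.inits}) (fun w _ => List.finite_toSet _)).subset ?_
    rintro u ⟨w, hw, hu⟩
    simp only [Set.mem_iUnion]
    exact ⟨w, hw, (List.mem_inits _ _).2 hu⟩
  refine ((hT.image (fun u : List A => fun v : List A => P (u ++ v))).insert
    (fun _ => False)).subset ?_
  rintro _ ⟨u, rfl⟩
  by_cases hu : ∃ w, P w ∧ u <+: w
  · exact Or.inr ⟨u, hu, rfl⟩
  · refine Or.inl ?_
    funext v
    exact propext ⟨fun h => hu ⟨_, h, List.prefix_append _ _⟩, False.elim⟩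

theorem Reg.nil : Reg (fun w : List A => w = []) :=
  Reg.finite (Set.finite_singleton ([] : List A))

theorem Reg.foldl {σ : Type*} [Finite σ] (δ : σ → A → σ) (s : σ) (F : σ → Prop) :
    Reg (fun w => F (w.foldl δ s)) := by
  refine of_factor (fun u : List A => u.foldl δ s) ?_
  intro u u' h v hv
  have h' : u.foldl δ s = u'.foldl δ s := h
  rw [List.foldl_append] at hv ⊢
  rw [← h']
  exact hv

theorem Reg.exists_exponent {K : List A → Prop} (hK : Reg K) : ∃ e, 0 < e ∧ ∀ (x : List A) (k : ℕ),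
    e ∣ k → ∀ (y z : List A) (n : ℕ), 1 ≤ n →
      (K (y ++ rep (rep x k) n ++ z) ↔ K (y ++ rep (rep x k) (n + 1) ++ z)) := by
  have := finite_quo hK
  refine ⟨(Nat.card (Quo K)).factorial, Nat.factorial_pos _, ?_⟩
  intro x k hk y z n hn
  rcases Nat.eq_zero_or_pos k with rfl | hk0
  · simp
  · apply iff_of_quo
    rw [← rep_mul, ← rep_mul, ← iter_act_quo, ← iter_act_quo, Nat.succ_mul]
    refine (iter_add_eq _ _ ?_ hk).symm
    calc Nat.card (Quo K) ≤ (Nat.card (Quo K)).factorial := Nat.self_le_factorial _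
      _ ≤ k := Nat.le_of_dvd hk0 hk
      _ ≤ n * k := Nat.le_mul_of_pos_left _ hn

theorem exists_idem_iter {S : Type*} [Finite S] (G : S → S) (k : ℕ) (hk : 0 < k) :
    ∃ m, 0 < m ∧ k ∣ m ∧ ∀ s, G^[m] (G^[m] s) = G^[m] s := by
  refine ⟨k * (Nat.card S).factorial, Nat.mul_pos hk (Nat.factorial_pos _), Dvd.intro _ rfl, ?_⟩
  intro s
  rw [← Function.iterate_add_apply]
  refine iter_add_eq G s ?_ (Dvd.intro_left _ rfl)
  exact (Nat.self_le_factorial _).trans (Nat.le_mul_of_pos_left _ hk)

end Crest.Agent.R320
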