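import Crest.Agent.R320.Height
import Crest.Agent.R320.Reg

namespace Crest.Agent.R320
universe u
variable {A : Type u}

namespace SFCAux

section monoid
variable {P : Type*} [Monoid P]

/-- `r ≥J p` -/
def J (r p : P) : Prop := ∃ x y, p = x * r * y

/-- `r >J p` -/
def Jlt (r p : P) : Prop := J r p ∧ ¬ J p r

theorem J.refl (p : P) : J p p := ⟨1, 1, by simp⟩

theorem J.trans {q r p : P} (h : J q r) (h' : J r p) : J q p := by
  obtain ⟨x, y, rfl⟩ := h
  obtain ⟨x', y', rfl⟩ := h'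
  exact ⟨x' * x, y * y', by simp only [mul_assoc]⟩

theorem J.mul (x r y : P) : J r (x * r * y) := ⟨x, y, rfl⟩

theorem pigeon [Finite P] (g : P) : ∃ i k, g ^ (i + (k + 1)) = g ^ i := by
  obtain ⟨i, j, hij, h⟩ := Finite.exists_ne_map_eq_of_infinite (fun n : ℕ => g ^ n)
  rcases lt_or_gt_of_ne hij with h1 | h1
  · exact ⟨i, j - i - 1, by rw [show i + (j - i - 1 + 1) = j by omega]; exact h.symm⟩
  · exact ⟨j, i - j - 1, by rw [show j + (i - j - 1 + 1) = i by omega]; exact h⟩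

theorem iter {m x y : P} (h : m = x * m * y) (n : ℕ) : m = x ^ n * m * y ^ n := by
  induction n with
  | zero => simp
  | succ n ih =>
    calc m = x ^ n * m * y ^ n := ih
      _ = x ^ n * (x * m * y) * y ^ n := by rw [← h]
      _ = x ^ (n + 1) * m * y ^ (n + 1) := by rw [pow_succ, pow_succ' y]; simp only [mul_assoc]

theorem stabR [Finite P] {m a : P} (h : J (m * a) m) : ∃ c, m = m * a * c := by
  obtain ⟨x, y, h⟩ := h
  obtain ⟨i, k, hk⟩ := pigeon (a * y)
  have h1 := iter (m := m) (x := x) (y := a * y) (by rw [← mul_assoc, mul_assoc x]; exact h) i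
  refine ⟨y * (a * y) ^ k, ?_⟩
  calc m = x ^ i * m * (a * y) ^ (i + (k + 1)) := by rw [hk]; exact h1
    _ = x ^ i * m * (a * y) ^ i * (a * y) ^ (k + 1) := by rw [pow_add, ← mul_assoc]
    _ = m * a * (y * (a * y) ^ k) := by rw [← h1, pow_succ']; simp only [mul_assoc]

theorem stabL [Finite P] {m a : P} (h : J (a * m) m) : ∃ c, m = c * (a * m) := by
  obtain ⟨x, y, h⟩ := h
  obtain ⟨i, k, hk⟩ := pigeon (x * a)
  have h1 := iter (m := m) (x := x * a) (y := y) (by rw [mul_assoc x]; exact h) i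
  refine ⟨(x * a) ^ k * x, ?_⟩
  calc m = (x * a) ^ (i + (k + 1)) * m * y ^ i := by rw [hk]; exact h1
    _ = (x * a) ^ (k + 1) * ((x * a) ^ i * m * y ^ i) := by
      rw [add_comm i, pow_add]; simp only [mul_assoc]
    _ = (x * a) ^ k * x * (a * m) := by rw [← h1, pow_succ]; simp only [mul_assoc]

theorem Jlt.ncard_lt [Finite P] {r p : P} (h : Jlt r p) :
    Set.ncard {q | J q r} < Set.ncard {q | J q p} :=
  Set.ncard_lt_ncard ⟨fun _ hq => J.trans hq h.1, fun h1 => h.2 (h1 (J.refl p))⟩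

end monoid

theorem pref {Q : List A → Prop} (h0 : ¬ Q []) {w : List A} (hw : Q w) :
    ∃ u a v, w = u ++ [a] ++ v ∧ ¬ Q u ∧ Q (u ++ [a]) := by
  induction w using List.reverseRecOn with
  | nil => exact absurd hw h0
  | append_singleton w a ih =>
    by_cases h : Q w
    · obtain ⟨u, b, v, rfl, h1, h2⟩ := ih h
      exact ⟨u, b, v ++ [a], by simp, h1, h2⟩
    · exact ⟨w, a, [], by simp, h, hw⟩

theorem suff {Q : List A → Prop} (h0 : ¬ Q []) {w : List A} (hw : Q w) :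
    ∃ u a v, w = u ++ [a] ++ v ∧ ¬ Q v ∧ Q ([a] ++ v) := by
  induction w with
  | nil => exact absurd hw h0
  | cons a w ih =>
    by_cases h : Q w
    · obtain ⟨u, b, v, rfl, h1, h2⟩ := ih h
      exact ⟨a :: u, b, v, by simp, h1, h2⟩
    · exact ⟨[], a, w, by simp, h, hw⟩

theorem cat3 {h : ℕ} {P Q : List A → Prop} (hP : InH h P) (hQ : InH h Q) (a : A) :
    InH h (fun w => ∃ u v, P u ∧ Q v ∧ w = u ++ [a] ++ v) := by
  refine InH.congr (fun w => ?_) ((hP.cat (InH.word h [a])).cat hQ)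
  constructor
  · rintro ⟨_, v, ⟨u, _, h1, rfl, rfl⟩, h2, rfl⟩
    exact ⟨u, v, h1, h2, rfl⟩
  · rintro ⟨u, v, h1, h2, rfl⟩
    exact ⟨_, v, ⟨u, _, h1, rfl, rfl⟩, h2, rfl⟩

theorem cond {h : ℕ} {c : Prop} {Q : List A → Prop} (hQ : c → InH h Q) :
    InH h (fun w => c ∧ Q w) := by
  by_cases hc : c
  · exact (InH.const h c).and (hQ hc)
  · exact InH.congr (fun w => by simp [hc]) (InH.const h False)

section core
variable {P : Type*} [Monoid P] [Finite P] {ψ : List A → P}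

theorem nonreg (h1 : ψ [] = 1) (hm : ∀ u v, ψ (u ++ v) = ψ u * ψ v) {p : P}
    (hp : ¬ ∃ t, p * t * p = p) (w : List A) :
    ψ w = p ↔ ∃ q : P × A × P, (q.1 * ψ [q.2.1] * q.2.2 = p ∧ Jlt q.1 p ∧ Jlt q.2.2 p) ∧
      ∃ u v, ψ u = q.1 ∧ ψ v = q.2.2 ∧ w = u ++ [q.2.1] ++ v := by
  constructor
  · intro hw
    have h0 : ¬ J p (ψ []) := by
      rw [h1]
      intro h
      obtain ⟨c, hc⟩ := stabR (m := 1) (a := p) (by rwa [one_mul])
      exact hp ⟨c, by rw [one_mul] at hc; rw [← hc, one_mul]⟩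
    have hQ : J p (ψ w) := by rw [hw]; exact J.refl p
    obtain ⟨u, a, v, rfl, h2, h3⟩ := pref (Q := fun u => J p (ψ u)) (w := w) h0 hQ
    rw [hm] at hw
    refine ⟨(ψ u, a, ψ v), ⟨by rw [← hw, hm], ⟨⟨1, ψ [a] * ψ v, ?_⟩, h2⟩,
      ⟨⟨ψ (u ++ [a]), 1, by rw [← hw, mul_one]⟩, fun h4 => hp ?_⟩⟩, u, v, rfl, rfl, rfl⟩
    · rw [← hw, hm, one_mul, mul_assoc]
    · obtain ⟨c, hc⟩ := stabR (m := ψ (u ++ [a])) (a := ψ v) (by rwa [hw])
      obtain ⟨c', hc'⟩ := stabL (m := ψ v) (a := ψ (u ++ [a])) (by rwa [hw])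
      rw [hw] at hc hc'
      refine ⟨c * c', ?_⟩
      rw [← mul_assoc, ← hc, mul_assoc, ← hc', hw]
  · rintro ⟨q, ⟨h2, -⟩, u, v, h3, h4, rfl⟩
    rw [hm, hm, h3, h4, h2]

theorem notF (h1 : ψ [] = 1) (hm : ∀ u v, ψ (u ++ v) = ψ u * ψ v) (p : P) (w : List A) :
    ¬ J (ψ w) p ↔ (∃ a : A, ¬ J (ψ [a]) p ∧ ∃ u v, True ∧ True ∧ w = u ++ [a] ++ v) ∨
      ∃ q : A × P × A, (Jlt q.2.1 p ∧ ¬ J (ψ [q.1] * q.2.1 * ψ [q.2.2]) p) ∧
        ∃ u v, (∃ u' z, True ∧ ψ z = q.2.1 ∧ u = u' ++ [q.1] ++ z) ∧ True ∧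
          w = u ++ [q.2.2] ++ v := by
  constructor
  · intro hw
    have h0 : ¬ ¬ J (ψ []) p := not_not.2 ⟨p, 1, by rw [h1]; simp⟩
    obtain ⟨u, b, v, rfl, h2, h3⟩ := pref (Q := fun u => ¬ J (ψ u) p) h0 hw
    by_cases hb : J (ψ ([] ++ [b])) p
    · obtain ⟨u', a, z, rfl, h4, h5⟩ := suff (Q := fun z => ¬ J (ψ (z ++ [b])) p) (not_not.2 hb) h3
      rw [not_not] at h2 h4
      rw [hm] at h4
      rw [hm, hm] at h5
      refine Or.inr ⟨(a, ψ z, b), ⟨⟨J.trans ⟨1, ψ [b], by simp⟩ h4, fun h6 => h5 ?_⟩, h5⟩,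
        _, v, ⟨u', z, trivial, rfl, rfl⟩, trivial, rfl⟩
      have h7 : J (ψ [a] * ψ z) p := by
        refine J.trans ⟨ψ u', 1, ?_⟩ h2
        rw [hm, hm, mul_one, mul_assoc]
      obtain ⟨c, hc⟩ := stabL (h7.trans h6)
      refine J.trans ⟨c, 1, ?_⟩ h4
      rw [mul_one, ← mul_assoc, ← hc]
    · exact Or.inl ⟨b, hb, u, v, trivial, trivial, rfl⟩
  · rintro (⟨a, ha, u, v, -, -, rfl⟩ | ⟨q, ⟨-, hq⟩, _, v, ⟨u, z, -, hz, rfl⟩, -, rfl⟩) h
    · rw [hm, hm] at h
      exact ha ((J.mul _ _ _).trans h)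
    · refine hq (J.trans ⟨ψ u, ψ v, ?_⟩ h)
      rw [hm, hm, hm, hm, hz]
      simp only [mul_assoc]

theorem reg_iff {N : Type*} [Monoid N] (π : P →* N)
    (hap : ∀ g, π g * π g = π g → ∃ n, g ^ (n + 1) = g ^ n)
    (h1 : ψ [] = 1) (hm : ∀ u v, ψ (u ++ v) = ψ u * ψ v) {p t : P} (ht : p * t * p = p)
    (w : List A) :
    ψ w = p ↔ ¬ ¬ J (ψ w) p ∧
      ((∃ y, 1 = p * y) ∨ ∃ q : P × A, (Jlt q.1 p ∧ ∃ y, q.1 * ψ [q.2] = p * y) ∧
        ∃ u v, ψ u = q.1 ∧ True ∧ w = u ++ [q.2] ++ v) ∧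
      ((∃ x, 1 = x * p) ∨ ∃ q : P × A, (Jlt q.1 p ∧ ∃ x, ψ [q.2] * q.1 = x * p) ∧
        ∃ u v, True ∧ ψ v = q.1 ∧ w = u ++ [q.2] ++ v) ∧
      π (ψ w) = π p := by
  constructor
  · intro hw
    refine ⟨not_not.2 (hw ▸ J.refl _), ?_, ?_, by rw [hw]⟩
    · by_cases h0 : ∃ y, 1 = p * y
      · exact Or.inl h0
      · obtain ⟨u, a, v, rfl, h2, h3⟩ := pref (Q := fun u => ∃ y, ψ u = p * y) (by rwa [h1])
          ⟨1, by rw [hw, mul_one]⟩
        rw [hm, hm, mul_assoc] at hw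
        rw [hm] at h3
        refine Or.inr ⟨(ψ u, a), ⟨⟨⟨1, _, by rw [one_mul, hw]⟩, fun h4 => h2 ?_⟩, h3⟩,
          u, v, rfl, trivial, rfl⟩
        obtain ⟨c, hc⟩ := stabR (m := ψ u) (a := ψ [a] * ψ v) (by rwa [hw])
        exact ⟨c, by rw [← hw]; exact hc⟩
    · by_cases h0 : ∃ x, 1 = x * p
      · exact Or.inl h0
      · obtain ⟨u, a, v, rfl, h2, h3⟩ := suff (Q := fun u => ∃ x, ψ u = x * p) (by rwa [h1])
          ⟨1, by rw [hw, one_mul]⟩
        rw [hm] at hw h3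
        refine Or.inr ⟨(ψ v, a), ⟨⟨⟨_, 1, by rw [mul_one, hw]⟩, fun h4 => h2 ?_⟩, h3⟩,
          u, v, trivial, rfl, rfl⟩
        obtain ⟨c, hc⟩ := stabL (m := ψ v) (a := ψ (u ++ [a])) (by rwa [hw])
        exact ⟨c, by rw [← hw]; exact hc⟩
  · rintro ⟨hJ, hr, hl, hπ⟩
    rw [not_not] at hJ
    obtain ⟨y, hy⟩ : ∃ y, ψ w = p * y := by
      rcases hr with ⟨y, hy⟩ | ⟨q, ⟨-, y, hy⟩, u, v, hu, -, rfl⟩
      · exact ⟨y * ψ w, by rw [← mul_assoc, ← hy, one_mul]⟩
      · exact ⟨y * ψ v, by rw [hm, hm, hu, hy, mul_assoc]⟩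
    obtain ⟨x, hx⟩ : ∃ x, ψ w = x * p := by
      rcases hl with ⟨x, hx⟩ | ⟨q, ⟨-, x, hx⟩, u, v, -, hv, rfl⟩
      · exact ⟨ψ w * x, by rw [mul_assoc, ← hx, mul_one]⟩
      · exact ⟨ψ u * x, by rw [hm, hm, hv, mul_assoc, hx, mul_assoc]⟩
    obtain ⟨c, hc⟩ := stabR (m := p) (a := y) (by rwa [← hy])
    have hg : ψ w * t * p = ψ w := by rw [hx, mul_assoc x, mul_assoc x, ht]
    obtain ⟨n, hn⟩ := hap (ψ w * t) (by
      rw [map_mul, hπ, ← map_mul, ← map_mul, ← mul_assoc, ht])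
    have h2 := iter (m := p) (x := ψ w * t) (y := c) (by rw [hg, hy]; exact hc) n
    calc ψ w = ψ w * t * p := hg.symm
      _ = ψ w * t * ((ψ w * t) ^ n * p * c ^ n) := by rw [← h2]
      _ = (ψ w * t) ^ (n + 1) * p * c ^ n := by rw [pow_succ']; simp only [mul_assoc]
      _ = p := by rw [hn, ← h2]

theorem core [Finite A] {N : Type*} [Monoid N] (π : P →* N)
    (hap : ∀ g, π g * π g = π g → ∃ n, g ^ (n + 1) = g ^ n)
    (h1 : ψ [] = 1) (hm : ∀ u v, ψ (u ++ v) = ψ u * ψ v) {h : ℕ}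
    (hfib : ∀ p, InH h (fun w => π (ψ w) = π p)) (p : P) : InH h (fun w => ψ w = p) := by
  induction hn : Set.ncard {q | J q p} using Nat.strong_induction_on generalizing p with
  | _ n ih =>
    have IH : ∀ r, Jlt r p → InH h (fun w => ψ w = r) := fun r hr =>
      ih _ (hn ▸ hr.ncard_lt) r rfl
    have hT := InH.const (A := A) h True
    by_cases hp : ∃ t, p * t * p = p
    · obtain ⟨t, ht⟩ := hp
      refine InH.congr (fun w => (reg_iff π hap h1 hm ht w).symm) ?_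
      refine InH.and (InH.not (InH.congr (fun w => (notF h1 hm p w).symm) (InH.or ?_ ?_)))
        (InH.and (InH.or (InH.const _ _) ?_) (InH.and (InH.or (InH.const _ _) ?_) (hfib p)))
      · exact InH.exists_fin fun a => cond fun _ => cat3 hT hT a
      · exact InH.exists_fin fun q => cond fun hq => cat3 (cat3 hT (IH _ hq.1) _) hT _
      · exact InH.exists_fin fun q => cond fun hq => cat3 (IH _ hq.1) hT _
      · exact InH.exists_fin fun q => cond fun hq => cat3 hT (IH _ hq.1) _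
    · refine InH.congr (fun w => (nonreg h1 hm hp w).symm) ?_
      exact InH.exists_fin fun q => cond fun hq => cat3 (IH _ hq.2.1) (IH _ hq.2.2) _

end core

/-- the joint syntactic congruence, refined by the length modulo `M` -/
def cong {ι : Type*} (R : ι → List A → Prop) (M : ℕ) : Con (FreeMonoid A) where
  r w w' := (∀ i u v, R i (u ++ w.toList ++ v) ↔ R i (u ++ w'.toList ++ v)) ∧
    w.toList.length % M = w'.toList.length % M
  iseqv := ⟨fun _ => ⟨fun _ _ _ => Iff.rfl, rfl⟩,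
    fun h => ⟨fun i u v => (h.1 i u v).symm, h.2.symm⟩,
    fun h h' => ⟨fun i u v => (h.1 i u v).trans (h'.1 i u v), h.2.trans h'.2⟩⟩
  mul' := by
    intro w x y z h h'
    refine ⟨fun i u v => ?_, ?_⟩
    · have h1 := h.1 i u (y.toList ++ v)
      have h2 := h'.1 i (u ++ x.toList) v
      simp only [FreeMonoid.toList_mul, List.append_assoc] at h1 h2 ⊢
      exact h1.trans h2
    · simp only [FreeMonoid.toList_mul, List.length_append]
      rw [Nat.add_mod, h.2, h'.2, ← Nat.add_mod]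

/-- the class of a word -/
def cls {ι : Type*} (R : ι → List A → Prop) (M : ℕ) (w : List A) : (cong R M).Quotient :=
  (cong R M).mk' (FreeMonoid.ofList w)

section cls
variable {ι : Type*} {R : ι → List A → Prop} {M : ℕ}

theorem cls_eq {w w' : List A} : cls R M w = cls R M w' ↔
    (∀ i u v, R i (u ++ w ++ v) ↔ R i (u ++ w' ++ v)) ∧ w.length % M = w'.length % M :=
  Con.eq (cong R M)

theorem cls_nil : cls R M [] = 1 := rfl

theorem cls_append (u v : List A) : cls R M (u ++ v) = cls R M u * cls R M v := rfl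

theorem cls_surj (q : (cong R M).Quotient) : ∃ w, cls R M w = q := by
  obtain ⟨w, rfl⟩ := (cong R M).mk'_surjective q
  exact ⟨w.toList, rfl⟩

theorem cls_rep (x : List A) (n : ℕ) : cls R M (rep x n) = cls R M x ^ n := by
  induction n with
  | zero => rw [rep_zero, pow_zero, cls_nil]
  | succ n ih => rw [rep_succ, cls_append, ih, pow_succ']

theorem cls_finite [Finite ι] (hR : ∀ i, Reg (R i)) (hM : 0 < M) : Finite (cong R M).Quotient := by
  let Q : ι → Type u := fun i => Set.range (fun u : List A => fun v : List A => R i (u ++ v))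
  have : ∀ i, Finite (Q i) := fun i => (hR i).to_subtype
  let f : List A → (∀ i, Q i → Q i) × Fin M := fun w =>
    (fun i q => ⟨fun v => q.1 (w ++ v), by
      obtain ⟨_, u, rfl⟩ := q
      exact ⟨u ++ w, by simp only [List.append_assoc]⟩⟩, ⟨w.length % M, Nat.mod_lt _ hM⟩)
  have hf : ∀ w w', f w = f w' → cls R M w = cls R M w' := by
    intro w w' h
    refine cls_eq.2 ⟨fun i u v => ?_, congrArg (fun x => x.2.1) h⟩
    have := congrArg (fun x => (x.1 i ⟨_, u, rfl⟩).1 v) h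
    simp only [f] at this
    rw [List.append_assoc, List.append_assoc, this]
  refine Finite.of_surjective (fun b : Set.range f => cls R M b.2.choose) fun q => ?_
  obtain ⟨w, rfl⟩ := cls_surj q
  exact ⟨⟨f w, w, rfl⟩, hf _ _ (Exists.choose_spec (⟨w, rfl⟩ : ∃ y, f y = f w))⟩

theorem cls_inH [Finite A] [Finite ι] {h : ℕ} (hh : 1 ≤ h) (hR : ∀ i, Reg (R i))
    (hH : ∀ i, InH h (R i)) (hM : 0 < M) (w0 : List A) :
    InH h (fun w => cls R M w = cls R M w0) := by
  have := cls_finite hR hM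
  refine InH.congr (fun w => cls_eq.symm) (InH.and (InH.forall_fin fun i => ?_)
    (InH.lenmod hh M _))
  let T : Set (List A → Prop) := Set.range fun p : List A × List A => fun w => R i (p.1 ++ w ++ p.2)
  have hT : T.Finite := by
    refine (Set.finite_range fun F : (cong R M).Quotient → Prop => fun w => F (cls R M w)).subset ?_
    rintro _ ⟨p, rfl⟩
    refine ⟨fun q => ∃ w', cls R M w' = q ∧ R i (p.1 ++ w' ++ p.2), ?_⟩
    funext w
    refine propext ⟨?_, fun h => ⟨w, rfl, h⟩⟩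
    rintro ⟨w', h1, h2⟩
    exact ((cls_eq.1 h1).1 i _ _).1 h2
  have := hT.to_subtype
  refine InH.congr (P := fun w => ∀ t : T, t.1 w ↔ t.1 w0) (fun w => ?_)
    (InH.forall_fin fun t => ?_)
  · exact ⟨fun h u v => h ⟨_, (u, v), rfl⟩, by rintro h ⟨_, p, rfl⟩; exact h _ _⟩
  · obtain ⟨_, p, rfl⟩ := t
    exact ((hH i).quot p.1 p.2).iff (InH.const _ _)

end cls

end SFCAux

open SFCAux in
theorem sfc [Finite A] {ι : Type*} [Finite ι] {h : ℕ} (hh : 1 ≤ h) (R : ι → List A → Prop)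
    (hR : ∀ i, Reg (R i)) (hH : ∀ i, InH h (R i)) (M : ℕ) (hM : 0 < M) (K : List A → Prop)
    (hK : Reg K)
    (hx : ∀ x : List A, M ∣ x.length → (∀ i u v, R i (u ++ x ++ v) ↔ R i (u ++ x ++ x ++ v)) →
      ∀ y z, ∃ n0, ∀ n, n0 ≤ n → (K (y ++ rep x n ++ z) ↔ K (y ++ rep x (n + 1) ++ z))) :
    InH h K := by
  let R' : Option ι → List A → Prop := fun o => o.elim K R
  have hR' : ∀ o, Reg (R' o) := fun o => by
    cases o
    · exact hK
    · exact hR _
  have := cls_finite hR' hM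
  have hle : cong R' M ≤ cong R M := fun _ _ h => ⟨fun i => h.1 (some i), h.2⟩
  let π : (cong R' M).Quotient →* (cong R M).Quotient := Con.map _ _ hle
  have hπ : ∀ w, π (cls R' M w) = cls R M w := fun _ => rfl
  have hcore := core (ψ := cls R' M) π ?_ cls_nil cls_append (h := h) ?_
  · refine InH.congr (P := fun w => ∃ p, (∃ w0, cls R' M w0 = p ∧ K w0) ∧ cls R' M w = p)
      (fun w => ⟨?_, fun hw => ⟨_, ⟨w, rfl, hw⟩, rfl⟩⟩)
      (InH.exists_fin fun p => (InH.const _ _).and (hcore p))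
    rintro ⟨_, ⟨w0, rfl, h0⟩, h1⟩
    have := (cls_eq.1 h1).1 none [] []
    simp only [List.nil_append, List.append_nil] at this
    exact this.2 h0
  · intro g hg
    obtain ⟨x, rfl⟩ := cls_surj g
    rw [hπ] at hg
    have hg' := cls_eq.1 ((cls_append x x).trans hg)
    have hdvd : M ∣ x.length := by
      have h1 := hg'.2
      rw [List.length_append] at h1
      have h2 := (Nat.modEq_iff_dvd' (Nat.le_add_left _ _)).1 (Nat.ModEq.symm h1)
      rwa [Nat.add_sub_cancel] at h2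
    have hK' := hx x hdvd fun i u v => by
      rw [List.append_assoc u x x]
      exact (hg'.1 i u v).symm
    obtain ⟨i, k, hik⟩ := pigeon (cls R' M x)
    have hper : ∀ j m, cls R' M x ^ (i + m + j * (k + 1)) = cls R' M x ^ (i + m) := by
      intro j m
      induction j with
      | zero => simp
      | succ j ih =>
        rw [show i + m + (j + 1) * (k + 1) = i + (k + 1) + (m + j * (k + 1)) by ring, pow_add, hik,
          ← pow_add, ← add_assoc, ih]
    have hidem : ∀ n, cls R M x ^ (n + 1) = cls R M x := by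
      intro n
      induction n with
      | zero => simp
      | succ n ih => rw [pow_succ, ih, hg]
    have h2 : cls R M (rep x (i + 1 + 1)) = cls R M (rep x (i + 1)) := by
      rw [cls_rep, cls_rep, hidem, hidem]
    refine ⟨i + 1, ?_⟩
    rw [← cls_rep, ← cls_rep]
    refine cls_eq.2 ⟨fun o y z => ?_, (cls_eq.1 h2).2⟩
    cases o with
    | some i' => exact (cls_eq.1 h2).1 i' y z
    | none =>
      obtain ⟨n0, hn0⟩ := hK' y z
      have h3 := hper n0 1
      have h4 := hper n0 2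
      rw [← cls_rep, ← cls_rep] at h3 h4
      have h5 := (cls_eq.1 h3).1 none y z
      have h6 := (cls_eq.1 h4).1 none y z
      have h7 := hn0 (i + 1 + n0 * (k + 1)) (by nlinarith)
      rw [show i + 1 + n0 * (k + 1) + 1 = i + 2 + n0 * (k + 1) by ring] at h7
      exact h6.symm.trans (h7.symm.trans h5)
  · intro p
    obtain ⟨w0, rfl⟩ := cls_surj p
    exact cls_inH hh hR hH hM w0

end Crest.Agent.R320
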