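import Crest.Agent.R320.TopAux

set_option linter.unusedSectionVars false

namespace Crest.Agent.R320
universe u
variable {A : Type u}

namespace TopAux
variable {V : Type} [AddCommGroup V]

/-- The last `k` letters after reading `x`. -/
def nbuf (k : ℕ) (buf : List A) (x : A) : List A := (buf ++ [x]).drop (buf.length + 1 - k)

theorem length_nbuf (k : ℕ) (buf : List A) (x : A) :
    (nbuf k buf x).length = min k (buf.length + 1) := by
  simp [nbuf]; omega

theorem nbuf_seg (k : ℕ) (w : ℕ → A) {τ l : ℕ} (h : l ≤ τ) :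
    nbuf k (seg w (τ - l) l) (w τ) = seg w (τ + 1 - min k (l + 1)) (min k (l + 1)) := by
  have := seg_succ w (τ - l) l
  rw [Nat.sub_add_cancel h] at this
  rw [nbuf, ← this, length_seg, drop_seg _ _ _ _ (by omega)]
  congr 1 <;> omega

/-- The automaton sees a usable event. -/
def Proc (D : EvData A) (S : ISys V) (p : ℕ × Bool × List A) (x : A) : Prop :=
  p.2.1 = false ∧ S.usable (p.1 + 1) ∧ (nbuf D.k p.2.2 x).length = D.k ∧ D.isEv (nbuf D.k p.2.2 x)

open Classical in
/-- The transition function. -/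
noncomputable def rstep (D : EvData A) (S : ISys V) (p : ℕ × Bool × List A) (x : A) :
    ℕ × Bool × List A :=
  if Proc D S p x then (p.1 + 1 + S.sh (p.1 + 1), true, [])
  else if S.ell ≤ p.1 + 1 then (0, false, [])
  else (p.1 + 1, p.2.1, if p.2.1 = true ∨ ∃ h, S.sage h = p.1 + 1 then [] else nbuf D.k p.2.2 x)

open Classical in
/-- The translation part of the label map. -/
noncomputable def rtr (D : EvData A) (S : ISys V) (p : ℕ × Bool × List A) (x : A) : V :=
  if Proc D S p x then S.gam (p.1 + 1) else 0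

open Classical in
/-- The length of the buffer as a function of the age. -/
noncomputable def bl (S : ISys V) (k : ℕ) : ℕ → ℕ
  | 0 => 0
  | a + 1 => if ∃ h, S.sage h = a + 1 then 0 else min k (bl S k a + 1)

variable {ρ : A → V →+ V} {D : EvData A} {S : ISys V} {L n : ℕ}

theorem bl_le (k a : ℕ) : bl S k a ≤ a := by
  induction a with
  | zero => simp [bl]
  | succ a ih => rw [bl]; split_ifs <;> omega

theorem le_bl (k a j : ℕ) (h₁ : j ≤ k) (h₂ : j ≤ a) (h : ∀ h, S.sage h + j ≤ a ∨ a < S.sage h) :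
    j ≤ bl S k a := by
  induction a generalizing j with
  | zero => omega
  | succ a ih =>
    cases j with
    | zero => omega
    | succ j =>
      have := ih j (by omega) (by omega) fun s => by have := h s; omega
      rw [bl, if_neg (by rintro ⟨s, hs⟩; have := h s; omega)]
      omega

theorem bl_sage (hS : S.Good L n D.k D.Q0) (h : S.Site) : bl S D.k (S.sage h) = 0 := by
  obtain ⟨a, ha⟩ : ∃ a, S.sage h = a + 1 := ⟨S.sage h - 1, by have := hS.sage_pos h; omega⟩
  rw [ha, bl, if_pos ⟨h, ha⟩]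

/-- The state with age `a` and flag `f` at time `τ`. -/
noncomputable def cs (D : EvData A) (S : ISys V) (w : ℕ → A) (τ a : ℕ) (f : Bool) :
    ℕ × Bool × List A :=
  (a, f, if f = true then [] else seg w (τ - bl S D.k a) (bl S D.k a))

theorem cs_birth (w : ℕ → A) (τ : ℕ) : cs D S w τ 0 false = (0, false, []) := by simp [cs, bl]

theorem cs_site (hS : S.Good L n D.k D.Q0) (w : ℕ → A) (τ : ℕ) (h : S.Site) (f : Bool) :
    cs D S w τ (S.sage h) f = (S.sage h, f, []) := by simp [cs, bl_sage hS]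

theorem proc_iff (hD : D.Good n) (hS : S.Good L n D.k D.Q0) (w : ℕ → A) {τ a : ℕ} {f : Bool}
    (ha : f = false → a ≤ τ) :
    Proc D S (cs D S w τ a f) (w τ) ↔ f = false ∧ S.usable (a + 1) ∧ D.Ev w (τ + 1) := by
  unfold Proc
  refine and_congr_right fun hf => and_congr_right fun hu => ?_
  change f = false at hf
  change S.usable (a + 1) at hu
  have h1 := bl_le (S := S) D.k a
  have h2 := ha hf
  have h3 := hD.k_pos
  obtain ⟨u1, -, u3⟩ := hS.use _ hu
  have h4 := le_bl (S := S) D.k a (D.k - 1) (by omega) (by omega) fun s => by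
    have := u3 s; omega
  have h5 : min D.k (bl S D.k a + 1) = D.k := by omega
  simp only [cs, hf, Bool.false_eq_true, if_false]
  rw [nbuf_seg _ _ (by omega), h5, length_seg, EvData.Ev]
  exact ⟨fun h => ⟨by omega, h.2⟩, fun h => ⟨rfl, h.2⟩⟩

theorem step_cs (hD : D.Good n) (hS : S.Good L n D.k D.Q0) (w : ℕ → A) {τ : ℕ}
    (x : ℕ × Bool × V) (ha : x.2.1 = false → x.1 ≤ τ) :
    rstep D S (cs D S w τ x.1 x.2.1) (w τ) = cs D S w (τ + 1) (jstep ρ S (D.Ev w) w τ x).1
      (jstep ρ S (D.Ev w) w τ x).2.1 ∧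
    ρ (w τ) x.2.2 + rtr D S (cs D S w τ x.1 x.2.1) (w τ) = (jstep ρ S (D.Ev w) w τ x).2.2 ∧
    ((jstep ρ S (D.Ev w) w τ x).2.1 = false → (jstep ρ S (D.Ev w) w τ x).1 ≤ τ + 1) := by
  obtain ⟨a, f, v⟩ := x
  have hp := proc_iff hD hS w ha
  by_cases h1 : f = false ∧ S.usable (a + 1) ∧ D.Ev w (τ + 1)
  · rw [rstep, rtr, jstep, if_pos (hp.2 h1), if_pos (hp.2 h1), if_pos h1]
    simp [cs]
  · have h1' := fun h => h1 (hp.1 h)
    rw [rstep, rtr, jstep, if_neg h1', if_neg h1', if_neg h1]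
    by_cases h2 : S.ell ≤ a + 1
    · rw [if_pos (show S.ell ≤ (cs D S w τ a f).1 + 1 from h2), if_pos h2, cs_birth]
      simp
    · rw [if_neg (show ¬ S.ell ≤ (cs D S w τ a f).1 + 1 from h2), if_neg h2]
      refine ⟨?_, by simp, fun h => by have := ha h; simp only at this ⊢; omega⟩
      cases f
      · have h3 := bl_le (S := S) D.k a
        have h4 := ha rfl
        simp only at h4
        by_cases h5 : ∃ h, S.sage h = a + 1
        · simp [cs, bl, h5]
        · simp only [cs, bl, h5, Bool.false_eq_true, if_false, or_self]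
          rw [nbuf_seg _ _ (by omega)]
      · simp [cs]

/-- The carrier. -/
noncomputable def mkC (ρ : A → V →+ V) (D : EvData A) (S : ISys V) (hS : S.Good L n D.k D.Q0) :
    CData A V where
  rho := ρ
  Pos := {p : ℕ × Bool × List A // p.1 < S.ell ∧ p.2.2.length ≤ D.k}
  step p x := ⟨rstep D S p.1 x, by
    unfold rstep
    split_ifs with h1 h2 h3
    · exact ⟨(hS.use _ h1.2.1).2.1, by simp⟩
    · exact ⟨hS.ell_pos, by simp⟩
    · exact ⟨by simp only; omega, by simp⟩
    · exact ⟨by simp only; omega, by simp [length_nbuf]⟩⟩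
  tr p x := rtr D S p.1 x
  birth := ⟨(0, false, []), hS.ell_pos, by simp⟩
  ell := S.ell
  Q0 := D.Q0
  Site := S.Site
  spos h := ⟨(S.sage h, S.sflag h, []), hS.sage_lt h, by simp⟩
  scnt := S.scnt
  ev := D.ev
  Tev := S.Tev

/-- The carrier simulates the ideal system. -/
theorem sim (hD : D.Good n) (hS : S.Good L n D.k D.Q0) (w : ℕ → A) (c : ℕ)
    (s : (mkC ρ D S hS).Pos × V) {a : ℕ} {f : Bool} (hs : s.1.1 = cs D S w c a f)
    (ha : f = false → a ≤ c) :
    ∃ σ : ℕ → ℕ × Bool × V, Traj ρ S (D.Ev w) w c σ ∧ σ c = (a, f, s.2) ∧ ∀ t,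
      ((mkC ρ D S hS).trun s (seg w c t)).1.1 =
        cs D S w (c + t) (σ (c + t)).1 (σ (c + t)).2.1 ∧
      ((mkC ρ D S hS).trun s (seg w c t)).2 = (σ (c + t)).2.2 := by
  let r : ℕ → ℕ × Bool × V := fun t =>
    Nat.rec (a, f, s.2) (fun t x => jstep ρ S (D.Ev w) w (c + t) x) t
  have hr : ∀ t, r (t + 1) = jstep ρ S (D.Ev w) w (c + t) (r t) := fun _ => rfl
  refine ⟨fun τ => r (τ - c), fun τ hτ => ?_, by simp [r], ?_⟩
  · simp only
    rw [show τ + 1 - c = τ - c + 1 by omega, hr, Nat.add_sub_cancel' hτ]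
  · simp only [Nat.add_sub_cancel_left]
    have key : ∀ t, (((mkC ρ D S hS).trun s (seg w c t)).1.1 =
        cs D S w (c + t) (r t).1 (r t).2.1 ∧
        ((mkC ρ D S hS).trun s (seg w c t)).2 = (r t).2.2) ∧
        ((r t).2.1 = false → (r t).1 ≤ c + t) := by
      intro t
      induction t with
      | zero => exact ⟨⟨hs, rfl⟩, ha⟩
      | succ t ih =>
        obtain ⟨⟨i1, i2⟩, i3⟩ := ih
        obtain ⟨j1, j2, j3⟩ := step_cs (ρ := ρ) hD hS w (r t) i3
        rw [CData.trun_seg_succ, hr]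
        refine ⟨⟨?_, ?_⟩, j3⟩
        · rw [← Nat.add_assoc, ← j1, ← i1]; rfl
        · rw [← j2, ← i1, ← i2]; rfl
    exact fun t => (key t).1

/-- Runs from the birth position. -/
theorem sim_birth (hD : D.Good n) (hS : S.Good L n D.k D.Q0) (w : ℕ → A) (c : ℕ) :
    ∃ σ : ℕ → ℕ × Bool × V, Traj ρ S (D.Ev w) w c σ ∧ σ c = (0, false, 0) ∧ ∀ t,
      ((mkC ρ D S hS).prun (mkC ρ D S hS).birth (seg w c t)).1 =
        cs D S w (c + t) (σ (c + t)).1 (σ (c + t)).2.1 := by
  obtain ⟨σ, h1, h2, h3⟩ := sim (ρ := ρ) hD hS w c ((mkC ρ D S hS).birth, 0) (a := 0) (f := false)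
    (cs_birth w c).symm fun _ => Nat.zero_le _
  exact ⟨σ, h1, h2, fun t => by rw [← (h3 t).1, CData.trun_fst]⟩

theorem ne_birth {hS : S.Good L n D.k D.Q0} {p : (mkC ρ D S hS).Pos} {w : ℕ → A} {τ a : ℕ}
    {f : Bool} (hp : p.1 = cs D S w τ a f) (h : a ≠ 0) : p ≠ (mkC ρ D S hS).birth := by
  rintro rfl
  exact h (congrArg Prod.fst hp).symm

theorem p1_aux (hS : S.Good L n D.k D.Q0) (w : ℕ → A) (j : ℕ) :
    ∀ (p : (mkC ρ D S hS).Pos) (c : ℕ), S.ell ≤ p.1.1 + j →
      ∃ d, 0 < d ∧ d ≤ j ∧ (mkC ρ D S hS).prun p (seg w c d) = (mkC ρ D S hS).birth := by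
  induction j with
  | zero => intro p c h; have := p.2.1; omega
  | succ j ih =>
    intro p c h
    by_cases hb : (mkC ρ D S hS).step p (w c) = (mkC ρ D S hS).birth
    · exact ⟨1, by omega, by omega, by rw [seg_succ', CData.prun_cons]; exact hb⟩
    · obtain ⟨d, d1, d2, d3⟩ := ih ((mkC ρ D S hS).step p (w c)) (c + 1) (by
        have : p.1.1 + 1 ≤ (rstep D S p.1 (w c)).1 := by
          by_contra hc
          refine hb (Subtype.ext ?_)
          change rstep D S p.1 (w c) = (0, false, [])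
          unfold rstep at hc ⊢
          split_ifs at hc ⊢ with h1 h2 h3
          · simp at hc
          · rfl
          · simp at hc
          · simp at hc
        change S.ell ≤ (rstep D S p.1 (w c)).1 + j
        omega)
      exact ⟨d + 1, by omega, by omega, by rw [seg_succ', CData.prun_cons]; exact d3⟩

theorem exists_ev (hD : D.Good n) {w : ℕ → A} {T : ℕ} (hw : ∀ c, ∃ t, T < D.ev (seg w c t))
    (c : ℕ) : ∃ e, c < e ∧ D.Ev w e := by
  obtain ⟨t, ht⟩ := hw c
  obtain ⟨e, h1, -, h2⟩ := Set.nonempty_of_ncard_ne_zero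
    (show Set.ncard {e | c < e ∧ e ≤ c + t ∧ D.Ev w e} ≠ 0 by have := hD.ev_le w c t; omega)
  exact ⟨e, h1, h2⟩

theorem bt_aux (hD : D.Good n) (hS : S.Good L n D.k D.Q0) (w : ℕ → A)
    (hw : (mkC ρ D S hS).Rich w) (β i : ℕ) (hβ : 2 * S.ell ≤ β) (hi : i < L) :
    ∃ (h : (mkC ρ D S hS).Site) (d : ℕ), (mkC ρ D S hS).scnt h = i ∧
      (mkC ρ D S hS).prun (mkC ρ D S hS).birth (seg w β d) = (mkC ρ D S hS).spos h ∧
      (∀ d', 0 < d' → d' ≤ d →
        (mkC ρ D S hS).prun (mkC ρ D S hS).birth (seg w β d') ≠ (mkC ρ D S hS).birth) ∧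
      ∀ h', h' ≠ h → ∃ t, (mkC ρ D S hS).dead h' (seg w (β + d) t) := by
  obtain ⟨ar, a1, a2⟩ : ∃ ar, (S.usable ar ∧ D.Ev w (β + ar) ∨ ar = S.ell) ∧
      ∀ j, j < ar → S.usable j → ¬ D.Ev w (β + j) := by
    classical
    by_cases h : ∃ a, S.usable a ∧ D.Ev w (β + a)
    · exact ⟨Nat.find h, Or.inl (Nat.find_spec h), fun j hj h1 h2 => Nat.find_min h hj ⟨h1, h2⟩⟩
    · exact ⟨S.ell, Or.inr rfl, fun j _ h1 h2 => h ⟨j, h1, h2⟩⟩
  obtain ⟨h, b1, b2, b3⟩ := hS.bt (D.Ev w) (phi ρ w) β ar i (hD.spacing w) (exists_ev hD hw) hβ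
    (a1.imp And.left fun h => h.ge) hi
  obtain ⟨σ, s1, s2, s3⟩ := sim_birth (ρ := ρ) hD hS w β
  have hk := hD.k_pos
  have hl := hS.sage_lt h
  obtain ⟨d, d1, d2, d3⟩ : ∃ d, β + d + (if ar < S.sage h then S.sh ar else 0) = β + S.sage h ∧
      ((σ (β + d)).1 = S.sage h ∧ (σ (β + d)).2.1 = S.sflag h) ∧
      ∀ d', 0 < d' → d' ≤ d → (σ (β + d')).1 ≠ 0 := by
    by_cases hlt : ar < S.sage h
    · obtain ⟨u1, u2⟩ : S.usable ar ∧ D.Ev w (β + ar) := a1.resolve_right (by omega)
      obtain ⟨v1, -, v3⟩ := hS.use _ u1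
      have v4 := v3 h
      have p := s1.proc hS le_rfl s2 ar (by omega) (by simpa using u1) u2
        fun j _ j2 j3 => a2 j j2 (by simpa using j3)
      have q := fun t ht => s1.free (by omega) p t ht (Or.inl rfl)
      simp only [Nat.zero_add] at q
      refine ⟨S.sage h - S.sh ar, by rw [if_pos hlt]; omega, ?_, fun d' e1 e2 => ?_⟩
      · rw [show β + (S.sage h - S.sh ar) = β + ar + (S.sage h - S.sh ar - ar) by omega,
          q _ (by omega), b2.2 hlt]
        exact ⟨by simp only; omega, rfl⟩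
      · rcases lt_or_ge d' ar with e3 | e3
        · rw [s1.free le_rfl s2 d' (by omega)
            (Or.inr fun j _ j2 j3 => a2 j (by omega) (by simpa using j3))]
          simp only; omega
        · rw [show β + d' = β + ar + (d' - ar) by omega, q _ (by omega)]
          simp only; omega
    · have q := fun t (ht : t ≤ S.sage h) => s1.free le_rfl s2 t (by omega)
        (Or.inr fun j _ j2 j3 => by
          rw [Nat.zero_add] at j3
          have := (hS.use _ j3).2.2 h
          exact a2 j (by omega) j3)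
      refine ⟨S.sage h, by rw [if_neg hlt, Nat.add_zero], ?_, fun d' e1 e2 => ?_⟩
      · rw [q _ le_rfl]
        refine ⟨by simp, ?_⟩
        cases hf : S.sflag h
        · rfl
        · exact absurd (b2.1 hf) hlt
      · rw [q _ e2]
        simp only; omega
  refine ⟨h, d, b1, Subtype.ext ?_, fun d' e1 e2 => ne_birth (s3 d') (d3 d' e1 e2),
    fun h' hh' => ?_⟩
  · rw [s3, d2.1, d2.2, cs_site hS]; rfl
  have hl' := hS.sage_lt h'
  obtain ⟨B, pr, B0, hI⟩ := irun_exists hS (fun e =>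
    (if S.sflag h' = true then β + d - S.sage h' + S.ell else β + d) < e ∧ D.Ev w e)
    (β + d - S.sage h')
  have hB : B 0 + S.sage h' = β + d := by omega
  rw [← B0] at hI
  obtain ⟨tend, t1, t2, t3⟩ := b3 (β + d) d1 h' hh' B pr hB hI
  refine ⟨tend - (β + d), _, List.prefix_refl _, ?_, fun lam => ?_⟩
  · have := hD.ev_le w (β + d) (tend - (β + d))
    rw [Nat.add_sub_cancel' t1] at this
    exact this.trans t2
  · by_contra hc
    obtain ⟨σ', r1, r2, r3⟩ := sim (ρ := ρ) hD hS w (β + d) ((mkC ρ D S hS).spos h', lam)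
      (cs_site hS w (β + d) h' (S.sflag h')).symm fun _ => by omega
    refine t3 (r1.chain hS r2 hl' hB hI fun τ e1 e2 e3 => hc ⟨seg w (β + d) (τ - (β + d)),
      seg_prefix _ _ (by omega), fun e => ?_, ?_⟩)
    · have := congrArg List.length e
      simp at this; omega
    · obtain ⟨r4, r5⟩ := r3 (τ - (β + d))
      rw [Nat.add_sub_cancel' e1.le, e3] at r4 r5
      exact Prod.ext (Subtype.ext (r4.trans (cs_birth _ _))) r5

theorem good [Finite A] (hD : D.Good n) (hS : S.Good L n D.k D.Q0) : (mkC ρ D S hS).Good L where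
  finPos := by
    have : {p : ℕ × Bool × List A | p.1 < S.ell ∧ p.2.2.length ≤ D.k}.Finite :=
      ((Set.finite_Iio S.ell).prod ((Set.finite_univ (α := Bool)).prod
        (List.finite_length_le A D.k))).subset fun p hp => ⟨hp.1, trivial, hp.2⟩
    exact this.to_subtype
  finSite := hS.finSite
  Q0_pos := hD.Q0_pos
  p1 p w c := p1_aux hS w S.ell p c (Nat.le_add_left _ _)
  ev_nil := hD.ev_nil
  ev_left := hD.ev_left
  ev_right := hD.ev_right
  ev_reg := hD.ev_reg _
  bt w hw β i hi := by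
    have e : ∀ c t, seg (fun i => w (i - 2 * S.ell)) (c + 2 * S.ell) t = seg w c t := fun c t =>
      seg_congr fun i _ => by congr 1; omega
    obtain ⟨h, d, h1, h2, h3, h4⟩ := bt_aux hD hS (fun i => w (i - 2 * S.ell)) (fun c => by
      obtain ⟨t, ht⟩ := hw c
      refine ⟨2 * S.ell + t, lt_of_lt_of_le ht ?_⟩
      rw [seg_add, e]
      exact hD.ev_right _ _) (β + 2 * S.ell) i (Nat.le_add_left _ _) hi
    simp only [Nat.add_right_comm β, e] at h2 h3 h4
    exact ⟨h, d, h1, h2, h3, h4⟩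
  p4 w q hq hw := hD.p4 w q S.Tev hq hw
  p5 Λ := by
    obtain ⟨W, hW⟩ := hD.p5 S.Tev Λ
    refine ⟨W, fun w c hc => ?_⟩
    obtain ⟨c', c1, c2, c3⟩ := hW w c hc
    refine ⟨c', c1, fun i i1 i2 => ?_, fun β b1 b2 => ?_⟩
    · change i + S.ell ≤ _ at i2
      change w (i + S.ell) = _
      obtain ⟨m, hm⟩ := hS.ell_dvd
      rw [hm] at i2 ⊢
      clear hm
      induction m with
      | zero => simp
      | succ m ih =>
        rw [Nat.mul_succ] at i2 ⊢
        rw [← Nat.add_assoc, c3 _ (by omega) (by omega), ih (by omega)]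
    · change β + S.ell ≤ _ at b2
      obtain ⟨σ, s1, s2, s3⟩ := sim_birth (ρ := ρ) hD hS w β
      refine ⟨Subtype.ext ?_, fun d d1 d2 => ne_birth (s3 d) ?_⟩
      · refine (s3 S.ell).trans ?_
        rw [s1.free_birth le_rfl s2 S.ell hS.ell_pos (by simp)
          (Or.inr fun j _ _ _ => c2 _ (by omega) (by omega))]
        exact cs_birth _ _
      · change d < S.ell at d2
        rw [s1.free le_rfl s2 d (by omega) (Or.inr fun j _ _ _ => c2 _ (by omega) (by omega))]
        simp only; omega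

end TopAux

theorem carrier_of_isys [Finite A] {V : Type} [AddCommGroup V] (ρ : A → V →+ V) {L n : ℕ}
    (D : EvData A) (hD : D.Good n) (S : ISys V) (hS : S.Good L n D.k D.Q0) :
    ∃ C : CData A V, C.rho = ρ ∧ C.Good L :=
  ⟨TopAux.mkC ρ D S hS, rfl, TopAux.good hD hS⟩

end Crest.Agent.R320
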