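import Crest.Agent.R320.Defs

/-!
Row 320: trajectories `(age, flag, label)` of the ideal system.
-/

namespace Crest.Agent.R320.TopAux
universe u
variable {A : Type u} {V : Type} [AddCommGroup V]

/-- The linear part of the label map from time `e` to time `e'`. -/
def phi (ρ : A → V →+ V) (w : ℕ → A) (e e' : ℕ) (v : V) : V :=
  (seg w e (e' - e)).foldl (fun v a => ρ a v) v

section phi
variable (ρ : A → V →+ V) (w : ℕ → A)

theorem phi_self (e : ℕ) (v : V) : phi ρ w e e v = v := by simp [phi]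

theorem phi_succ {e e' : ℕ} (h : e ≤ e') (v : V) :
    phi ρ w e (e' + 1) v = ρ (w e') (phi ρ w e e' v) := by
  rw [phi, show e' + 1 - e = e' - e + 1 by omega, seg_succ, List.foldl_append,
    Nat.add_sub_cancel' h]
  rfl

theorem phi_trans {a b c : ℕ} (h : a ≤ b) (h' : b ≤ c) (v : V) :
    phi ρ w b c (phi ρ w a b v) = phi ρ w a c v := by
  induction c, h' using Nat.le_induction with
  | base => rw [phi_self]
  | succ c hc ih => rw [phi_succ _ _ hc, ih, phi_succ _ _ (h.trans hc)]

theorem phi_zero {a b : ℕ} (h : a ≤ b) : phi ρ w a b 0 = 0 := by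
  induction b, h using Nat.le_induction with
  | base => rw [phi_self]
  | succ b hb ih => rw [phi_succ _ _ hb, ih, map_zero]

end phi

open Classical in
/-- One step of the ideal system, from time `τ` to time `τ + 1`. -/
noncomputable def jstep (ρ : A → V →+ V) (S : ISys V) (E : ℕ → Prop) (w : ℕ → A) (τ : ℕ)
    (x : ℕ × Bool × V) : ℕ × Bool × V :=
  if x.2.1 = false ∧ S.usable (x.1 + 1) ∧ E (τ + 1) then
    (x.1 + 1 + S.sh (x.1 + 1), true, ρ (w τ) x.2.2 + S.gam (x.1 + 1))
  else if S.ell ≤ x.1 + 1 then (0, false, ρ (w τ) x.2.2)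
  else (x.1 + 1, x.2.1, ρ (w τ) x.2.2)

/-- Trajectories from time `c` on. -/
def Traj (ρ : A → V →+ V) (S : ISys V) (E : ℕ → Prop) (w : ℕ → A) (c : ℕ)
    (σ : ℕ → ℕ × Bool × V) : Prop :=
  ∀ τ, c ≤ τ → σ (τ + 1) = jstep ρ S E w τ (σ τ)

variable {ρ : A → V →+ V} {S : ISys V} {E : ℕ → Prop} {w : ℕ → A} {c₀ : ℕ}
  {σ : ℕ → ℕ × Bool × V} {L n k Q0 : ℕ}

/-- No processing, no birth. -/
theorem Traj.free (hσ : Traj ρ S E w c₀ σ) {c a : ℕ} {f : Bool} {v : V} (hc : c₀ ≤ c)
    (h : σ c = (a, f, v)) (t : ℕ) (ht : a + t < S.ell)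
    (hno : f = true ∨ ∀ j, 0 < j → j ≤ t → S.usable (a + j) → ¬ E (c + j)) :
    σ (c + t) = (a + t, f, phi ρ w c (c + t) v) := by
  induction t with
  | zero => simpa [phi_self] using h
  | succ t ih =>
    rw [← Nat.add_assoc, hσ _ (by omega),
      ih (by omega) (hno.imp id fun h j h1 h2 => h j h1 (by omega)), jstep, if_neg, if_neg,
      phi_succ _ _ (by omega)]
    · rfl
    · simp only; omega
    · rintro ⟨h1, h2, h3⟩
      rcases hno with h4 | h4
      · simp [h4] at h1
      · exact h4 (t + 1) (by omega) le_rfl h2 h3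

/-- No processing until the next birth. -/
theorem Traj.free_birth (hσ : Traj ρ S E w c₀ σ) {c a : ℕ} {f : Bool} {v : V} (hc : c₀ ≤ c)
    (h : σ c = (a, f, v)) (t : ℕ) (ha : a < S.ell) (ht : a + t = S.ell)
    (hno : f = true ∨ ∀ j, 0 < j → j ≤ t → S.usable (a + j) → ¬ E (c + j)) :
    σ (c + t) = (0, false, phi ρ w c (c + t) v) := by
  obtain ⟨t, rfl⟩ : ∃ s, t = s + 1 := ⟨t - 1, by omega⟩
  rw [← Nat.add_assoc, hσ _ (by omega), hσ.free hc h t (by omega)
    (hno.imp id fun h j h1 h2 => h j h1 (by omega)), jstep, if_neg, if_pos,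
    phi_succ _ _ (by omega)]
  · simp only; omega
  · rintro ⟨h1, h2, h3⟩
    rcases hno with h4 | h4
    · simp [h4] at h1
    · exact h4 (t + 1) (by omega) le_rfl h2 h3

/-- The first usable event is processed. -/
theorem Traj.proc (hσ : Traj ρ S E w c₀ σ) (hS : S.Good L n k Q0) {c a : ℕ} {v : V} (hc : c₀ ≤ c)
    (h : σ c = (a, false, v)) (t : ℕ) (h0 : 0 < t) (hu : S.usable (a + t)) (hE : E (c + t))
    (hno : ∀ j, 0 < j → j < t → S.usable (a + j) → ¬ E (c + j)) :
    σ (c + t) = (a + t + S.sh (a + t), true, phi ρ w c (c + t) v + S.gam (a + t)) := by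
  obtain ⟨t, rfl⟩ : ∃ s, t = s + 1 := ⟨t - 1, by omega⟩
  have := (hS.use _ hu).2.1
  rw [← Nat.add_assoc c, hσ _ (by omega), hσ.free hc h t (by omega)
    (Or.inr fun j h1 h2 => hno j h1 (by omega)), jstep, if_pos ⟨rfl, hu, hE⟩,
    phi_succ _ _ (by omega)]
  rfl

open Classical in
/-- The event processed by a trajectory born at time `b`. -/
noncomputable def prI (S : ISys V) (E : ℕ → Prop) (b : ℕ) : Option ℕ :=
  if h : ∃ e, S.Us E b e then some (Nat.find h) else none

/-- The births. -/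
noncomputable def birthI (S : ISys V) (E : ℕ → Prop) (b : ℕ) : ℕ → ℕ
  | 0 => b
  | m + 1 => birthI S E b m + S.ell -
      ((prI S E (birthI S E b m)).map fun e => S.sh (e - birthI S E b m)).getD 0

theorem irun_exists (hS : S.Good L n k Q0) (E : ℕ → Prop) (b : ℕ) :
    ∃ B pr, B 0 = b ∧ S.IRun E B pr := by
  refine ⟨birthI S E b, fun m => prI S E (birthI S E b m), rfl, fun m e h => ?_, fun m h => ?_⟩
  · have h' := h
    unfold prI at h'
    split_ifs at h' with h1
    obtain rfl : _ = e := Option.some.inj h'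
    classical
    refine ⟨Nat.find_spec h1, fun e' he' => Nat.find_min h1 he', ?_⟩
    have := (hS.use _ (Nat.find_spec h1).2.2).2.1
    rw [birthI, h, Option.map_some, Option.getD_some]
    omega
  · have h' := h
    unfold prI at h'
    split_ifs at h' with h1
    refine ⟨fun e he => h1 ⟨e, he⟩, ?_⟩
    rw [birthI, h]
    rfl

/-- A trajectory without hit yields a chain. -/
theorem Traj.chain (hσ : Traj ρ S E w c₀ σ) (hS : S.Good L n k Q0) {a : ℕ} {f : Bool} {v : V}
    (h : σ c₀ = (a, f, v)) (ha : a < S.ell) {B : ℕ → ℕ} {pr : ℕ → Option ℕ} (hB : B 0 + a = c₀)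
    (hI : S.IRun (fun e => (if f = true then B 0 + S.ell else c₀) < e ∧ E e) B pr) {tend : ℕ}
    (hno : ∀ τ, c₀ < τ → τ ≤ tend → σ τ ≠ (0, false, 0)) : S.Chain (phi ρ w) B pr tend := by
  -- the start of cycle `m`
  set c : ℕ → ℕ := fun m => if m = 0 then c₀ else B m with hc
  set T := if f = true then B 0 + S.ell else c₀ with hT
  -- one cycle
  have cyc : ∀ m a' f', c₀ ≤ c m → B m + a' = c m → a' < S.ell →
      σ (c m) = (a', f', (σ (c m)).2.2) → (f' = false → T ≤ c m) →
      (∀ e, T < e → S.usable (e - B m) → B m < e → f' = false ∧ c m < e) →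
      c m < B (m + 1) ∧ (f' = true → B (m + 1) = B m + S.ell) ∧
      (pr m = none → σ (B (m + 1)) = (0, false, phi ρ w (c m) (B (m + 1)) (σ (c m)).2.2)) ∧
      ∀ e, pr m = some e → c m < e ∧ e < B (m + 1) ∧ σ (B (m + 1)) =
        (0, false, phi ρ w e (B (m + 1)) (phi ρ w (c m) e (σ (c m)).2.2 + S.gam (e - B m))) := by
    intro m a' f' h1 h2 h3 h4 h5 h6
    cases hp : pr m with
    | none =>
      obtain ⟨n1, n2⟩ := hI.none m hp
      refine ⟨by omega, fun _ => n2, fun _ => ?_, fun e he => by cases he⟩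
      have := hσ.free_birth h1 h4 (S.ell - a') h3 (by omega) (by
        cases f'
        · refine Or.inr fun j j1 j2 j3 j4 => n1 (c m + j) ⟨by omega, ⟨?_, j4⟩, ?_⟩
          · have := h5 rfl; omega
          · rwa [show c m + j - B m = a' + j by omega]
        · exact Or.inl rfl)
      rwa [show c m + (S.ell - a') = B (m + 1) by omega] at this
    | some e =>
      obtain ⟨⟨s1, ⟨s2, s3⟩, s4⟩, s5, s6⟩ := hI.some m e hp
      obtain ⟨rfl, s7⟩ := h6 e s2 s4 s1
      have s8 := (hS.use _ s4).2.1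
      have e1 : c m + (e - c m) = e := by omega
      have e2 : a' + (e - c m) = e - B m := by omega
      have p1 := hσ.proc hS h1 h4 (e - c m) (by omega) (by rwa [e2]) (by rwa [e1])
        fun j j1 j2 j3 j4 => s5 (c m + j) (by omega) ⟨by omega, ⟨by have := h5 rfl; omega, j4⟩,
          by rwa [show c m + j - B m = a' + j by omega]⟩
      rw [e1, e2] at p1
      have p2 := hσ.free_birth (by omega) p1 (B (m + 1) - e) s8 (by omega) (Or.inl rfl)
      rw [show e + (B (m + 1) - e) = B (m + 1) by omega] at p2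
      refine ⟨by omega, fun h => (by cases h), fun h => (by cases h), fun e' he' => ?_⟩
      obtain rfl : e = e' := Option.some.inj he'
      exact ⟨s7, by omega, p2⟩
  have c0 : c 0 = c₀ := rfl
  have cS : ∀ m, c (m + 1) = B (m + 1) := fun m => rfl
  have z := cyc 0 a f le_rfl hB ha (by rw [c0, h]) (fun hf => by simp [hT, hf, c0])
    fun e e1 e2 e3 => by
      have := (hS.use _ e2).2.1
      cases f
      · exact ⟨rfl, by simpa [hT, c0] using e1⟩
      · simp only [hT, if_true] at e1; omega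
  have hTB : T ≤ B 1 := by
    cases f
    · simpa [hT, c0] using z.1.le
    · simpa [hT] using (z.2.1 rfl).ge
  have all : ∀ m, (c₀ < B (m + 1) ∧ T ≤ B (m + 1)) ∧ c m < B (m + 1) ∧
      (pr m = none → σ (B (m + 1)) = (0, false, phi ρ w (c m) (B (m + 1)) (σ (c m)).2.2)) ∧
      ∀ e, pr m = some e → c m < e ∧ e < B (m + 1) ∧ σ (B (m + 1)) =
        (0, false, phi ρ w e (B (m + 1)) (phi ρ w (c m) e (σ (c m)).2.2 + S.gam (e - B m))) := by
    intro m
    induction m with
    | zero => exact ⟨⟨z.1, hTB⟩, z.1, z.2.2⟩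
    | succ m ih =>
      obtain ⟨⟨i1, i2⟩, -, i3, i4⟩ := ih
      have y := cyc (m + 1) 0 false i1.le rfl hS.ell_pos (by
        rw [cS]
        cases hp : pr m with
        | none => rw [i3 hp]
        | some e => rw [(i4 e hp).2.2]) (fun _ => i2) fun e _ _ e3 => ⟨rfl, e3⟩
      have := y.1
      rw [cS] at this
      exact ⟨⟨by omega, by omega⟩, y.1, y.2.2⟩
  refine ⟨fun m => phi ρ w (c m) ((pr m).getD 0) (σ (c m)).2.2, fun m e hp hle h0 => ?_,
    fun m m' e e' hm hp hp' hj => ?_⟩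
  · obtain ⟨⟨i1, -⟩, -, -, i4⟩ := all m
    obtain ⟨-, j2, j3⟩ := i4 e hp
    simp only [hp, Option.getD_some] at h0
    rw [h0, phi_zero _ _ j2.le] at j3
    exact hno _ i1 hle j3
  · simp only [hp, hp', Option.getD_some]
    have key : ∀ j, m ≤ j → j < m' → e ≤ B (j + 1) ∧ (σ (B (j + 1))).2.2 =
        phi ρ w e (B (j + 1)) (phi ρ w (c m) e (σ (c m)).2.2 + S.gam (e - B m)) := by
      intro j hj1
      induction j, hj1 using Nat.le_induction with
      | base =>
        intro _
        obtain ⟨-, j2, j3⟩ := (all m).2.2.2 e hp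
        exact ⟨j2.le, by rw [j3]⟩
      | succ j hj1 ih =>
        intro hj2
        obtain ⟨k1, k2⟩ := ih (by omega)
        obtain ⟨-, i2, i3, -⟩ := all (j + 1)
        rw [cS] at i2 i3
        refine ⟨by omega, ?_⟩
        rw [i3 (hj _ (by omega) hj2), k2, phi_trans _ _ k1 i2.le]
    obtain ⟨m', rfl⟩ : ∃ s, m' = s + 1 := ⟨m' - 1, by omega⟩
    obtain ⟨k1, k2⟩ := key m' (by omega) (by omega)
    have := ((all (m' + 1)).2.2.2 e' hp').1
    rw [cS] at this ⊢
    rw [k2, phi_trans _ _ k1 this.le]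

end Crest.Agent.R320.TopAux
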